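import Crest.Agent.GEN.Main

/-! Openness of the generation property and the Baire category argument. -/

set_option autoImplicit false
open Filter Topology

namespace Crest.Agent.GEN

universe u

theorem genOpen : GenOpen.{u} := by
  intro A _ T S u hu x ε ⟨a, ha, hax⟩
  have key : ∃ C ≥ (0 : ℝ), ∀ v ∈ unitary A, ∃ b ∈ StarAlgebra.adjoin ℂ (insert v (S : Set A)),
      ‖b‖ ≤ C ∧ T.n2 (b - a) ≤ C * T.n2 (v - u) := by
    clear hax
    have hS : ∀ a ∈ S, ∃ C ≥ (0 : ℝ), ∀ v ∈ unitary A,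
        ∃ b ∈ StarAlgebra.adjoin ℂ (insert v (S : Set A)),
          ‖b‖ ≤ C ∧ T.n2 (b - a) ≤ C * T.n2 (v - u) := fun a ha =>
      ⟨‖a‖, norm_nonneg _, fun v _ => ⟨a, StarAlgebra.subset_adjoin _ _ (Set.mem_insert_of_mem _ ha),
        le_rfl, by simpa using mul_nonneg (norm_nonneg _) (T.n2_nonneg _)⟩⟩
    induction ha using StarAlgebra.adjoin_induction with
    | mem y hy =>
      rcases hy with rfl | hy
      · exact ⟨1, zero_le_one, fun v hv => ⟨v, StarAlgebra.subset_adjoin _ _ (Set.mem_insert _ _),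
          norm_unitary_le hv, by simp⟩⟩
      · exact hS y hy
    | algebraMap r => exact hS _ (algebraMap_mem S r)
    | add y z _ _ h1 h2 =>
      obtain ⟨C, hC, h1⟩ := h1
      obtain ⟨D, hD, h2⟩ := h2
      refine ⟨C + D, by positivity, fun v hv => ?_⟩
      obtain ⟨b, hb, b1, b2⟩ := h1 v hv
      obtain ⟨d, hd, d1, d2⟩ := h2 v hv
      refine ⟨b + d, add_mem hb hd, (norm_add_le _ _).trans (add_le_add b1 d1), ?_⟩
      rw [add_sub_add_comm, add_mul]
      exact (T.n2_add_le _ _).trans (add_le_add b2 d2)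
    | mul y z _ _ h1 h2 =>
      obtain ⟨C, hC, h1⟩ := h1
      obtain ⟨D, hD, h2⟩ := h2
      refine ⟨C * D + C * ‖z‖, by positivity, fun v hv => ?_⟩
      obtain ⟨b, hb, b1, b2⟩ := h1 v hv
      obtain ⟨d, hd, d1, d2⟩ := h2 v hv
      have n0 := T.n2_nonneg (v - u)
      refine ⟨b * d, mul_mem hb hd, ((norm_mul_le _ _).trans
        (mul_le_mul b1 d1 (norm_nonneg _) hC)).trans (le_add_of_nonneg_right (by positivity)), ?_⟩
      have e : b * d - y * z = b * (d - z) + (b - y) * z := by noncomm_ring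
      rw [e]
      refine (T.n2_add_le _ _).trans ?_
      have k1 := (T.n2_mul_le b (d - z)).trans (mul_le_mul b1 d2 (T.n2_nonneg _) hC)
      have k2 := (T.n2_mul_le' (b - y) z).trans (mul_le_mul_of_nonneg_right b2 (norm_nonneg z))
      nlinarith
    | star y _ h1 =>
      obtain ⟨C, hC, h1⟩ := h1
      refine ⟨C, hC, fun v hv => ?_⟩
      obtain ⟨b, hb, b1, b2⟩ := h1 v hv
      exact ⟨star b, star_mem hb, by simpa, by rwa [← star_sub, T.n2_star]⟩
  obtain ⟨C, hC, h⟩ := key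
  refine ⟨(ε - T.n2 (a - x)) / (C + 1), by have := sub_pos.2 hax; positivity, fun v hv hvu => ?_⟩
  obtain ⟨b, hb, -, b2⟩ := h v hv
  refine ⟨b, hb, ?_⟩
  rw [lt_div_iff₀ (by positivity)] at hvu
  nlinarith [T.n2_triangle b a x, T.n2_nonneg (v - u)]

theorem thmB (hA : ThmA.{u}) (hO : GenOpen.{u}) : ThmB.{u} := by
  intro A _ T S hS hF hC hSep hD hP u hu ε hε
  obtain ⟨x, hx, hdense⟩ := hSep (unitary A) 1 ⟨1, one_mem _⟩ fun z hz => norm_unitary_le hz
  have st : ∀ (k : ℕ) (q : {q : A × ℝ // q.1 ∈ unitary A ∧ 0 < q.2}),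
      ∃ q' : {q : A × ℝ // q.1 ∈ unitary A ∧ 0 < q.2}, q'.1.2 ≤ q.1.2 / 2 ∧
        T.n2 (q'.1.1 - q.1.1) ≤ q.1.2 / 2 ∧ ∀ w ∈ unitary A, T.n2 (w - q'.1.1) ≤ q'.1.2 →
          T.Gen S w (x k.unpair.1) (1 / ((k.unpair.2 : ℝ) + 1)) := by
    rintro k ⟨⟨v, r⟩, hv, hr⟩
    obtain ⟨w, hw, h1, a, ha, h2⟩ := hA A T S hS hD hP v hv (x k.unpair.1) (hx _)
      (min (r / 2) (1 / ((k.unpair.2 : ℝ) + 1))) (lt_min (half_pos hr) (by positivity))
    obtain ⟨δ, hδ, h3⟩ := hO A T S w hw _ _ ⟨a, ha, h2.trans_le (min_le_right _ _)⟩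
    exact ⟨⟨(w, min (δ / 2) (r / 2)), hw, lt_min (half_pos hδ) (half_pos hr)⟩, min_le_right _ _,
      (h1.trans_le (min_le_left _ _)).le, fun z hz h => h3 z hz
        ((h.trans (min_le_left _ _)).trans_lt (half_lt_self hδ))⟩
  choose f hf1 hf2 hf3 using st
  let q : ℕ → {q : A × ℝ // q.1 ∈ unitary A ∧ 0 < q.2} := fun n =>
    Nat.rec ⟨(u, ε / 2), hu, half_pos hε⟩ f n
  let v : ℕ → A := fun n => (q n).1.1
  let r : ℕ → ℝ := fun n => (q n).1.2
  have hv : ∀ n, v n ∈ unitary A := fun n => (q n).2.1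
  have hr : ∀ n, 0 < r n := fun n => (q n).2.2
  have r1 : ∀ n, r (n + 1) ≤ r n / 2 := fun n => hf1 n (q n)
  have r2 : ∀ n, T.n2 (v (n + 1) - v n) ≤ r n / 2 := fun n => hf2 n (q n)
  have r3 : ∀ k m, k ≤ m → T.n2 (v m - v k) ≤ r k - r m := fun k m hkm => by
    induction m, hkm using Nat.le_induction with
    | base => simp
    | succ m _ ih => linarith [T.n2_triangle (v (m + 1)) (v m) (v k), r1 m, r2 m]
  have r4 : ∀ n, r n ≤ ε / 2 * (1 / 2) ^ n := fun n => by
    induction n with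
    | zero => simp [r, q]
    | succ n ih => rw [pow_succ]; linarith [r1 n]
  have r5 : Tendsto r atTop (𝓝 0) := squeeze_zero (fun n => (hr n).le) r4 (by
    simpa using (tendsto_pow_atTop_nhds_zero_of_lt_one (r := (1 / 2 : ℝ)) (by norm_num)
      (by norm_num)).const_mul (ε / 2))
  obtain ⟨b, -, hb1, hb⟩ := hC v 1 (fun _ => trivial) (fun n => norm_unitary_le (hv n))
    fun η hη => by
      obtain ⟨N, hN⟩ := (r5.eventually (gt_mem_nhds (half_pos hη))).exists
      refine ⟨N, fun m hm n hn => ?_⟩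
      have := T.n2_triangle (v m) (v N) (v n)
      rw [T.n2_sub_rev (v N)] at this
      linarith [r3 N m hm, r3 N n hn, hr m, hr n]
  have hbk : ∀ k, T.n2 (b - v k) ≤ r k := fun k => by
    refine le_of_tendsto_of_tendsto tendsto_const_nhds (by simpa using hb.add_const (r k)) ?_
    filter_upwards [eventually_ge_atTop k] with m hm
    have := T.n2_triangle b (v m) (v k)
    rw [T.n2_sub_rev b (v m)] at this
    linarith [r3 k m hm, hr m]
  have hbu : b ∈ unitary A := by
    have z : ∀ y : A, (∀ k, T.n2 y ≤ 2 * r k) → y = 0 := fun y hy => hF y (le_antisymm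
      (ge_of_tendsto' (by simpa using r5.const_mul 2) hy) (T.n2_nonneg _))
    have n1 : ∀ k, T.n2 (star b - star (v k)) ≤ r k := fun k => by
      rw [← star_sub, T.n2_star]; exact hbk k
    refine Unitary.mem_iff.2 ⟨sub_eq_zero.1 (z _ fun k => ?_), sub_eq_zero.1 (z _ fun k => ?_)⟩
    · have e : star b * b - 1 = star b * (b - v k) + (star b - star (v k)) * v k := by
        rw [← Unitary.star_mul_self_of_mem (hv k)]; noncomm_ring
      rw [e]
      have k1 := T.n2_mul_le (star b) (b - v k)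
      rw [norm_star] at k1
      nlinarith [T.n2_add_le (star b * (b - v k)) ((star b - star (v k)) * v k),
        T.n2_mul_unitary (hv k) (star b - star (v k)), hbk k, n1 k, T.n2_nonneg (b - v k)]
    · have e : b * star b - 1 = b * (star b - star (v k)) + (b - v k) * star (v k) := by
        rw [← Unitary.mul_star_self_of_mem (hv k)]; noncomm_ring
      rw [e]
      have k1 := T.n2_mul_le b (star b - star (v k))
      nlinarith [T.n2_add_le (b * (star b - star (v k))) ((b - v k) * star (v k)),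
        T.n2_mul_unitary (Unitary.star_mem (hv k)) (b - v k), hbk k, n1 k,
        T.n2_nonneg (star b - star (v k))]
  refine ⟨b, hbu, (hbk 0).trans_lt (half_lt_self hε), fun y => ?_⟩
  have hy : y ∈ Submodule.span ℂ (unitary A : Set A) := by
    rw [CStarAlgebra.span_unitary]; trivial
  induction hy using Submodule.span_induction with
  | mem y hy =>
    intro δ hδ
    obtain ⟨n, hn⟩ := hdense y hy _ (half_pos hδ)
    obtain ⟨m, hm⟩ := exists_nat_one_div_lt (half_pos hδ)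
    obtain ⟨a, ha, h⟩ := hf3 (Nat.pair n m) _ b hbu (hbk (Nat.pair n m + 1))
    rw [Nat.unpair_pair] at h
    refine ⟨a, ha, ?_⟩
    rw [T.n2_sub_rev] at hn
    linarith [T.n2_triangle a (x n) y]
  | zero => exact fun δ hδ => ⟨0, zero_mem _, by simpa⟩
  | add y z _ _ h1 h2 =>
    intro δ hδ
    obtain ⟨a, ha, h1⟩ := h1 _ (half_pos hδ)
    obtain ⟨c, hc, h2⟩ := h2 _ (half_pos hδ)
    refine ⟨a + c, add_mem ha hc, ?_⟩
    rw [add_sub_add_comm]
    linarith [T.n2_add_le (a - y) (c - z)]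
  | smul c y _ h1 =>
    intro δ hδ
    obtain ⟨a, ha, h1⟩ := h1 (δ / (‖c‖ + 1)) (by positivity)
    refine ⟨c • a, SMulMemClass.smul_mem _ ha, ?_⟩
    rw [← smul_sub, T.n2_smul]
    rw [lt_div_iff₀ (by positivity)] at h1
    nlinarith [T.n2_nonneg (a - y)]

theorem thmB' : ThmB.{u} := thmB (thmA genOpen) genOpen

end Crest.Agent.GEN
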