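import Mathlib

/-! Tracial states on C⋆-algebras, the trace 2-seminorm and the interface predicates used for the
generator theorem. -/

set_option autoImplicit false
open scoped ComplexOrder ComplexConjugate InnerProductSpace
open Filter Topology

namespace Crest.Agent.GEN

universe u

/-- A tracial state. -/
structure Tr (A : Type u) [CStarAlgebra A] where
  τ : A →L[ℂ] ℂ
  map_one : τ 1 = 1
  comm : ∀ a b, τ (a * b) = τ (b * a)
  nonneg : ∀ a, 0 ≤ τ (star a * a)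
  map_star : ∀ a, τ (star a) = conj (τ a)

variable {A : Type u} [CStarAlgebra A]

/-- Type synonym carrying the trace inner product. -/
def Tr.L (_T : Tr A) : Type u := A

namespace Tr
variable (T : Tr A)

instance : AddCommGroup T.L := inferInstanceAs (AddCommGroup A)
instance : Module ℂ T.L := inferInstanceAs (Module ℂ A)

/-- The identity map into the synonym. -/
noncomputable def toL : A ≃ₗ[ℂ] T.L := LinearEquiv.refl ℂ A

@[instance_reducible] noncomputable def core : PreInnerProductSpace.Core ℂ T.L where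
  inner a b := T.τ (star (T.toL.symm a) * T.toL.symm b)
  conj_inner_symm a b := by
    rw [← T.map_star]; simp
  re_inner_nonneg a := by
    have := T.nonneg (T.toL.symm a)
    exact (Complex.nonneg_iff.1 this).1
  add_left a b c := by simp [add_mul]
  smul_left a b r := by simp

noncomputable instance : SeminormedAddCommGroup T.L :=
  @InnerProductSpace.Core.toSeminormedAddCommGroup ℂ T.L _ _ _ T.core

noncomputable instance : InnerProductSpace ℂ T.L := .ofCore T.core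

/-- The trace 2-seminorm. -/
noncomputable def n2 (a : A) : ℝ := ‖T.toL a‖

lemma inner_toL (a b : A) : ⟪T.toL a, T.toL b⟫_ℂ = T.τ (star a * b) := rfl

lemma n2_nonneg (a : A) : 0 ≤ T.n2 a := norm_nonneg _

lemma n2_sq (a : A) : T.n2 a ^ 2 = (T.τ (star a * a)).re := by
  rw [n2, ← T.inner_toL, ← inner_self_eq_norm_sq (𝕜 := ℂ)]; rfl

lemma τ_star_mul_self (a : A) : T.τ (star a * a) = ((T.n2 a ^ 2 : ℝ) : ℂ) := by
  rw [n2_sq]
  exact Complex.ext (by simp) (by simpa using (Complex.nonneg_iff.1 (T.nonneg a)).2.symm)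

lemma n2_eq_sqrt (a : A) : T.n2 a = √(T.τ (star a * a)).re := by
  rw [← n2_sq, Real.sqrt_sq (T.n2_nonneg a)]

lemma cs (a b : A) : ‖T.τ (star a * b)‖ ≤ T.n2 a * T.n2 b := by
  rw [← T.inner_toL]; exact norm_inner_le_norm _ _

@[simp] lemma n2_zero : T.n2 0 = 0 := by simp [n2]
@[simp] lemma n2_neg (a : A) : T.n2 (-a) = T.n2 a := by simp [n2]
lemma n2_sub_rev (a b : A) : T.n2 (a - b) = T.n2 (b - a) := by
  simp [n2, norm_sub_rev]
lemma n2_add_le (a b : A) : T.n2 (a + b) ≤ T.n2 a + T.n2 b := by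
  simp only [n2, map_add]; exact norm_add_le _ _
lemma n2_sub_le (a b : A) : T.n2 (a - b) ≤ T.n2 a + T.n2 b := by
  simp only [n2, map_sub]; exact norm_sub_le _ _
lemma n2_triangle (a b c : A) : T.n2 (a - c) ≤ T.n2 (a - b) + T.n2 (b - c) := by
  simpa using T.n2_add_le (a - b) (b - c)
lemma n2_smul (c : ℂ) (a : A) : T.n2 (c • a) = ‖c‖ * T.n2 a := by
  simp only [n2, map_smul]; exact norm_smul _ _
lemma n2_sum_le {ι : Type*} (s : Finset ι) (a : ι → A) :
    T.n2 (∑ i ∈ s, a i) ≤ ∑ i ∈ s, T.n2 (a i) := by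
  simp only [n2, map_sum]; exact norm_sum_le _ _
lemma n2_star (a : A) : T.n2 (star a) = T.n2 a := by
  rw [n2_eq_sqrt, n2_eq_sqrt, star_star, T.comm]
@[simp] lemma n2_one : T.n2 1 = 1 := by
  rw [n2_eq_sqrt]; simp [T.map_one]

lemma n2_add_sq (a b : A) :
    T.n2 (a + b) ^ 2 = T.n2 a ^ 2 + 2 * (T.τ (star a * b)).re + T.n2 b ^ 2 := by
  simp only [n2, map_add]; rw [@norm_add_sq ℂ, T.inner_toL]; rfl
lemma n2_sub_sq (a b : A) :
    T.n2 (a - b) ^ 2 = T.n2 a ^ 2 - 2 * (T.τ (star a * b)).re + T.n2 b ^ 2 := by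
  simp only [n2, map_sub]; rw [@norm_sub_sq ℂ, T.inner_toL]; rfl
lemma parallelogram (a b : A) :
    T.n2 (a + b) ^ 2 + T.n2 (a - b) ^ 2 = 2 * (T.n2 a ^ 2 + T.n2 b ^ 2) := by
  rw [n2_add_sq, n2_sub_sq]; ring

lemma n2_mul_le (a b : A) : T.n2 (a * b) ≤ ‖a‖ * T.n2 b := by
  let _ := CStarAlgebra.spectralOrder A
  have := CStarAlgebra.spectralOrderedRing A
  have h : (0 : A) ≤ algebraMap ℝ A (‖a‖ ^ 2) - star a * a :=
    sub_nonneg.2 CStarAlgebra.star_mul_le_algebraMap_norm_sq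
  obtain ⟨z, hz⟩ := CStarAlgebra.nonneg_iff_eq_star_mul_self.1 h
  have h1 := (Complex.nonneg_iff.1 (T.nonneg (z * b))).1
  have h2 : star (z * b) * (z * b) =
      ((‖a‖ ^ 2 : ℝ) : ℂ) • (star b * b) - star (a * b) * (a * b) := by
    rw [star_mul, star_mul, mul_assoc, ← mul_assoc (star z), ← hz, Algebra.algebraMap_eq_smul_one]
    simp only [sub_mul, mul_sub, smul_mul_assoc, mul_smul_comm, one_mul, mul_assoc]
    rw [Complex.coe_smul]
  rw [h2, map_sub, map_smul, T.τ_star_mul_self, T.τ_star_mul_self] at h1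
  simp only [smul_eq_mul, ← Complex.ofReal_mul, ← Complex.ofReal_sub, Complex.ofReal_re] at h1
  have h3 : T.n2 (a * b) ^ 2 ≤ (‖a‖ * T.n2 b) ^ 2 := by nlinarith
  exact abs_le_of_sq_le_sq' h3 (mul_nonneg (norm_nonneg _) (T.n2_nonneg _)) |>.2

lemma n2_mul_le' (a b : A) : T.n2 (a * b) ≤ T.n2 a * ‖b‖ := by
  rw [← n2_star, star_mul, ← T.n2_star a, ← norm_star b, mul_comm]; exact T.n2_mul_le _ _

lemma n2_le_norm (a : A) : T.n2 a ≤ ‖a‖ := by
  simpa using T.n2_mul_le a 1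

lemma norm_τ_le_n2 (a : A) : ‖T.τ a‖ ≤ T.n2 a := by
  simpa using T.cs 1 a

lemma norm_τ_le (a : A) : ‖T.τ a‖ ≤ ‖a‖ := (T.norm_τ_le_n2 a).trans (T.n2_le_norm a)

lemma cs' (a b : A) : ‖T.τ (a * b)‖ ≤ T.n2 a * T.n2 b := by
  simpa [T.n2_star] using T.cs (star a) b

lemma n2_unitary_mul {u : A} (hu : u ∈ unitary A) (a : A) : T.n2 (u * a) = T.n2 a := by
  rw [n2_eq_sqrt, n2_eq_sqrt, star_mul, mul_assoc, ← mul_assoc (star u),
    Unitary.star_mul_self_of_mem hu, one_mul]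

lemma n2_mul_unitary {u : A} (hu : u ∈ unitary A) (a : A) : T.n2 (a * u) = T.n2 a := by
  rw [← n2_star, star_mul, T.n2_unitary_mul (Unitary.star_mem hu), n2_star]

lemma n2_unitary {u : A} (hu : u ∈ unitary A) : T.n2 u = 1 := by
  simpa using T.n2_unitary_mul hu 1

lemma nontrivial (T : Tr A) : Nontrivial A := by
  by_contra h
  rw [not_nontrivial_iff_subsingleton] at h
  have := T.map_one
  rw [Subsingleton.elim (1 : A) 0, map_zero] at this
  exact zero_ne_one this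

lemma τ_proj {p : A} (hp : IsStarProjection p) : T.τ p = ((T.n2 p ^ 2 : ℝ) : ℂ) := by
  rw [← T.τ_star_mul_self, hp.isSelfAdjoint.star_eq, hp.isIdempotentElem.eq]

lemma n2_proj_sq {p : A} (hp : IsStarProjection p) : T.n2 p ^ 2 = (T.τ p).re := by
  rw [T.τ_proj hp, Complex.ofReal_re]

lemma continuous_n2 : Continuous T.n2 := by
  refine (LipschitzWith.of_dist_le_mul (K := 1) fun a b => ?_).continuous
  rw [Real.dist_eq, dist_eq_norm, NNReal.coe_one, one_mul]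
  refine le_trans ?_ (T.n2_le_norm _)
  simp only [n2, map_sub]; exact abs_norm_sub_norm_le _ _

/-- Faithfulness. -/
def Faithful : Prop := ∀ a : A, T.n2 a = 0 → a = 0

/-- Norm-bounded 2-Cauchy sequences in `S` have a 2-limit in `S` (with the same bound). -/
def Complete (S : StarSubalgebra ℂ A) : Prop :=
  ∀ (a : ℕ → A) (C : ℝ), (∀ n, a n ∈ S) → (∀ n, ‖a n‖ ≤ C) →
    (∀ ε > 0, ∃ N, ∀ m ≥ N, ∀ n ≥ N, T.n2 (a m - a n) < ε) →
    ∃ b ∈ S, ‖b‖ ≤ C ∧ Tendsto (fun n => T.n2 (a n - b)) atTop (𝓝 0)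

/-- Dixmier averaging by unitaries of `S`. -/
def Dix (S : StarSubalgebra ℂ A) : Prop :=
  ∀ (F : Finset A) (ε : ℝ), 0 < ε → ∃ (ι : Type) (_ : Fintype ι) (_ : Nonempty ι) (w : ι → A),
    (∀ k, w k ∈ S ∧ w k ∈ unitary A) ∧
    ∀ b ∈ F, T.n2 ((Fintype.card ι : ℂ)⁻¹ • ∑ k, w k * b * star (w k) - T.τ b • (1 : A)) ≤ ε

/-- `e` has partitions into projections of `S` with small positive traces. -/
def Part (S : StarSubalgebra ℂ A) (e : A) : Prop :=
  ∀ c : ℝ, 0 < c → ∃ (k : ℕ) (p : Fin k → A),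
    (∀ a, p a ∈ S ∧ IsStarProjection (p a) ∧ 0 < (T.τ (p a)).re ∧ (T.τ (p a)).re ≤ c) ∧
    (∀ a b, a ≠ b → p a * p b = 0) ∧ ∑ a, p a = e

/-- `x` is within `ε` in 2-norm of the ⋆-algebra generated by `S` and `u`. -/
def Gen (S : StarSubalgebra ℂ A) (u x : A) (ε : ℝ) : Prop :=
  ∃ a ∈ StarAlgebra.adjoin ℂ (insert u (S : Set A)), T.n2 (a - x) < ε

/-- Every nonempty norm-bounded set has a 2-dense sequence. -/
def Sep : Prop :=
  ∀ (Z : Set A) (C : ℝ), Z.Nonempty → (∀ z ∈ Z, ‖z‖ ≤ C) →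
    ∃ x : ℕ → A, (∀ n, x n ∈ Z) ∧ ∀ z ∈ Z, ∀ ε > 0, ∃ n, T.n2 (z - x n) < ε

end Tr

/-- `S` has trivial relative commutant in `A`. -/
def Irred (S : StarSubalgebra ℂ A) : Prop :=
  ∀ z : A, (∀ s ∈ S, z * s = s * z) → ∃ c : ℂ, z = c • (1 : A)

/-- The main theorem (abstract form). -/
def ThmA : Prop :=
  ∀ (A : Type u) [CStarAlgebra A] (T : Tr A) (S : StarSubalgebra ℂ A), IsClosed (S : Set A) →
    T.Dix S → T.Part S 1 → ∀ u ∈ unitary A, ∀ x ∈ unitary A, ∀ ε > 0,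
      ∃ v ∈ unitary A, T.n2 (v - u) < ε ∧ T.Gen S v x ε

/-- Consequence of `ThmA` by Baire category: a dense set of unitaries `v` such that the algebra
generated by `S` and `v` is 2-dense. -/
def ThmB : Prop :=
  ∀ (A : Type u) [CStarAlgebra A] (T : Tr A) (S : StarSubalgebra ℂ A), IsClosed (S : Set A) →
    T.Faithful → T.Complete ⊤ → T.Sep → T.Dix S → T.Part S 1 → ∀ u ∈ unitary A, ∀ ε > 0,
      ∃ v ∈ unitary A, T.n2 (v - u) < ε ∧ ∀ x : A, ∀ δ > 0, T.Gen S v x δ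

/-- Openness of `Gen` in the unitary variable. -/
def GenOpen : Prop :=
  ∀ (A : Type u) [CStarAlgebra A] (T : Tr A) (S : StarSubalgebra ℂ A), ∀ u ∈ unitary A,
    ∀ (x : A) (ε : ℝ), T.Gen S u x ε →
      ∃ δ > 0, ∀ v ∈ unitary A, T.n2 (v - u) < δ → T.Gen S v x ε

/-- Dixmier averaging from irreducibility. -/
def DixThm : Prop :=
  ∀ (A : Type u) [CStarAlgebra A] (T : Tr A) (S : StarSubalgebra ℂ A), IsClosed (S : Set A) →
    T.Faithful → T.Complete ⊤ → Irred S → T.Dix S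

/-- Halving and small partitions in an infinite-dimensional complete irreducible subalgebra. -/
def PartThm : Prop :=
  ∀ (A : Type u) [CStarAlgebra A] (T : Tr A) (S : StarSubalgebra ℂ A),
    T.Faithful → T.Dix S → T.Complete S → ¬ FiniteDimensional ℂ S →
    ∀ e ∈ S, IsStarProjection e →
      (∃ f ∈ S, IsStarProjection f ∧ f * e = f ∧ T.τ f = T.τ e / 2) ∧ T.Part S e

/-- Free refinement of the unit (local quantization together with independence). -/
def RefThm : Prop :=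
  ∀ (A : Type u) [CStarAlgebra A] (T : Tr A), T.Dix ⊤ → T.Part ⊤ 1 →
    ∀ (F : Finset A) (ε : ℝ), 0 < ε → ∃ (k : ℕ) (q : Fin k → A),
      (∀ a, IsStarProjection (q a) ∧ 0 < (T.τ (q a)).re ∧ (T.τ (q a)).re ≤ ε) ∧
      (∀ a b, a ≠ b → q a * q b = 0) ∧
      ∑ a, q a = 1 ∧ (∀ x ∈ F, T.n2 (∑ a, q a * x * q a - T.τ x • (1 : A)) ≤ ε) ∧
      ∀ y ∈ F, ∀ a, ‖T.τ (q a * y) - T.τ (q a) * T.τ y‖ ≤ ε * (T.τ (q a)).re

/-- Two commuting towers of projections with trivial relative commutant. -/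
def TowerThm : Prop :=
  ∀ (A : Type u) [CStarAlgebra A] (T : Tr A), T.Faithful → T.Complete ⊤ → T.Sep → Irred (⊤ : StarSubalgebra ℂ A) →
    ¬ FiniteDimensional ℂ A →
    ∃ (e : A) (p q : ℕ → A), IsStarProjection e ∧ T.τ e = 1 / 2 ∧
      (∀ n, IsStarProjection (p n) ∧ p n * e = 0 ∧ IsStarProjection (q n)) ∧
      (∀ m n, p m * p n = p n * p m ∧ q m * q n = q n * q m) ∧
      (∀ c > 0, ∃ n, 0 < (T.τ (q n)).re ∧ (T.τ (q n)).re ≤ c) ∧
      ∀ z : A, z * e = e * z → (∀ n, z * p n = p n * z ∧ z * q n = q n * z) →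
        ∃ c : ℂ, z = c • (1 : A)

end Crest.Agent.GEN
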