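import Crest.Agent.GEN.Basic

/-! The corner C⋆-algebra `e A e` of a projection, with the normalised trace. -/

set_option autoImplicit false
open scoped ComplexOrder ComplexConjugate InnerProductSpace
open Filter Topology

namespace Crest.Agent.GEN

universe u
variable {A : Type u} [CStarAlgebra A]

/-- The corner as a non-unital star subalgebra. -/
def cornerSub {e : A} (he : IsStarProjection e) : NonUnitalStarSubalgebra ℂ A where
  carrier := {x | e * x = x ∧ x * e = x}
  add_mem' := fun {a b} ha hb => ⟨by rw [mul_add, ha.1, hb.1], by rw [add_mul, ha.2, hb.2]⟩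
  zero_mem' := ⟨mul_zero _, zero_mul _⟩
  mul_mem' := fun {a b} ha hb => ⟨by rw [← mul_assoc, ha.1], by rw [mul_assoc, hb.2]⟩
  smul_mem' := fun c {a} ha => ⟨by rw [mul_smul_comm, ha.1], by rw [smul_mul_assoc, ha.2]⟩
  star_mem' := fun {a} ha =>
    ⟨by rw [← he.isSelfAdjoint.star_eq, ← star_mul, ha.2],
     by rw [← he.isSelfAdjoint.star_eq, ← star_mul, ha.1]⟩

instance isClosed_cornerSub {e : A} (he : IsStarProjection e) :
    IsClosed (cornerSub he : Set A) :=
  (isClosed_eq (by fun_prop) continuous_id).inter (isClosed_eq (by fun_prop) continuous_id)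

/-- The corner `e A e` as a type. -/
def Cor {e : A} (he : IsStarProjection e) : Type u := cornerSub he

namespace Cor
variable {e : A} {he : IsStarProjection e}

noncomputable instance : NonUnitalCStarAlgebra (Cor he) :=
  inferInstanceAs (NonUnitalCStarAlgebra (cornerSub he))

/-- The underlying element. -/
def val (x : Cor he) : A := Subtype.val x

/-- Constructor. -/
def mk (he : IsStarProjection e) (x : A) (h1 : e * x = x) (h2 : x * e = x) : Cor he := ⟨x, h1, h2⟩

@[simp] lemma val_mk (x : A) (h1 : e * x = x) (h2 : x * e = x) : (mk he x h1 h2).val = x := rfl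

@[ext] lemma ext {x y : Cor he} (h : x.val = y.val) : x = y := Subtype.ext h

lemma e_mul (x : Cor he) : e * x.val = x.val := x.2.1
lemma mul_e (x : Cor he) : x.val * e = x.val := x.2.2

noncomputable instance : Ring (Cor he) where
  __ : NonUnitalRing (Cor he) := inferInstance
  one := mk he e he.isIdempotentElem.eq he.isIdempotentElem.eq
  one_mul x := ext x.e_mul
  mul_one x := ext x.mul_e

noncomputable instance : NormedRing (Cor he) where
  __ : Ring (Cor he) := inferInstance
  __ : NonUnitalNormedRing (Cor he) := inferInstance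

noncomputable instance : Algebra ℂ (Cor he) :=
  Algebra.ofModule (fun c x y => smul_mul_assoc c x y) (fun c x y => mul_smul_comm c x y)

noncomputable instance : NormedAlgebra ℂ (Cor he) where
  norm_smul_le c x := norm_smul_le c x

noncomputable instance : CStarAlgebra (Cor he) where

@[simp] lemma val_one : (1 : Cor he).val = e := rfl
@[simp] lemma val_zero : (0 : Cor he).val = 0 := rfl
@[simp] lemma val_add (x y : Cor he) : (x + y).val = x.val + y.val := rfl
@[simp] lemma val_sub (x y : Cor he) : (x - y).val = x.val - y.val := rfl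
@[simp] lemma val_neg (x : Cor he) : (-x).val = -x.val := rfl
@[simp] lemma val_mul (x y : Cor he) : (x * y).val = x.val * y.val := rfl
@[simp] lemma val_star (x : Cor he) : (star x).val = star x.val := rfl
@[simp] lemma val_smul (c : ℂ) (x : Cor he) : (c • x).val = c • x.val := rfl
@[simp] lemma norm_val (x : Cor he) : ‖x.val‖ = ‖x‖ := rfl

/-- The inclusion as a continuous linear map. -/
noncomputable def valL (he : IsStarProjection e) : Cor he →L[ℂ] A :=
  LinearMap.mkContinuous
    { toFun := val, map_add' := val_add, map_smul' := val_smul } 1 (fun x => by simp)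

@[simp] lemma valL_apply (x : Cor he) : valL he x = x.val := rfl

@[simp] lemma val_sum {ι : Type*} (s : Finset ι) (x : ι → Cor he) :
    (∑ i ∈ s, x i).val = ∑ i ∈ s, (x i).val := map_sum (valL he) x s

lemma continuous_val : Continuous (val : Cor he → A) := (valL he).continuous

/-- Compression to the corner. -/
def cut (he : IsStarProjection e) (x : A) : Cor he :=
  mk he (e * x * e) (by rw [← mul_assoc, ← mul_assoc, he.isIdempotentElem.eq])
    (by rw [mul_assoc, he.isIdempotentElem.eq])

@[simp] lemma val_cut (x : A) : (cut he x).val = e * x * e := rfl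

lemma cut_val (x : Cor he) : cut he x.val = x := ext (by rw [val_cut, e_mul, mul_e])

lemma isStarProjection_iff (x : Cor he) : IsStarProjection x ↔ IsStarProjection x.val :=
  ⟨fun h => ⟨congrArg val h.isIdempotentElem.eq, congrArg val h.isSelfAdjoint.star_eq⟩,
   fun h => ⟨ext h.isIdempotentElem.eq, ext h.isSelfAdjoint.star_eq⟩⟩

/-- The corner of a star subalgebra containing `e`. -/
def sub (he : IsStarProjection e) (S : StarSubalgebra ℂ A) (heS : e ∈ S) :
    StarSubalgebra ℂ (Cor he) where
  carrier := {x | x.val ∈ S}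
  add_mem' := fun ha hb => S.add_mem ha hb
  mul_mem' := fun ha hb => S.mul_mem ha hb
  algebraMap_mem' := fun c => by
    show (algebraMap ℂ (Cor he) c).val ∈ S
    rw [Algebra.algebraMap_eq_smul_one]
    exact S.smul_mem heS c
  star_mem' := fun {a} ha => show star a.val ∈ S from star_mem (show a.val ∈ S from ha)

@[simp] lemma mem_sub {S : StarSubalgebra ℂ A} {heS : e ∈ S} {x : Cor he} :
    x ∈ sub he S heS ↔ x.val ∈ S := Iff.rfl

lemma sub_top : sub he (⊤ : StarSubalgebra ℂ A) StarSubalgebra.mem_top = ⊤ :=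
  eq_top_iff.2 fun _ _ => StarSubalgebra.mem_top

lemma isClosed_sub {S : StarSubalgebra ℂ A} (heS : e ∈ S) (hS : IsClosed (S : Set A)) :
    IsClosed (sub he S heS : Set (Cor he)) := hS.preimage continuous_val

end Cor

namespace Tr
variable (T : Tr A) {e : A}

lemma τ_proj_re (T : Tr A) {p : A} (hp : IsStarProjection p) :
    T.τ p = (((T.τ p).re : ℝ) : ℂ) := by
  rw [T.τ_proj hp, Complex.ofReal_re]

lemma τ_proj_re_nonneg (T : Tr A) {p : A} (hp : IsStarProjection p) : 0 ≤ (T.τ p).re := by
  rw [← T.n2_proj_sq hp]; positivity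

lemma τ_proj_re_le_one (T : Tr A) {p : A} (hp : IsStarProjection p) : (T.τ p).re ≤ 1 := by
  have h := T.τ_proj_re_nonneg hp.one_sub
  rw [map_sub, T.map_one] at h
  simp at h; linarith

lemma τ_proj_re_pos (T : Tr A) (hF : T.Faithful) {p : A} (hp : IsStarProjection p) (h0 : p ≠ 0) :
    0 < (T.τ p).re := by
  refine (T.τ_proj_re_nonneg hp).lt_of_ne fun h => h0 (hF p ?_)
  rw [← T.n2_proj_sq hp] at h
  exact pow_eq_zero_iff (two_ne_zero) |>.1 h.symm

/-- The normalised trace on the corner. -/
noncomputable def corner (he : IsStarProjection e) (h0 : 0 < (T.τ e).re) : Tr (Cor he) where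
  τ := (((T.τ e).re : ℂ))⁻¹ • (T.τ.comp (Cor.valL he))
  map_one := by
    have : (((T.τ e).re : ℝ) : ℂ) ≠ 0 := by exact_mod_cast h0.ne'
    simp only [smul_apply, ContinuousLinearMap.comp_apply, Cor.valL_apply,
      Cor.val_one, smul_eq_mul]
    rw [T.τ_proj_re he, Complex.ofReal_re, inv_mul_cancel₀ this]
  comm a b := by
    simp only [smul_apply, ContinuousLinearMap.comp_apply, Cor.valL_apply,
      Cor.val_mul]
    rw [T.comm]
  nonneg a := by
    simp only [smul_apply, ContinuousLinearMap.comp_apply, Cor.valL_apply,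
      Cor.val_mul, Cor.val_star, smul_eq_mul]
    refine mul_nonneg ?_ (T.nonneg _)
    rw [← Complex.ofReal_inv]
    exact_mod_cast (inv_pos.2 h0).le
  map_star a := by
    simp only [smul_apply, ContinuousLinearMap.comp_apply, Cor.valL_apply,
      Cor.val_star, smul_eq_mul, T.map_star, map_mul, map_inv₀, Complex.conj_ofReal]

variable {he : IsStarProjection e} {h0 : 0 < (T.τ e).re}

lemma corner_τ (x : Cor he) : (T.corner he h0).τ x = (((T.τ e).re : ℂ))⁻¹ * T.τ x.val := rfl

lemma corner_τ_re (x : Cor he) : ((T.corner he h0).τ x).re = (T.τ x.val).re / (T.τ e).re := by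
  rw [corner_τ, ← Complex.ofReal_inv, Complex.re_ofReal_mul, div_eq_inv_mul]

lemma corner_n2_sq (x : Cor he) :
    (T.corner he h0).n2 x ^ 2 = T.n2 x.val ^ 2 / (T.τ e).re := by
  rw [n2_sq, n2_sq, corner_τ_re]; rfl

lemma corner_n2 (x : Cor he) : (T.corner he h0).n2 x = T.n2 x.val / √(T.τ e).re := by
  rw [← Real.sqrt_sq ((T.corner he h0).n2_nonneg x), corner_n2_sq,
    Real.sqrt_div' _ h0.le, Real.sqrt_sq (T.n2_nonneg _)]

lemma n2_val (x : Cor he) : T.n2 x.val = √(T.τ e).re * (T.corner he h0).n2 x := by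
  rw [corner_n2, mul_div_cancel₀]; exact (Real.sqrt_pos.2 h0).ne'

lemma n2_val_le (x : Cor he) : T.n2 x.val ≤ (T.corner he h0).n2 x := by
  rw [T.n2_val (h0 := h0)]
  exact mul_le_of_le_one_left ((T.corner he h0).n2_nonneg x)
    (Real.sqrt_le_one.2 (T.τ_proj_re_le_one he))

lemma corner_faithful (hF : T.Faithful) : (T.corner he h0).Faithful := fun x hx =>
  Cor.ext (hF _ (by rw [T.n2_val (h0 := h0), hx, mul_zero]))

lemma corner_complete (hF : T.Faithful) {S : StarSubalgebra ℂ A} (heS : e ∈ S)
    (hC : T.Complete S) : (T.corner he h0).Complete (Cor.sub he S heS) := by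
  intro a C haS haC hc
  obtain ⟨b, hbS, hbC, hb⟩ := hC (fun n => (a n).val) C haS haC (fun ε hε => by
    obtain ⟨N, hN⟩ := hc ε hε
    exact ⟨N, fun m hm n hn => (T.n2_val_le (h0 := h0) (a m - a n)).trans_lt (hN m hm n hn)⟩)
  have hne : ‖e‖ ≤ 1 := he.norm_le
  have h1 : e * b = b := by
    refine sub_eq_zero.1 (hF _ (le_antisymm ?_ (T.n2_nonneg _)))
    have ht : Tendsto (fun n => T.n2 ((a n).val - b) + T.n2 ((a n).val - b)) atTop (𝓝 (0 + 0)) :=
      hb.add hb
    rw [add_zero] at ht
    refine ge_of_tendsto' ht fun n => ?_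
    have : e * b - b = ((a n).val - b) - e * ((a n).val - b) := by
      rw [mul_sub, Cor.e_mul]; abel
    rw [this]
    refine (T.n2_sub_le _ _).trans (add_le_add le_rfl ((T.n2_mul_le _ _).trans ?_))
    exact mul_le_of_le_one_left (T.n2_nonneg _) hne
  have h2 : b * e = b := by
    refine sub_eq_zero.1 (hF _ (le_antisymm ?_ (T.n2_nonneg _)))
    have ht : Tendsto (fun n => T.n2 ((a n).val - b) + T.n2 ((a n).val - b)) atTop (𝓝 (0 + 0)) :=
      hb.add hb
    rw [add_zero] at ht
    refine ge_of_tendsto' ht fun n => ?_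
    have : b * e - b = ((a n).val - b) - ((a n).val - b) * e := by
      rw [sub_mul, Cor.mul_e]; abel
    rw [this]
    refine (T.n2_sub_le _ _).trans (add_le_add le_rfl ((T.n2_mul_le' _ _).trans ?_))
    exact mul_le_of_le_one_right (T.n2_nonneg _) hne
  refine ⟨Cor.mk he b h1 h2, hbS, hbC, ?_⟩
  simp only [corner_n2]
  simpa using hb.div_const √(T.τ e).re

lemma corner_complete_top (hF : T.Faithful) (hC : T.Complete ⊤) :
    (T.corner he h0).Complete ⊤ := by
  rw [← Cor.sub_top]; exact T.corner_complete hF _ hC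

lemma corner_sep (hS : T.Sep) : (T.corner he h0).Sep := by
  intro Z C hZ hC
  obtain ⟨x, hx, hd⟩ := hS (Cor.val '' Z) C (hZ.image _) (by
    rintro _ ⟨z, hz, rfl⟩; exact hC z hz)
  choose y hy hyx using hx
  refine ⟨y, hy, fun z hz ε hε => ?_⟩
  have hs := Real.sqrt_pos.2 h0
  obtain ⟨n, hn⟩ := hd z.val ⟨z, hz, rfl⟩ (ε * √(T.τ e).re) (mul_pos hε hs)
  refine ⟨n, ?_⟩
  rw [corner_n2, div_lt_iff₀ hs, Cor.val_sub, hyx]
  exact hn

lemma corner_irred (hF : T.Faithful) (h0 : 0 < (T.τ e).re) {S : StarSubalgebra ℂ A} (heS : e ∈ S)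
    (hD : T.Dix S) : Irred (Cor.sub he S heS) := by
  classical
  intro z hz
  have hee := he.isIdempotentElem.eq
  have hne : ‖e‖ ≤ 1 := he.norm_le
  have key : T.τ z.val • e - T.τ e • z.val = 0 := by
    refine hF _ (le_antisymm (le_of_forall_pos_le_add fun ε hε => ?_) (T.n2_nonneg _))
    have hz1 : 0 < ‖z.val‖ + 1 := by positivity
    obtain ⟨ι, _, _, w, hw, hav⟩ := hD {z.val, e} (ε / (‖z.val‖ + 1)) (div_pos hε hz1)
    have h1 := hav z.val (by simp)
    have h2 := hav e (by simp)
    set a := (Fintype.card ι : ℂ)⁻¹ • ∑ k, w k * z.val * star (w k) with ha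
    set b := (Fintype.card ι : ℂ)⁻¹ • ∑ k, w k * e * star (w k) with hb
    have hab : e * a * e = z.val * b * e := by
      simp only [ha, hb, mul_smul_comm, smul_mul_assoc, Finset.mul_sum, Finset.sum_mul]
      congr 1
      refine Finset.sum_congr rfl fun k _ => ?_
      have hc := congrArg Cor.val (hz (Cor.cut he (w k))
        (S.mul_mem (S.mul_mem heS (hw k).1) heS))
      simp only [Cor.val_mul, Cor.val_cut] at hc
      calc e * (w k * z.val * star (w k)) * e
          = (e * w k * e * z.val) * star (w k) * e := by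
            rw [mul_assoc (e * w k) e, Cor.e_mul]; simp only [mul_assoc]
        _ = z.val * (e * w k * e) * star (w k) * e := by rw [hc]
        _ = z.val * (w k * e * star (w k)) * e := by
            simp only [← mul_assoc, Cor.mul_e]
    have : T.τ z.val • e - T.τ e • z.val =
        z.val * (b - T.τ e • (1 : A)) * e - e * (a - T.τ z.val • (1 : A)) * e := by
      simp only [mul_sub, sub_mul, hab, mul_smul_comm, smul_mul_assoc, mul_one, hee, Cor.mul_e]
      abel
    rw [this, zero_add]
    refine (T.n2_sub_le _ _).trans ?_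
    have e1 : T.n2 (z.val * (b - T.τ e • (1 : A)) * e) ≤ ‖z.val‖ * (ε / (‖z.val‖ + 1)) :=
      (T.n2_mul_le' _ _).trans ((mul_le_of_le_one_right (T.n2_nonneg _) hne).trans
        ((T.n2_mul_le _ _).trans (mul_le_mul_of_nonneg_left h2 (norm_nonneg _))))
    have e2 : T.n2 (e * (a - T.τ z.val • (1 : A)) * e) ≤ ε / (‖z.val‖ + 1) :=
      (T.n2_mul_le' _ _).trans ((mul_le_of_le_one_right (T.n2_nonneg _) hne).trans
        ((T.n2_mul_le _ _).trans ((mul_le_of_le_one_left (T.n2_nonneg _) hne).trans h1)))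
    calc _ ≤ ‖z.val‖ * (ε / (‖z.val‖ + 1)) + ε / (‖z.val‖ + 1) := add_le_add e1 e2
      _ = ε := by field_simp
  have hτ : T.τ e ≠ 0 := fun h => by rw [h] at h0; simp at h0
  refine ⟨T.τ z.val / T.τ e, Cor.ext ?_⟩
  rw [Cor.val_smul, Cor.val_one, div_eq_inv_mul, mul_smul, sub_eq_zero.1 key, smul_smul,
    inv_mul_cancel₀ hτ, one_smul]

lemma corner_irred_top (hF : T.Faithful) (h0 : 0 < (T.τ e).re) (hD : T.Dix ⊤) :
    Irred (⊤ : StarSubalgebra ℂ (Cor he)) := by
  rw [← Cor.sub_top]; exact T.corner_irred hF h0 _ hD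

lemma corner_part {S : StarSubalgebra ℂ A} (heS : e ∈ S) (hP : T.Part S e) :
    (T.corner he h0).Part (Cor.sub he S heS) 1 := by
  intro c hc
  obtain ⟨k, p, hp, ho, hs⟩ := hP (c * (T.τ e).re) (mul_pos hc h0)
  have h1 : ∀ a, e * p a = p a := fun a => by
    rw [← hs, Finset.sum_mul, Finset.sum_eq_single a (fun b _ hb => ho b a hb) (by simp),
      (hp a).2.1.isIdempotentElem.eq]
  have h2 : ∀ a, p a * e = p a := fun a => by
    rw [← hs, Finset.mul_sum, Finset.sum_eq_single a (fun b _ hb => ho a b hb.symm) (by simp),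
      (hp a).2.1.isIdempotentElem.eq]
  refine ⟨k, fun a => Cor.mk he (p a) (h1 a) (h2 a), fun a => ⟨(hp a).1, ?_, ?_, ?_⟩,
    fun a b hab => Cor.ext (ho a b hab), Cor.ext (by simpa using hs)⟩
  · exact (Cor.isStarProjection_iff _).2 (hp a).2.1
  · rw [corner_τ_re]; exact div_pos (hp a).2.2.1 h0
  · rw [corner_τ_re, div_le_iff₀ h0]; exact (hp a).2.2.2

lemma corner_part_top (hP : T.Part ⊤ e) : (T.corner he h0).Part ⊤ 1 := by
  rw [← Cor.sub_top]; exact T.corner_part _ hP

end Tr

end Crest.Agent.GEN
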