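import Crest.Agent.GEN.Basic

/-! Dixmier averaging from irreducibility. -/

set_option autoImplicit false
open Filter Topology

namespace Crest.Agent.GEN

universe u

variable {A : Type u} [CStarAlgebra A]

/-- Uniform averages of conjugations by unitaries of `S`. -/
def Avg (S : StarSubalgebra ℂ A) (f : A →ₗ[ℂ] A) : Prop :=
  ∃ (ι : Type) (_ : Fintype ι) (_ : Nonempty ι) (w : ι → A),
    (∀ k, w k ∈ S ∧ w k ∈ unitary A) ∧
    ∀ b, f b = (Fintype.card ι : ℂ)⁻¹ • ∑ k, w k * b * star (w k)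

namespace Avg
variable {S : StarSubalgebra ℂ A} {f g : A →ₗ[ℂ] A}

lemma conj {w : A} (hw : w ∈ S) (hu : w ∈ unitary A) :
    Avg S (LinearMap.mulRight ℂ (star w) ∘ₗ LinearMap.mulLeft ℂ w) :=
  ⟨Unit, inferInstance, inferInstance, fun _ => w, fun _ => ⟨hw, hu⟩, fun b => by simp⟩

lemma id : Avg S LinearMap.id :=
  ⟨Unit, inferInstance, inferInstance, fun _ => 1, fun _ => ⟨one_mem _, one_mem _⟩,
    fun b => by simp⟩

lemma comp (hf : Avg S f) (hg : Avg S g) : Avg S (f ∘ₗ g) := by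
  obtain ⟨ι, _, _, w, hw, hf⟩ := hf
  obtain ⟨κ, _, _, v, hv, hg⟩ := hg
  refine ⟨ι × κ, inferInstance, inferInstance, fun k => w k.1 * v k.2,
    fun k => ⟨mul_mem (hw _).1 (hv _).1, mul_mem (hw _).2 (hv _).2⟩, fun b => ?_⟩
  rw [LinearMap.comp_apply, hf, hg, Fintype.card_prod, Nat.cast_mul, mul_inv, mul_smul,
    Fintype.sum_prod_type]
  simp only [mul_smul_comm, smul_mul_assoc, Finset.mul_sum, Finset.sum_mul, star_mul, mul_assoc,
    Finset.smul_sum]

lemma mid (hf : Avg S f) (hg : Avg S g) : Avg S ((2⁻¹ : ℂ) • (f + g)) := by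
  obtain ⟨ι, _, _, w, hw, hf⟩ := hf
  obtain ⟨κ, _, _, v, hv, hg⟩ := hg
  refine ⟨(ι × κ) ⊕ (ι × κ), inferInstance, inferInstance,
    Sum.elim (fun k => w k.1) (fun k => v k.2), ?_, fun b => ?_⟩
  · rintro (k | k)
    exacts [hw _, hv _]
  have h1 : (Fintype.card ι : ℂ) ≠ 0 := by exact_mod_cast Fintype.card_ne_zero
  have h2 : (Fintype.card κ : ℂ) ≠ 0 := by exact_mod_cast Fintype.card_ne_zero
  rw [LinearMap.smul_apply, LinearMap.add_apply, hf, hg, Fintype.sum_sum_type,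
    Fintype.sum_prod_type, Fintype.sum_prod_type]
  simp only [Sum.elim_inl, Sum.elim_inr, Finset.sum_const, Finset.card_univ, Fintype.card_sum,
    Fintype.card_prod, ← Finset.smul_sum, ← Nat.cast_smul_eq_nsmul ℂ, smul_add, smul_smul]
  congr 2
  · push_cast; field_simp; ring
  · push_cast; field_simp; ring

lemma one (hf : Avg S f) : f 1 = 1 := by
  obtain ⟨ι, _, _, w, hw, hf⟩ := hf
  have h1 : (Fintype.card ι : ℂ) ≠ 0 := by exact_mod_cast Fintype.card_ne_zero
  rw [hf, Finset.sum_congr rfl fun k _ => by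
    rw [mul_one, Unitary.mul_star_self_of_mem (hw k).2]]
  simp [← Nat.cast_smul_eq_nsmul ℂ, smul_smul, h1]

lemma τ (hf : Avg S f) (T : Tr A) (b : A) : T.τ (f b) = T.τ b := by
  obtain ⟨ι, _, _, w, hw, hf⟩ := hf
  have h1 : (Fintype.card ι : ℂ) ≠ 0 := by exact_mod_cast Fintype.card_ne_zero
  rw [hf, map_smul, map_sum, Finset.sum_congr rfl fun k _ => by
    rw [T.comm, ← mul_assoc, Unitary.star_mul_self_of_mem (hw k).2, one_mul]]
  simp [h1]

lemma n2_le (hf : Avg S f) (T : Tr A) (b : A) : T.n2 (f b) ≤ T.n2 b := by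
  obtain ⟨ι, _, _, w, hw, hf⟩ := hf
  have h1 : (0 : ℝ) < Fintype.card ι := by exact_mod_cast Fintype.card_pos
  rw [hf, T.n2_smul, norm_inv, Complex.norm_natCast, inv_mul_le_iff₀ h1]
  refine (T.n2_sum_le _ _).trans (le_of_eq ?_)
  rw [Finset.sum_congr rfl fun k _ => by
    rw [T.n2_mul_unitary (Unitary.star_mem (hw k).2), T.n2_unitary_mul (hw k).2]]
  simp

lemma norm_le (hf : Avg S f) (b : A) : ‖f b‖ ≤ ‖b‖ := by
  obtain ⟨ι, _, _, w, hw, hf⟩ := hf
  have h1 : (0 : ℝ) < Fintype.card ι := by exact_mod_cast Fintype.card_pos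
  rw [hf, norm_smul, norm_inv, Complex.norm_natCast, inv_mul_le_iff₀ h1]
  refine (norm_sum_le _ _).trans (le_of_eq ?_)
  rw [Finset.sum_congr rfl fun k _ => by
    rw [CStarRing.norm_mul_mem_unitary _ (Unitary.star_mem (hw k).2),
      CStarRing.norm_mem_unitary_mul _ (hw k).2]]
  simp

end Avg

lemma comm_of_unitaries {S : StarSubalgebra ℂ A} (hS : IsClosed (S : Set A)) {y : A}
    (h : ∀ w ∈ S, w ∈ unitary A → y * w = w * y) : ∀ s ∈ S, y * s = s * y := by
  intro s hs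
  obtain ⟨u, c, hu, -⟩ := CStarAlgebra.exists_sum_four_unitary (⟨s, hs⟩ : S)
  have hs' : s = ∑ i, c i • ((u i : S) : A) := by
    simpa using congrArg Subtype.val hu
  rw [hs', Finset.mul_sum, Finset.sum_mul]
  refine Finset.sum_congr rfl fun i _ => ?_
  rw [mul_smul_comm, smul_mul_assoc, h _ (u i : S).2]
  have := (u i).2
  rw [Unitary.mem_iff] at this ⊢
  exact ⟨congrArg Subtype.val this.1, congrArg Subtype.val this.2⟩

lemma dix_one (T : Tr A) (S : StarSubalgebra ℂ A) (hS : IsClosed (S : Set A)) (hF : T.Faithful)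
    (hC : T.Complete ⊤) (hI : Irred S) (b : A) (ε : ℝ) (hε : 0 < ε) :
    ∃ f, Avg S f ∧ T.n2 (f b - T.τ b • (1 : A)) ≤ ε := by
  let K : Set ℝ := {r | ∃ f, Avg S f ∧ r = T.n2 (f b) ^ 2}
  have hKne : K.Nonempty := ⟨_, _, Avg.id, rfl⟩
  have hKb : BddBelow K := ⟨0, by rintro _ ⟨f, -, rfl⟩; positivity⟩
  have hlow : ∀ f, Avg S f → sInf K ≤ T.n2 (f b) ^ 2 := fun f hf => csInf_le hKb ⟨f, hf, rfl⟩
  have hex : ∀ n : ℕ, ∃ f, Avg S f ∧ T.n2 (f b) ^ 2 < sInf K + 1 / ((n : ℝ) + 1) := fun n => by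
    obtain ⟨_, ⟨f, hf, rfl⟩, h⟩ := exists_lt_of_csInf_lt hKne
      (show sInf K < sInf K + 1 / ((n : ℝ) + 1) by
        have : (0 : ℝ) < 1 / ((n : ℝ) + 1) := by positivity
        linarith)
    exact ⟨f, hf, h⟩
  choose f hf hfl using hex
  have hpar : ∀ f g, Avg S f → Avg S g →
      T.n2 (f b - g b) ^ 2 ≤ 2 * (T.n2 (f b) ^ 2 + T.n2 (g b) ^ 2) - 4 * sInf K := by
    intro f g hf hg
    have h1 := hlow _ (hf.mid hg)
    rw [LinearMap.smul_apply, LinearMap.add_apply, T.n2_smul] at h1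
    have h2 := T.parallelogram (f b) (g b)
    have h3 : ‖(2⁻¹ : ℂ)‖ = 2⁻¹ := by simp
    rw [h3] at h1
    nlinarith
  have hsmall : ∀ δ : ℝ, 0 < δ → ∃ N : ℕ, ∀ n ≥ N, 1 / ((n : ℝ) + 1) < δ := fun δ hδ => by
    obtain ⟨N, hN⟩ := exists_nat_one_div_lt hδ
    exact ⟨N, fun n hn => lt_of_le_of_lt (Nat.one_div_le_one_div hn) hN⟩
  obtain ⟨y, -, -, hy⟩ := hC (fun n => f n b) ‖b‖ (fun _ => trivial)
    (fun n => (hf n).norm_le b) (fun δ hδ => by
      obtain ⟨N, hN⟩ := hsmall (δ ^ 2 / 4) (by positivity)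
      refine ⟨N, fun m hm n hn => lt_of_pow_lt_pow_left₀ 2 hδ.le ?_⟩
      have := hpar _ _ (hf m) (hf n)
      linarith [hfl m, hfl n, hN m hm, hN n hn])
  have hcomm : ∀ w ∈ S, w ∈ unitary A → y * w = w * y := fun w hw hu => by
    have h0 : T.n2 (y - w * y * star w) = 0 := by
      refine le_antisymm (le_of_forall_pos_le_add fun δ hδ => ?_) (T.n2_nonneg _)
      obtain ⟨N, hN⟩ := hsmall ((δ / 3) ^ 2 / 4) (by positivity)
      obtain ⟨n, hn1, hn2⟩ := ((hy.eventually (gt_mem_nhds (show 0 < δ / 3 by positivity))).and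
        (eventually_ge_atTop N)).exists
      have e : T.n2 (w * f n b * star w) = T.n2 (f n b) := by
        rw [T.n2_mul_unitary (Unitary.star_mem hu), T.n2_unitary_mul hu]
      have h1 := hpar _ _ (hf n) ((Avg.conj hw hu).comp (hf n))
      simp only [LinearMap.comp_apply, LinearMap.mulRight_apply, LinearMap.mulLeft_apply] at h1
      rw [e] at h1
      have h2 : T.n2 (f n b - w * f n b * star w) < δ / 3 :=
        lt_of_pow_lt_pow_left₀ 2 (by positivity) (by linarith [hfl n, hN n hn2])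
      have h3 : T.n2 (w * f n b * star w - w * y * star w) = T.n2 (f n b - y) := by
        rw [← sub_mul, ← mul_sub, T.n2_mul_unitary (Unitary.star_mem hu), T.n2_unitary_mul hu]
      have h4 := T.n2_triangle y (f n b) (w * y * star w)
      have h5 := T.n2_triangle (f n b) (w * f n b * star w) (w * y * star w)
      rw [T.n2_sub_rev y (f n b)] at h4
      linarith
    have h1 : y = w * y * star w := sub_eq_zero.1 (hF _ h0)
    conv_lhs => rw [h1]
    rw [mul_assoc, Unitary.star_mul_self_of_mem hu, mul_one]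
  obtain ⟨c, rfl⟩ := hI y (comm_of_unitaries hS hcomm)
  have hc : c = T.τ b := by
    refine (sub_eq_zero.1 (norm_le_zero_iff.1 (ge_of_tendsto' hy fun n => ?_))).symm
    have := T.norm_τ_le_n2 (f n b - c • 1)
    rwa [map_sub, (hf n).τ, map_smul, T.map_one, smul_eq_mul, mul_one] at this
  obtain ⟨n, hn⟩ := (hy.eventually (gt_mem_nhds hε)).exists
  exact ⟨f n, hf n, by rw [← hc]; exact hn.le⟩

theorem dixThm : DixThm.{u} := by
  intro A _ T S hS hF hC hI F ε hε
  classical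
  suffices h : ∃ f, Avg S f ∧ ∀ b ∈ F, T.n2 (f b - T.τ b • (1 : A)) ≤ ε by
    obtain ⟨f, ⟨ι, _, _, w, hw, hf⟩, h⟩ := h
    exact ⟨ι, inferInstance, inferInstance, w, hw, fun b hb => by rw [← hf]; exact h b hb⟩
  induction F using Finset.induction_on with
  | empty => exact ⟨_, Avg.id, by simp⟩
  | insert a F _ ih =>
    obtain ⟨f, hf, h⟩ := ih
    obtain ⟨g, hg, h'⟩ := dix_one T S hS hF hC hI (f a) ε hε
    refine ⟨g ∘ₗ f, hg.comp hf, fun b hb => ?_⟩
    rcases Finset.mem_insert.1 hb with rfl | hb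
    · rwa [hf.τ] at h'
    · have := hg.n2_le T (f b - T.τ b • (1 : A))
      rw [map_sub, map_smul, hg.one] at this
      exact this.trans (h b hb)

end Crest.Agent.GEN
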