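import Crest.Agent.GEN.Tuple

/-! Consequences of exact freeness. -/

set_option autoImplicit false
set_option linter.unusedSectionVars false
open NormedSpace Complex Filter Topology
open scoped Classical BigOperators ComplexConjugate

namespace Crest.Agent.GEN

universe u
variable {B : Type u} [CStarAlgebra B] {ι : Type} [LinearOrder ι]
open Tok

/-- Data of an exactly free family. -/
structure FreeD (B : Type u) [CStarAlgebra B] (ι : Type) [LinearOrder ι] where
  T : Tr B
  M : StarSubalgebra ℂ B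
  g : ι → B
  z : ι
  hg : ∀ j, g j ∈ unitary B
  free : ∀ w : List (Tok B ι), w ≠ [] → Red T w → (∀ a, c a ∈ w → a ∈ M) → T.τ (wval g w) = 0

lemma mem_of_closure_span {s : Set B} (Z : Submodule ℂ B) (hZ : IsClosed (Z : Set B)) (X Y : B)
    (h : ∀ d ∈ s, X * d * Y ∈ Z) {d : B} (hd : d ∈ (Submodule.span ℂ s).topologicalClosure) :
    X * d * Y ∈ Z := by
  have : (Submodule.span ℂ s).topologicalClosure ≤
      Z.comap (ContinuousLinearMap.mulLeftRight ℂ B X Y : B →ₗ[ℂ] B) :=
    Submodule.topologicalClosure_minimal _ (Submodule.span_le.2 fun d hd => h d hd)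
      (hZ.preimage (ContinuousLinearMap.mulLeftRight ℂ B X Y).continuous)
  exact this hd

namespace FreeD
variable (Φ : FreeD B ι)

/-- good words -/
def OK (w : List (Tok B ι)) : Prop := Red Φ.T w ∧ ∀ a, c a ∈ w → a ∈ Φ.M

/-- good words in the distinguished letter only -/
def DW (w : List (Tok B ι)) : Prop := Φ.OK w ∧ ∀ k s, l k s ∈ w → k = Φ.z

variable {Φ}

lemma OK.append {v w : List (Tok B ι)} (hv : Φ.OK v) (hw : Φ.OK w)
    (h : ∀ x ∈ v.getLast?, ∀ y ∈ w.head?, Adj x y) : Φ.OK (v ++ w) :=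
  ⟨⟨hv.1.1.append hw.1.1 h, fun a ha => (List.mem_append.1 ha).elim (hv.1.2 a) (hw.1.2 a)⟩,
    fun a ha => (List.mem_append.1 ha).elim (hv.2 a) (hw.2 a)⟩

lemma OK.infix {v w : List (Tok B ι)} (h : Φ.OK w) (hv : v <:+: w) : Φ.OK v :=
  ⟨h.1.infix hv, fun a ha => h.2 a (hv.subset ha)⟩

lemma DW.tail {t : Tok B ι} {w : List (Tok B ι)} (h : Φ.DW (t :: w)) : Φ.DW w :=
  ⟨h.1.infix (List.infix_cons (List.infix_refl w)), fun k s hk => h.2 k s (List.mem_cons_of_mem _ hk)⟩

lemma DW.nil : Φ.DW [] := ⟨⟨⟨List.isChain_nil, by simp⟩, by simp⟩, by simp⟩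

lemma DW.cons_c {a : B} (ha : a ∈ Φ.M) {w : List (Tok B ι)} (h : Φ.DW w)
    (hw : ∀ b, w.head? ≠ some (c b)) : Φ.DW (c (Φ.T.cen a) :: w) := by
  refine ⟨OK.append (v := [c (Φ.T.cen a)]) ⟨⟨by simp, by simp⟩, ?_⟩ h.1 ?_, by simpa using h.2⟩
  · simp only [List.mem_singleton, c.injEq, forall_eq]
    exact sub_mem ha (Φ.M.smul_mem (one_mem _) _)
  · rintro x hx (b | ⟨k, s⟩) hy
    · exact absurd hy (hw b)
    · obtain rfl : c (Φ.T.cen a) = x := by simpa using hx
      trivial

variable (Φ)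

/-- span of the good words in the distinguished letter -/
noncomputable def D0 : Submodule ℂ B := Submodule.span ℂ (wval Φ.g '' {w | Φ.DW w})
/-- span of the nonempty such words -/
noncomputable def R0 : Submodule ℂ B := Submodule.span ℂ (wval Φ.g '' {w | w ≠ [] ∧ Φ.DW w})

variable {Φ}

lemma mem_D0 {w : List (Tok B ι)} (h : Φ.DW w) : wval Φ.g w ∈ Φ.D0 :=
  Submodule.subset_span ⟨w, h, rfl⟩

lemma M_mul_aux {a : B} (ha : a ∈ Φ.M) {w : List (Tok B ι)} (h : Φ.DW w)
    (hw : ∀ b, w.head? ≠ some (c b)) : a * wval Φ.g w ∈ Φ.D0 := by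
  rw [Φ.T.eq_cen a, add_mul, smul_mul_assoc, one_mul]
  exact add_mem (by simpa [val] using mem_D0 (h.cons_c ha hw)) (Φ.D0.smul_mem _ (mem_D0 h))

lemma tok_mul_word {t : Tok B ι} (ht : (∀ a, t = c a → a ∈ Φ.M) ∧ ∀ k s, t = l k s → k = Φ.z)
    {w : List (Tok B ι)} (h : Φ.DW w) : val Φ.g t * wval Φ.g w ∈ Φ.D0 := by
  rcases t with a | ⟨k, s⟩
  · have ha := ht.1 a rfl
    rcases w with _ | ⟨b | ⟨k, s⟩, w⟩
    · exact M_mul_aux ha h (by simp)
    · rw [wval_cons, ← mul_assoc]
      refine M_mul_aux (mul_mem ha (h.1.2 b (by simp))) h.tail fun b' hb' => ?_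
      rcases w with _ | ⟨t', w⟩
      · simp at hb'
      · obtain rfl : t' = c b' := by simpa using hb'
        simpa [Adj] using h.1.1.1
    · exact M_mul_aux ha h (by simp)
  · obtain rfl := ht.2 k s rfl
    by_cases h2 : w.head? = some (l Φ.z (!s))
    · rcases w with _ | ⟨t', w⟩
      · simp at h2
      obtain rfl : t' = l Φ.z (!s) := by simpa using h2
      rw [wval_cons, ← mul_assoc]
      have : val Φ.g (l Φ.z s) * val Φ.g (l Φ.z (!s)) = 1 := by
        cases s
        · exact Unitary.star_mul_self_of_mem (Φ.hg _)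
        · exact Unitary.mul_star_self_of_mem (Φ.hg _)
      rw [this, one_mul]; exact mem_D0 h.tail
    · rw [← wval_cons]
      refine mem_D0 ⟨OK.append (v := [l Φ.z s]) ⟨⟨by simp, by simp⟩, by simp⟩ h.1 ?_, ?_⟩
      · rintro x hx (b | ⟨k, s'⟩) hy
        · obtain rfl : l Φ.z s = x := by simpa using hx
          trivial
        · obtain rfl : l Φ.z s = x := by simpa using hx
          obtain rfl := h.2 k s' (List.mem_of_mem_head? hy)
          right
          by_contra h3
          exact h2 (by rw [Option.mem_def.1 hy]; cases s <;> cases s' <;> simp_all)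
      · intro k s' hk
        rcases List.mem_cons.1 hk with h3 | h3
        · exact (Tok.l.inj h3).1
        · exact h.2 k s' h3

lemma word_mul_D0 {v : List (Tok B ι)} (hv : Φ.DW v) {d : B} (hd : d ∈ Φ.D0) :
    wval Φ.g v * d ∈ Φ.D0 := by
  induction v with
  | nil => simpa
  | cons t v ih =>
    rw [wval_cons, mul_assoc]
    refine Submodule.span_induction (p := fun d _ => val Φ.g t * d ∈ Φ.D0) ?_ (by simp)
      (fun _ _ _ _ h1 h2 => by rw [mul_add]; exact add_mem h1 h2)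
      (fun a _ _ h => by rw [mul_smul_comm]; exact Φ.D0.smul_mem _ h) (ih hv.tail)
    rintro _ ⟨w, hw, rfl⟩
    exact tok_mul_word ⟨fun a ha => hv.1.2 a (by simp [ha]), fun k s h => hv.2 k s (by simp [h])⟩ hw

variable (Φ)

/-- the closed algebra generated by the constants and the distinguished letter -/
noncomputable def D : Subalgebra ℂ B :=
  (Φ.D0.toSubalgebra (by simpa using mem_D0 (Φ := Φ) DW.nil) (fun x y hx hy => by
    refine Submodule.span_induction (p := fun x _ => x * y ∈ Φ.D0) ?_ (by simp)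
      (fun _ _ _ _ h1 h2 => by rw [add_mul]; exact add_mem h1 h2)
      (fun a _ _ h => by rw [smul_mul_assoc]; exact Φ.D0.smul_mem _ h) hx
    rintro _ ⟨w, hw, rfl⟩
    exact word_mul_D0 hw hy)).topologicalClosure

lemma isClosed_D : IsClosed (Φ.D : Set B) := Subalgebra.isClosed_topologicalClosure _

variable {Φ}

lemma mem_D_iff {d : B} : d ∈ Φ.D ↔ d ∈ Φ.D0.topologicalClosure := Iff.rfl

lemma D0_le {d : B} (h : d ∈ Φ.D0) : d ∈ Φ.D := mem_D_iff.2 (Submodule.le_topologicalClosure _ h)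

lemma M_mem_D {a : B} (ha : a ∈ Φ.M) : a ∈ Φ.D :=
  D0_le (by simpa using M_mul_aux ha DW.nil (by simp))

lemma g_mem_D : Φ.g Φ.z ∈ Φ.D :=
  D0_le (by simpa [val] using tok_mul_word (Φ := Φ) (t := l Φ.z true) (by simp) DW.nil)

lemma star_g_mem_D : star (Φ.g Φ.z) ∈ Φ.D :=
  D0_le (by simpa [val] using tok_mul_word (Φ := Φ) (t := l Φ.z false) (by simp) DW.nil)

lemma cen_mem {d : B} (hd : d ∈ Φ.D) : Φ.T.cen d ∈ Φ.R0.topologicalClosure := by
  let φ : B →L[ℂ] B := ContinuousLinearMap.id ℂ B - Φ.T.τ.smulRight 1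
  have : Φ.D0.topologicalClosure ≤ Φ.R0.topologicalClosure.comap (φ : B →ₗ[ℂ] B) := by
    refine Submodule.topologicalClosure_minimal _ (Submodule.span_le.2 ?_)
      (Φ.R0.isClosed_topologicalClosure.preimage φ.continuous)
    rintro _ ⟨w, hw, rfl⟩
    change wval Φ.g w - Φ.T.τ (wval Φ.g w) • (1 : B) ∈ Φ.R0.topologicalClosure
    by_cases h : w = []
    · simp [h, Φ.T.map_one]
    · rw [Φ.free w h hw.1.1 hw.1.2, zero_smul, sub_zero]
      exact Submodule.le_topologicalClosure _ (Submodule.subset_span ⟨w, ⟨h, hw⟩, rfl⟩)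
  exact this hd

variable (Φ)

/-- words ending in `g_j g_i⋆` with `(i, j) ∈ J` -/
def EW (J : Set (ι × ι)) (w : List (Tok B ι)) : Prop :=
  Φ.OK w ∧ ∃ p ∈ J, p.1 ≠ Φ.z ∧ ∃ v, w = v ++ [l p.2 true, l p.1 false]

/-- the error space -/
noncomputable def Z (J : Set (ι × ι)) : Submodule ℂ B :=
  (Submodule.span ℂ {x | ∃ w d, Φ.EW J w ∧ d ∈ Φ.D ∧ x = wval Φ.g w * d}).topologicalClosure

variable {Φ}

lemma isClosed_Z (J : Set (ι × ι)) : IsClosed (Φ.Z J : Set B) :=
  Submodule.isClosed_topologicalClosure _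

lemma mem_Z {J : Set (ι × ι)} {w : List (Tok B ι)} (hw : Φ.EW J w) {d : B} (hd : d ∈ Φ.D) :
    wval Φ.g w * d ∈ Φ.Z J :=
  Submodule.le_topologicalClosure _ (Submodule.subset_span ⟨w, d, hw, hd, rfl⟩)

lemma adj_DW {i : ι} (hi : i ≠ Φ.z) (s : Bool) {r : List (Tok B ι)} (hr : Φ.DW r) :
    (∀ y ∈ r.head?, Adj (l i s) y) ∧ ∀ y ∈ r.getLast?, Adj y (l i s) := by
  constructor
  · rintro (b | ⟨k, s'⟩) hy
    · trivial
    · exact Or.inl (by rw [hr.2 k s' (List.mem_of_mem_head? hy)]; exact hi)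
  · rintro (b | ⟨k, s'⟩) hy
    · trivial
    · exact Or.inl (by rw [hr.2 k s' (List.mem_of_mem_getLast? hy)]; exact hi.symm)

lemma τ_Z {J : Set (ι × ι)} {x : B} (hx : x ∈ Φ.Z J) : Φ.T.τ x = 0 := by
  have hk : IsClosed (LinearMap.ker (Φ.T.τ : B →ₗ[ℂ] ℂ) : Set B) := Φ.T.τ.isClosed_ker
  have := mem_of_closure_span _ hk 1 1 ?_ hx
  · simpa using this
  rintro _ ⟨w, d, ⟨hw, p, -, hp, v, rfl⟩, hd, rfl⟩
  rw [one_mul]
  refine mem_of_closure_span _ hk _ 1 ?_ hd
  rintro _ ⟨r, hr, rfl⟩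
  have hok := hw.append hr.1 (fun x hx y hy => by
    obtain rfl : l p.1 false = x := by simpa using hx
    exact (adj_DW hp false hr).1 y hy)
  rw [mul_one, ← wval_append]
  exact Φ.free _ (by simp) hok.1 hok.2

lemma Z_mono {J J' : Set (ι × ι)} (h : J ⊆ J') : Φ.Z J ≤ Φ.Z J' := by
  refine Submodule.topologicalClosure_mono (Submodule.span_mono ?_)
  rintro _ ⟨w, d, ⟨hw, p, hp, hp'⟩, hd, rfl⟩
  exact ⟨w, d, ⟨hw, p, h hp, hp'⟩, hd, rfl⟩

lemma Z_mul_D {J : Set (ι × ι)} {x t : B} (hx : x ∈ Φ.Z J) (ht : t ∈ Φ.D) : x * t ∈ Φ.Z J := by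
  have := mem_of_closure_span _ (isClosed_Z (Φ := Φ) J) 1 t ?_ hx
  · simpa using this
  rintro _ ⟨w, d, hw, hd, rfl⟩
  rw [one_mul, mul_assoc]; exact mem_Z hw (mul_mem hd ht)

lemma key_step {J : Set (ι × ι)} {i j : ι} (hij : i ≠ j) (hi : i ≠ Φ.z) (hj : j ≠ Φ.z)
    (hJ : (i, j) ∉ J) {w : List (Tok B ι)} (hw : w = [] ∨ Φ.EW J w) {d r : B} (hd : d ∈ Φ.D)
    (hr : r ∈ Φ.R0.topologicalClosure) :
    wval Φ.g w * d * (Φ.g i * star (Φ.g j) * r * (Φ.g j * star (Φ.g i))) ∈
      Φ.Z (insert (i, j) J) := by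
  have hZ := isClosed_Z (Φ := Φ) (insert (i, j) J)
  refine mem_of_closure_span _ hZ _ _ ?_ hd
  rintro _ ⟨e, he, rfl⟩
  rw [mul_assoc (Φ.g i * star (Φ.g j)), ← mul_assoc, ← mul_assoc]
  refine mem_of_closure_span _ hZ _ _ ?_ hr
  rintro _ ⟨ρ, ⟨hρ0, hρ⟩, rfl⟩
  have ok2 : ∀ {a b : ι} {s s' : Bool}, a ≠ b → Φ.OK [l a s, l b s'] := fun h =>
    ⟨⟨by simp [Adj, h], by simp⟩, by simp⟩
  have ok1 : ∀ {a : ι} {s : Bool}, Φ.OK [l a s] := ⟨⟨by simp, by simp⟩, by simp⟩
  have tail : Φ.OK (l j false :: (ρ ++ [l j true, l i false])) := by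
    refine OK.append (v := [l j false]) ok1 (hρ.1.append (ok2 hij.symm) fun x hx y hy => ?_)
      fun x hx y hy => ?_
    · obtain rfl : l j true = y := by simpa using hy
      exact (adj_DW hj true hρ).2 x hx
    · obtain rfl : l j false = x := by simpa using hx
      refine (adj_DW hj false hρ).1 y ?_
      rcases ρ with _ | ⟨t, ρ⟩
      · exact absurd rfl hρ0
      · simpa using hy
  have fin : ∀ v, Φ.OK (v ++ l j false :: (ρ ++ [l j true, l i false])) →
      wval Φ.g v * star (Φ.g j) * wval Φ.g ρ * (Φ.g j * star (Φ.g i)) ∈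
        Φ.Z (insert (i, j) J) := fun v hv => by
    have := mem_Z (J := insert (i, j) J) ⟨hv, (i, j), Set.mem_insert _ _, hi,
      v ++ l j false :: ρ, by simp⟩ (one_mem Φ.D)
    simpa [val, mul_assoc] using this
  have hwok : Φ.OK w := by
    rcases hw with rfl | hw
    · exact DW.nil.1
    · exact hw.1
  by_cases hc : e = [] ∧ w.getLast? = some (l i false)
  · obtain ⟨rfl, hc⟩ := hc
    rcases hw with rfl | ⟨-, p, hp, -, v, rfl⟩
    · simp at hc
    have h1 : p.1 = i := by simpa using hc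
    have h2 : p.2 ≠ j := by rintro rfl; exact hJ (by rw [← h1]; exact hp)
    have := fin (v ++ [l p.2 true]) (OK.append (hwok.infix ⟨[], [l p.1 false], by simp⟩) tail
      (fun x hx y hy => by
        obtain rfl : l p.2 true = x := by simpa using hx
        obtain rfl : l j false = y := by simpa using hy
        exact Or.inl h2))
    convert this using 3
    simp only [wval_append, wval_cons, wval_nil, val, mul_one, h1, mul_assoc]
    rw [← mul_assoc (star (Φ.g i)), Unitary.star_mul_self_of_mem (Φ.hg i), one_mul]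
  · have h1 : Φ.OK (w ++ e) := hwok.append he.1 fun x hx y hy => by
      rcases hw with rfl | ⟨-, p, -, hp, v, rfl⟩
      · simp at hx
      · obtain rfl : l p.1 false = x := by simpa using hx
        exact (adj_DW hp false he).1 y hy
    have h2 : Φ.OK (w ++ e ++ [l i true]) := h1.append ok1 fun x hx y hy => by
      obtain rfl : l i true = y := by simpa using hy
      by_cases he0 : e = []
      · subst he0
        rcases x with b | ⟨k, s⟩
        · trivial
        · by_contra h3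
          simp only [Adj, not_or, not_not] at h3
          obtain ⟨rfl, h4⟩ := h3
          refine hc ⟨rfl, ?_⟩
          rw [List.append_nil] at hx
          rw [Option.mem_def.1 hx]; simpa using h4
      · refine (adj_DW hi true he).2 x ?_
        rwa [List.getLast?_append_of_ne_nil _ he0] at hx
    have := fin _ (h2.append tail fun x hx y hy => by
      obtain rfl : l i true = x := by simpa using hx
      obtain rfl : l j false = y := by simpa using hy
      exact Or.inl hij)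
    simpa [val, mul_assoc] using this

/-- conjugate of `t` -/
def Y (Φ : FreeD B ι) (t : B) (p : ι × ι) : B :=
  Φ.g p.1 * star (Φ.g p.2) * t * (Φ.g p.2 * star (Φ.g p.1))

lemma prod_Y {t d : B} (ht : t ∈ Φ.D) (hd : d ∈ Φ.D) (L : List (ι × ι)) (hL : L.Nodup)
    (hz : ∀ p ∈ L, p.1 ≠ Φ.z ∧ p.2 ≠ Φ.z) :
    d * (L.map (Φ.Y t)).prod - Φ.T.τ t ^ L.countP (fun p => p.1 ≠ p.2) •
      (d * t ^ L.countP (fun p => p.1 = p.2)) ∈ Φ.Z {p | p ∈ L} := by
  induction L using List.reverseRecOn with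
  | nil => simp
  | append_singleton L p ih =>
    have hp : p ∉ L := by
      intro h
      exact (List.nodup_append.1 hL).2.2 p h p (by simp) rfl
    have ih' := ih (List.nodup_append.1 hL).1 fun q hq => hz q (by simp [hq])
    obtain ⟨hz1, hz2⟩ := hz p (by simp)
    have hs : {q | q ∈ L ++ [p]} = insert (p.1, p.2) {q | q ∈ L} := by
      ext q; simp [or_comm]
    rw [hs]
    set ζ := d * (L.map (Φ.Y t)).prod - Φ.T.τ t ^ L.countP (fun p => p.1 ≠ p.2) •
      (d * t ^ L.countP (fun p => p.1 = p.2)) with hζ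
    by_cases h : p.1 = p.2
    · have hY : Φ.Y t p = t := by
        rw [Y, h, Unitary.mul_star_self_of_mem (Φ.hg _)]; simp
      have := Z_mono (Set.subset_insert (p.1, p.2) _) (Z_mul_D ih' ht)
      convert this using 1
      simp [hζ, List.countP_append, h, hY, sub_mul, pow_succ, mul_assoc]
    · set N := Φ.g p.1 * star (Φ.g p.2) * Φ.T.cen t * (Φ.g p.2 * star (Φ.g p.1)) with hN
      have hY : Φ.Y t p = N + Φ.T.τ t • (1 : B) := by
        rw [Y, hN]
        conv_lhs => rw [Φ.T.eq_cen t]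
        simp only [mul_add, add_mul, mul_smul_comm, smul_mul_assoc, mul_one, mul_assoc]
        rw [← mul_assoc (star (Φ.g p.2)) (Φ.g p.2), Unitary.star_mul_self_of_mem (Φ.hg _), one_mul,
          Unitary.mul_star_self_of_mem (Φ.hg _)]
      have a1 : ζ * N ∈ Φ.Z (insert (p.1, p.2) {q | q ∈ L}) := by
        have := mem_of_closure_span _ (isClosed_Z (Φ := Φ) (insert (p.1, p.2) {q | q ∈ L})) 1 N
          ?_ ih'
        · simpa using this
        rintro _ ⟨w, d', hw, hd', rfl⟩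
        rw [one_mul]
        exact key_step h hz1 hz2 hp (Or.inr hw) hd' (cen_mem ht)
      have a2 := key_step (J := {q | q ∈ L}) h hz1 hz2 hp (Or.inl rfl)
        (mul_mem hd (pow_mem ht (L.countP fun p => p.1 = p.2))) (cen_mem ht)
      rw [wval_nil, one_mul, ← hN] at a2
      have a3 := Z_mono (Set.subset_insert (p.1, p.2) _) ih'
      convert add_mem (add_mem a1 (Submodule.smul_mem _ (Φ.T.τ t) a3))
        (Submodule.smul_mem _ (Φ.T.τ t ^ L.countP (fun p => p.1 ≠ p.2)) a2) using 1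
      simp only [hζ, List.map_append, List.prod_append, List.map_cons, List.map_nil,
        List.prod_cons, List.prod_nil, mul_one, hY, List.countP_append, List.countP_cons,
        List.countP_nil, h, ne_eq, not_false_eq_true, decide_true, if_true, decide_false,
        Bool.false_eq_true, if_false, add_zero, zero_add, pow_succ, mul_add, sub_mul,
        mul_smul_comm, smul_mul_assoc, smul_sub, smul_smul, mul_assoc]
      module

theorem τ_prod_Y {t d : B} (ht : t ∈ Φ.D) (hd : d ∈ Φ.D) (L : List (ι × ι)) (hL : L.Nodup)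
    (hz : ∀ p ∈ L, p.1 ≠ Φ.z ∧ p.2 ≠ Φ.z) :
    Φ.T.τ (d * (L.map (Φ.Y t)).prod) = Φ.T.τ t ^ L.countP (fun p => p.1 ≠ p.2) *
      Φ.T.τ (d * t ^ L.countP (fun p => p.1 = p.2)) := by
  have := τ_Z (prod_Y ht hd L hL hz)
  rwa [map_sub, map_smul, smul_eq_mul, sub_eq_zero] at this

end FreeD

end Crest.Agent.GEN
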