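import Crest.Agent.GEN.Basic

/-! Exponential in C⋆-algebras: wrappers. -/

set_option autoImplicit false
open NormedSpace

namespace Crest.Agent.GEN

universe u
variable {A : Type u} [CStarAlgebra A]

lemma exp_unitary {a : A} (ha : star a = -a) : exp a ∈ unitary A := by
  let _ : NormedAlgebra ℚ A := NormedAlgebra.restrictScalars ℚ ℂ A
  exact exp_mem_unitary_of_mem_skewAdjoint (skewAdjoint.mem_iff.2 ha)

lemma exp_mem_closed (S : Subalgebra ℂ A) (hS : IsClosed (S : Set A)) {a : A} (ha : a ∈ S) :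
    exp a ∈ S := by
  have h := exp_series_hasSum_exp' (𝕂 := ℂ) a
  refine hS.mem_of_tendsto h.tendsto_sum_nat (Filter.Eventually.of_forall fun n => ?_)
  exact S.sum_mem fun k _ => S.smul_mem (S.pow_mem ha k) _

lemma exp_conj_unitary {g : A} (hg : g ∈ unitary A) (a : A) :
    exp (g * a * star g) = g * exp a * star g := by
  let _ : NormedAlgebra ℚ A := NormedAlgebra.restrictScalars ℚ ℂ A
  exact exp_units_conj (Unitary.toUnits ⟨g, hg⟩) a

lemma map_exp' {B : Type u} [CStarAlgebra B] (f : A →+* B) (hf : Continuous f) (a : A) :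
    f (exp a) = exp (f a) := by
  let _ : NormedAlgebra ℚ A := NormedAlgebra.restrictScalars ℚ ℂ A
  let _ : NormedAlgebra ℚ B := NormedAlgebra.restrictScalars ℚ ℂ B
  exact map_exp f hf a

lemma exp_taylor (a : A) (m : ℕ) (hm : 0 < m) :
    ‖exp a - ∑ k ∈ Finset.range m, ((k.factorial : ℂ)⁻¹) • a ^ k‖ ≤ ‖a‖ ^ m * Real.exp ‖a‖ := by
  have h := (hasSum_nat_add_iff' m).2 (exp_series_hasSum_exp' (𝕂 := ℂ) a)
  have h2 : HasSum (fun n : ℕ => ‖a‖ ^ m * (‖a‖ ^ n / n.factorial)) (‖a‖ ^ m * Real.exp ‖a‖) := by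
    refine HasSum.mul_left _ ?_
    rw [Real.exp_eq_exp_ℝ]; exact expSeries_div_hasSum_exp ‖a‖
  refine h.norm_le_of_bounded h2 fun n => ?_
  rw [norm_smul, norm_inv, Complex.norm_natCast]
  have h3 : ‖a ^ (n + m)‖ ≤ ‖a‖ ^ (n + m) := norm_pow_le' a (by omega)
  have h4 : (n.factorial : ℝ) ≤ (n + m).factorial := by
    exact_mod_cast Nat.factorial_le (by omega)
  have h5 : (0 : ℝ) < n.factorial := by exact_mod_cast n.factorial_pos
  calc _ ≤ (n.factorial : ℝ)⁻¹ * ‖a‖ ^ (n + m) := by gcongr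
    _ = _ := by rw [pow_add]; field_simp

lemma exp_taylor2 {a : A} (ha : ‖a‖ ≤ 4) : ‖exp a - (1 + a)‖ ≤ Real.exp 4 * ‖a‖ ^ 2 := by
  have h := exp_taylor a 2 (by norm_num)
  simp only [Finset.sum_range_succ, Finset.range_zero, Finset.sum_empty, Nat.factorial] at h
  norm_num at h
  refine h.trans ?_
  rw [mul_comm]; gcongr

lemma exp_taylor3 {a : A} (ha : ‖a‖ ≤ 4) :
    ‖exp a - (1 + a + (2⁻¹ : ℂ) • (a * a))‖ ≤ Real.exp 4 * ‖a‖ ^ 3 := by
  have h := exp_taylor a 3 (by norm_num)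
  simp only [Finset.sum_range_succ, Finset.range_zero, Finset.sum_empty, Nat.factorial] at h
  norm_num at h
  rw [pow_two] at h
  refine le_trans (by norm_num) (h.trans ?_)
  rw [mul_comm]; gcongr

end Crest.Agent.GEN
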