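import Crest.Agent.GEN.Exp

/-! Words in letters and constants; second order expansion under the perturbation. -/

set_option autoImplicit false
open NormedSpace Complex
open scoped Classical

namespace Crest.Agent.GEN

universe u
variable {A : Type u} [CStarAlgebra A] {ι : Type}

/-- Tokens: constants and letters. -/
inductive Tok (A : Type u) (ι : Type) : Type u
  | c (a : A) : Tok A ι
  | l (j : ι) (s : Bool) : Tok A ι

namespace Tok

/-- value of a token -/
def val (g : ι → A) : Tok A ι → A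
  | c a => a
  | l j true => g j
  | l j false => star (g j)

/-- allowed adjacency in a reduced word -/
def Adj : Tok A ι → Tok A ι → Prop
  | c _, c _ => False
  | l j s, l k t => j ≠ k ∨ s = t
  | _, _ => True

/-- a bound for the norm of the value -/
noncomputable def nb : Tok A ι → ℝ
  | c a => max 1 ‖a‖
  | l _ _ => 1

end Tok

open Tok

/-- value of a word -/
def wval (g : ι → A) (w : List (Tok A ι)) : A := (w.map (val g)).prod

@[simp] lemma wval_nil (g : ι → A) : wval g [] = 1 := rfl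
@[simp] lemma wval_cons (g : ι → A) (t : Tok A ι) (w : List (Tok A ι)) :
    wval g (t :: w) = val g t * wval g w := by simp [wval]
@[simp] lemma wval_append (g : ι → A) (v w : List (Tok A ι)) :
    wval g (v ++ w) = wval g v * wval g w := by simp [wval]

/-- a bound for the norm of the value of a word -/
noncomputable def wnb (w : List (Tok A ι)) : ℝ := (w.map nb).prod

@[simp] lemma wnb_nil : wnb ([] : List (Tok A ι)) = 1 := rfl
@[simp] lemma wnb_cons (t : Tok A ι) (w : List (Tok A ι)) : wnb (t :: w) = nb t * wnb w := by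
  simp [wnb]
@[simp] lemma wnb_append (v w : List (Tok A ι)) : wnb (v ++ w) = wnb v * wnb w := by simp [wnb]

lemma one_le_nb (t : Tok A ι) : 1 ≤ nb t := by cases t <;> simp [nb]
lemma one_le_wnb (w : List (Tok A ι)) : 1 ≤ wnb w := by
  induction w with
  | nil => simp
  | cons t w ih => rw [wnb_cons]; nlinarith [one_le_nb t]

lemma norm_unitary_le {u : A} (hu : u ∈ unitary A) : ‖u‖ ≤ 1 := by
  nontriviality A
  exact (CStarRing.norm_of_mem_unitary hu).le

lemma norm_val_le {g : ι → A} (hg : ∀ j, g j ∈ unitary A) (t : Tok A ι) : ‖val g t‖ ≤ nb t := by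
  rcases t with a | ⟨j, _ | _⟩
  · simp [val, nb]
  · simpa [val, nb] using norm_unitary_le (hg j)
  · simpa [val, nb] using norm_unitary_le (hg j)

lemma norm_wval_le {g : ι → A} (hg : ∀ j, g j ∈ unitary A) (w : List (Tok A ι)) :
    ‖wval g w‖ ≤ wnb w := by
  induction w with
  | nil => simpa using norm_unitary_le (one_mem (unitary A))
  | cons t w ih =>
    rw [wval_cons, wnb_cons]
    exact (norm_mul_le _ _).trans
      (mul_le_mul (norm_val_le hg t) ih (norm_nonneg _) (by linarith [one_le_nb t]))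

/-- Second order Taylor data, uniform in a parameter. -/
def Tay {P : Type*} (δ : P → ℝ) (a' a a1 a2 : P → A) : Prop :=
  ∃ C : ℝ, 0 ≤ C ∧ ∀ p, ‖a p‖ ≤ C ∧ ‖a1 p‖ ≤ C ∧ ‖a2 p‖ ≤ C ∧
    ‖a' p - (a p + (δ p : ℂ) • a1 p + ((δ p : ℂ) ^ 2) • a2 p)‖ ≤ C * δ p ^ 3

lemma Tay.mul {P : Type*} {δ : P → ℝ} (h0 : ∀ p, 0 ≤ δ p) (h1 : ∀ p, δ p ≤ 1)
    {a' a a1 a2 b' b b1 b2 : P → A} (ha : Tay δ a' a a1 a2) (hb : Tay δ b' b b1 b2) :
    Tay δ (fun p => a' p * b' p) (fun p => a p * b p) (fun p => a1 p * b p + a p * b1 p)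
      (fun p => a2 p * b p + a1 p * b1 p + a p * b2 p) := by
  obtain ⟨C, hC, ha⟩ := ha
  obtain ⟨D, hD, hb⟩ := hb
  refine ⟨10 * (C * D), by positivity, fun p => ?_⟩
  obtain ⟨ha0, ha1, ha2, har⟩ := ha p
  obtain ⟨hb0, hb1, hb2, hbr⟩ := hb p
  have hCD : 0 ≤ C * D := by positivity
  have m : ∀ {x y : A}, ‖x‖ ≤ C → ‖y‖ ≤ D → ‖x * y‖ ≤ C * D := fun hx hy =>
    (norm_mul_le _ _).trans (mul_le_mul hx hy (norm_nonneg _) hC)
  have hd0 := h0 p
  have hd1 := h1 p
  set d := δ p with hd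
  have hdn : ‖(d : ℂ)‖ = d := by simp [abs_of_nonneg hd0]
  have hd2 : d ^ 2 ≤ 1 := pow_le_one₀ hd0 hd1
  have hd3 : d ^ 3 ≤ 1 := pow_le_one₀ hd0 hd1
  refine ⟨by linarith [m ha0 hb0], ?_, ?_, ?_⟩
  · exact (norm_add_le _ _).trans (by linarith [m ha1 hb0, m ha0 hb1])
  · exact norm_add₃_le.trans (by linarith [m ha2 hb0, m ha1 hb1, m ha0 hb2])
  set ra := a' p - (a p + (d : ℂ) • a1 p + ((d : ℂ) ^ 2) • a2 p) with hra
  set rb := b' p - (b p + (d : ℂ) • b1 p + ((d : ℂ) ^ 2) • b2 p) with hrb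
  have hA : ‖a p + (d : ℂ) • a1 p + ((d : ℂ) ^ 2) • a2 p‖ ≤ 3 * C := by
    refine norm_add₃_le.trans ?_
    rw [norm_smul, norm_smul, norm_pow, hdn]
    nlinarith [norm_nonneg (a1 p), norm_nonneg (a2 p)]
  have hB : ‖b p + (d : ℂ) • b1 p + ((d : ℂ) ^ 2) • b2 p‖ ≤ 3 * D := by
    refine norm_add₃_le.trans ?_
    rw [norm_smul, norm_smul, norm_pow, hdn]
    nlinarith [norm_nonneg (b1 p), norm_nonneg (b2 p)]
  have hb' : ‖b' p‖ ≤ 4 * D := by
    have : b' p = rb + (b p + (d : ℂ) • b1 p + ((d : ℂ) ^ 2) • b2 p) := by simp [hrb]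
    rw [this]
    refine (norm_add_le _ _).trans ?_
    nlinarith
  have key : a' p * b' p - (a p * b p + (d : ℂ) • (a1 p * b p + a p * b1 p) +
      ((d : ℂ) ^ 2) • (a2 p * b p + a1 p * b1 p + a p * b2 p)) =
      ra * b' p + (a p + (d : ℂ) • a1 p + ((d : ℂ) ^ 2) • a2 p) * rb +
        ((d : ℂ) ^ 3) • (a1 p * b2 p + a2 p * b1 p + (d : ℂ) • (a2 p * b2 p)) := by
    simp only [hra, hrb, mul_sub, sub_mul, mul_add, add_mul, smul_add, smul_mul_assoc,
      mul_smul_comm, smul_smul]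
    module
  rw [key]
  have e1 : ‖ra * b' p‖ ≤ C * d ^ 3 * (4 * D) :=
    (norm_mul_le _ _).trans (mul_le_mul har hb' (norm_nonneg _) (by positivity))
  have e2 : ‖(a p + (d : ℂ) • a1 p + ((d : ℂ) ^ 2) • a2 p) * rb‖ ≤ 3 * C * (D * d ^ 3) :=
    (norm_mul_le _ _).trans (mul_le_mul hA hbr (norm_nonneg _) (by positivity))
  have e3 : ‖((d : ℂ) ^ 3) • (a1 p * b2 p + a2 p * b1 p + (d : ℂ) • (a2 p * b2 p))‖ ≤
      d ^ 3 * (3 * (C * D)) := by
    rw [norm_smul, norm_pow, hdn]
    refine mul_le_mul_of_nonneg_left (norm_add₃_le.trans ?_) (by positivity)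
    rw [norm_smul, hdn]
    nlinarith [m ha1 hb2, m ha2 hb1, m ha2 hb2, norm_nonneg (a2 p * b2 p)]
  refine norm_add₃_le.trans ?_
  nlinarith

lemma Tay.const {P : Type*} {δ : P → ℝ} (h0 : ∀ p, 0 ≤ δ p) {a : P → A} {C : ℝ} (hC : 0 ≤ C)
    (ha : ∀ p, ‖a p‖ ≤ C) : Tay δ a a (fun _ => 0) (fun _ => 0) :=
  ⟨C, hC, fun p => ⟨ha p, by simpa, by simpa, by
    simpa using mul_nonneg hC (pow_nonneg (h0 p) 3)⟩⟩

variable [LinearOrder ι]

/-- the perturbed tuple -/
noncomputable def pert (i : ι) (E : A) (g : ι → A) : ι → A :=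
  fun j => if i ≤ j then E * g j else g j

/-- first order term of a token -/
noncomputable def d1 (i : ι) (g : ι → A) (X : A) : Tok A ι → A
  | c _ => 0
  | l j true => if i ≤ j then I • (X * g j) else 0
  | l j false => if i ≤ j then (-I) • (star (g j) * X) else 0

/-- second order term of a token -/
noncomputable def d2 (i : ι) (g : ι → A) (X : A) : Tok A ι → A
  | c _ => 0
  | l j true => if i ≤ j then (-2⁻¹ : ℂ) • (X * X * g j) else 0
  | l j false => if i ≤ j then (-2⁻¹ : ℂ) • (star (g j) * (X * X)) else 0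

/-- first order term of a word -/
noncomputable def D1 (i : ι) (g : ι → A) (X : A) : List (Tok A ι) → A
  | [] => 0
  | t :: w => d1 i g X t * wval g w + val g t * D1 i g X w

/-- second order term of a word -/
noncomputable def D2 (i : ι) (g : ι → A) (X : A) : List (Tok A ι) → A
  | [] => 0
  | t :: w => d2 i g X t * wval g w + d1 i g X t * D1 i g X w + val g t * D2 i g X w

/-- parameters of the perturbation -/
structure Par (A : Type u) [CStarAlgebra A] (ι : Type) where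
  i : ι
  δ : ℝ
  g : ι → A
  X : A
  h0 : 0 ≤ δ
  h1 : δ ≤ 1
  hg : ∀ j, g j ∈ unitary A
  hX : star X = X
  hX2 : ‖X‖ ≤ 2

/-- the perturbing unitary -/
noncomputable def eU (δ : ℝ) (X : A) : A := exp ((I * δ) • X)

lemma tay_eU (s : ℂ) (hs : ‖s‖ = 1) :
    Tay (P := Par A ι) Par.δ (fun p => exp ((s * p.δ) • p.X)) (fun _ => 1)
      (fun p => s • p.X) (fun p => (2⁻¹ * s ^ 2) • (p.X * p.X)) := by
  refine ⟨8 * Real.exp 4 + 2, by positivity, fun p => ?_⟩
  have he : 0 < Real.exp 4 := Real.exp_pos _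
  have hX := p.hX2
  have hn : ‖(s * p.δ) • p.X‖ ≤ 2 * p.δ := by
    rw [norm_smul, norm_mul, hs, norm_real, Real.norm_eq_abs, abs_of_nonneg p.h0]
    nlinarith [p.h0]
  refine ⟨by linarith [norm_unitary_le (one_mem (unitary A))], ?_, ?_, ?_⟩
  · rw [norm_smul, hs]; linarith
  · rw [norm_smul, norm_mul, norm_pow, hs]
    have : ‖p.X * p.X‖ ≤ 2 * 2 :=
      (norm_mul_le _ _).trans (mul_le_mul hX hX (norm_nonneg _) (by norm_num))
    norm_num; linarith
  · have h := exp_taylor3 (a := (s * p.δ) • p.X) (by linarith [p.h1])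
    have e : (1 : A) + (p.δ : ℂ) • s • p.X + ((p.δ : ℂ) ^ 2) • (2⁻¹ * s ^ 2) • (p.X * p.X) =
        1 + (s * p.δ) • p.X + (2⁻¹ : ℂ) • (((s * p.δ) • p.X) * ((s * p.δ) • p.X)) := by
      simp only [smul_mul_assoc, mul_smul_comm, smul_smul]; module
    rw [e]
    refine h.trans ?_
    have h3 : ‖(s * p.δ) • p.X‖ ^ 3 ≤ (2 * p.δ) ^ 3 := by gcongr
    have := pow_nonneg p.h0 3
    nlinarith

lemma star_eU (δ : ℝ) {X : A} (hX : star X = X) : star (eU δ X) = exp ((-I * δ) • X) := by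
  rw [eU, star_exp, star_smul, hX]; simp

lemma eU_unitary (δ : ℝ) {X : A} (hX : star X = X) : eU δ X ∈ unitary A := by
  refine exp_unitary ?_
  rw [star_smul, hX, ← neg_smul]; simp

lemma Tay.congr {P : Type*} {δ : P → ℝ} {a' a a1 a2 b' b b1 b2 : P → A} (h : Tay δ a' a a1 a2)
    (e' : ∀ p, a' p = b' p) (e0 : ∀ p, a p = b p) (e1 : ∀ p, a1 p = b1 p)
    (e2 : ∀ p, a2 p = b2 p) : Tay δ b' b b1 b2 := by
  rw [← funext e', ← funext e0, ← funext e1, ← funext e2]; exact h

lemma Tay.ite {P : Type*} {δ : P → ℝ} {a' a a1 a2 b' b b1 b2 : P → A} (q : P → Prop)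
    (ha : Tay δ a' a a1 a2) (hb : Tay δ b' b b1 b2) :
    Tay δ (fun p => if q p then a' p else b' p) (fun p => if q p then a p else b p)
      (fun p => if q p then a1 p else b1 p) (fun p => if q p then a2 p else b2 p) := by
  obtain ⟨C, hC, ha⟩ := ha
  obtain ⟨D, hD, hb⟩ := hb
  refine ⟨C + D, by positivity, fun p => ?_⟩
  obtain ⟨ha0, ha1, ha2, har⟩ := ha p
  obtain ⟨hb0, hb1, hb2, hbr⟩ := hb p
  have h3 : 0 ≤ δ p ^ 3 ∨ (C = 0 ∧ D = 0) := by
    by_contra hcon
    push Not at hcon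
    have h4 := (norm_nonneg _).trans har
    have h5 := (norm_nonneg _).trans hbr
    have hC0 : C = 0 := by nlinarith [hcon.1]
    have hD0 : D = 0 := by nlinarith [hcon.1]
    exact hcon.2 hC0 hD0
  by_cases hq : q p <;> simp only [hq, if_true, if_false]
  · refine ⟨by linarith, by linarith, by linarith, har.trans ?_⟩
    rcases h3 with h3 | ⟨h3, h4⟩
    · nlinarith
    · simp [h3, h4]
  · refine ⟨by linarith, by linarith, by linarith, hbr.trans ?_⟩
    rcases h3 with h3 | ⟨h3, h4⟩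
    · nlinarith
    · simp [h3, h4]

lemma tay_tok (t : Tok A ι) :
    Tay (P := Par A ι) Par.δ (fun p => val (pert p.i (eU p.δ p.X) p.g) t) (fun p => val p.g t)
      (fun p => d1 p.i p.g p.X t) (fun p => d2 p.i p.g p.X t) := by
  rcases t with a | ⟨j, _ | _⟩
  · exact Tay.const Par.h0 (norm_nonneg a) fun _ => le_rfl
  · have hc : Tay (P := Par A ι) Par.δ (fun p => star (p.g j)) (fun p => star (p.g j))
        (fun _ => 0) (fun _ => 0) := Tay.const Par.h0 zero_le_one fun p => by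
      simpa using norm_unitary_le (p.hg j)
    refine (Tay.ite (fun p => p.i ≤ j)
      (hc.mul Par.h0 Par.h1 (tay_eU (-I) (by simp))) hc).congr ?_ ?_ ?_ ?_ <;> intro p
    · by_cases h : p.i ≤ j <;> simp [val, pert, h, star_eU _ p.hX]
    · by_cases h : p.i ≤ j <;> simp [val, h]
    · by_cases h : p.i ≤ j <;> simp [d1, h]
    · by_cases h : p.i ≤ j <;> simp [d2, h]
  · have hc : Tay (P := Par A ι) Par.δ (fun p => p.g j) (fun p => p.g j)
        (fun _ => 0) (fun _ => 0) := Tay.const Par.h0 zero_le_one fun p =>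
      norm_unitary_le (p.hg j)
    refine (Tay.ite (fun p => p.i ≤ j)
      ((tay_eU I (by simp)).mul Par.h0 Par.h1 hc) hc).congr ?_ ?_ ?_ ?_ <;> intro p
    · by_cases h : p.i ≤ j <;> simp [val, pert, h, eU]
    · by_cases h : p.i ≤ j <;> simp [val, h]
    · by_cases h : p.i ≤ j <;> simp [d1, h]
    · by_cases h : p.i ≤ j <;> simp [d2, h]

lemma tay_word (w : List (Tok A ι)) :
    Tay (P := Par A ι) Par.δ (fun p => wval (pert p.i (eU p.δ p.X) p.g) w) (fun p => wval p.g w)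
      (fun p => D1 p.i p.g p.X w) (fun p => D2 p.i p.g p.X w) := by
  induction w with
  | nil =>
    exact Tay.const Par.h0 zero_le_one fun _ => by
      simpa using norm_unitary_le (one_mem (unitary A))
  | cons t w ih =>
    exact ((tay_tok t).mul Par.h0 Par.h1 ih).congr (fun p => by simp) (fun p => by simp)
      (fun p => rfl) (fun p => rfl)

end Crest.Agent.GEN
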