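import Crest.Agent.GEN.Free1

/-! Limits of the averaged first and second order terms. -/

set_option autoImplicit false
set_option linter.unusedSectionVars false
open NormedSpace Complex Filter Topology
open scoped Classical BigOperators

namespace Crest.Agent.GEN

universe u
variable {A : Type u} [CStarAlgebra A] {ι : Type}
open Tok

/-- A source of random self-adjoint increments which are asymptotically semicircular
increments free from everything (to second order). -/
structure Src (T : Tr A) where
  J : Type u
  F : Filter J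
  ne : F.NeBot
  Ω : J → Type
  fin : ∀ j, Fintype (Ω j)
  nonempty : ∀ j, Nonempty (Ω j)
  X : ∀ j, Ω j → A
  sa : ∀ j ω, star (X j ω) = X j ω
  bd : ∀ j ω, ‖X j ω‖ ≤ 2
  ha : ∀ B C, Tendsto (fun j => 𝔼 ω : Ω j, T.τ (X j ω * B * X j ω * C)) F (𝓝 (T.τ B * T.τ C))
  hb : ∀ C, Tendsto (fun j => 𝔼 ω : Ω j, ‖T.τ (X j ω * C)‖ ^ 2) F (𝓝 0)

attribute [instance] Src.fin Src.nonempty Src.ne

variable {T : Tr A} (R : Src T) [LinearOrder ι] (i : ι) (g : ι → A)

lemma expect_sq_nonneg {Ω : Type} [Fintype Ω] (f : Ω → ℂ) : 0 ≤ 𝔼 ω : Ω, ‖f ω‖ ^ 2 :=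
  Finset.expect_nonneg fun _ _ => sq_nonneg _

lemma Src.sq_add {f h : ∀ j, R.Ω j → ℂ}
    (hf : Tendsto (fun j => 𝔼 ω : R.Ω j, ‖f j ω‖ ^ 2) R.F (𝓝 0))
    (hh : Tendsto (fun j => 𝔼 ω : R.Ω j, ‖h j ω‖ ^ 2) R.F (𝓝 0)) :
    Tendsto (fun j => 𝔼 ω : R.Ω j, ‖f j ω + h j ω‖ ^ 2) R.F (𝓝 0) := by
  have := (hf.const_mul 2).add (hh.const_mul 2)
  simp only [mul_zero, add_zero] at this
  refine squeeze_zero (fun j => expect_sq_nonneg _) (fun j => ?_) this
  rw [Finset.mul_expect, Finset.mul_expect, ← Finset.expect_add_distrib]
  refine Finset.expect_le_expect fun ω _ => ?_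
  have h1 := norm_add_le (f j ω) (h j ω)
  have h2 : ‖f j ω + h j ω‖ ^ 2 ≤ (‖f j ω‖ + ‖h j ω‖) ^ 2 := by gcongr
  nlinarith [sq_nonneg (‖f j ω‖ - ‖h j ω‖)]

lemma Src.tendsto_D1 (w : List (Tok A ι)) (P : A) :
    Tendsto (fun j => 𝔼 ω : R.Ω j, ‖T.τ (P * D1 i g (R.X j ω) w)‖ ^ 2) R.F (𝓝 0) := by
  induction w generalizing P with
  | nil => simp [D1]
  | cons t w ih =>
    simp only [D1, mul_add, map_add]
    refine R.sq_add ?_ (by simpa only [mul_assoc] using ih (P * val g t))
    rcases t with a | ⟨k, _ | _⟩
    · simp [d1]
    · by_cases h : i ≤ k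
      · refine (R.hb (wval g w * P * star (g k))).congr fun j => ?_
        refine Finset.expect_congr rfl fun ω _ => ?_
        simp only [d1, h, if_true, smul_mul_assoc, mul_smul_comm, map_smul, norm_smul, norm_neg,
          norm_I, one_mul]
        congr 2
        rw [mul_assoc (star (g k)), ← mul_assoc P, T.comm (P * star (g k))]
        simp only [mul_assoc]
      · simp [d1, h]
    · by_cases h : i ≤ k
      · refine (R.hb (g k * wval g w * P)).congr fun j => ?_
        refine Finset.expect_congr rfl fun ω _ => ?_
        simp only [d1, h, if_true, smul_mul_assoc, mul_smul_comm, map_smul, norm_smul,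
          norm_I, one_mul]
        congr 2
        rw [T.comm P]
        simp only [mul_assoc]
      · simp [d1, h]

/-- limit of one cross term -/
noncomputable def lam1 (T : Tr A) (i : ι) (g : ι → A) (P M W : A) : Tok A ι → ℂ
  | c _ => 0
  | l k true => if i ≤ k then I * (T.τ M * T.τ (g k * W * P)) else 0
  | l k false => if i ≤ k then -I * (T.τ (M * star (g k)) * T.τ (W * P)) else 0

/-- limit of the cross terms -/
noncomputable def Lam1 (T : Tr A) (i : ι) (g : ι → A) (P : A) :
    List (Tok A ι) → List (Tok A ι) → ℂ
  | _, [] => 0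
  | m, t :: w => lam1 T i g P (wval g m) (wval g w) t + Lam1 T i g P (m ++ [t]) w

lemma Src.tendsto_Lam1 (P : A) (w m : List (Tok A ι)) :
    Tendsto (fun j => 𝔼 ω : R.Ω j, T.τ (P * R.X j ω * wval g m * D1 i g (R.X j ω) w)) R.F
      (𝓝 (Lam1 T i g P m w)) := by
  induction w generalizing m with
  | nil => simp [D1, Lam1]
  | cons t w ih =>
    simp only [D1, mul_add, map_add, Finset.expect_add_distrib, Lam1]
    have ih' := ih (m ++ [t])
    simp only [wval_append, wval_cons, wval_nil, mul_one, mul_assoc] at ih'
    refine Tendsto.add ?_ (by simpa only [mul_assoc] using ih')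
    rcases t with a | ⟨k, _ | _⟩
    · simp [d1, lam1]
    · by_cases h : i ≤ k
      · simp only [lam1, h, if_true]
        refine ((R.ha (wval g m * star (g k)) (wval g w * P)).const_mul (-I)).congr fun j => ?_
        rw [Finset.mul_expect]
        refine Finset.expect_congr rfl fun ω _ => ?_
        simp only [d1, h, if_true, smul_mul_assoc, mul_smul_comm, map_smul, smul_eq_mul, mul_assoc]
        rw [T.comm P]; simp only [mul_assoc]
      · simp [d1, h, lam1]
    · by_cases h : i ≤ k
      · simp only [lam1, h, if_true]
        refine ((R.ha (wval g m) (g k * wval g w * P)).const_mul I).congr fun j => ?_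
        rw [Finset.mul_expect]
        refine Finset.expect_congr rfl fun ω _ => ?_
        simp only [d1, h, if_true, smul_mul_assoc, mul_smul_comm, map_smul, smul_eq_mul, mul_assoc]
        rw [T.comm P]; simp only [mul_assoc]
      · simp [d1, h, lam1]

/-- limit of the terms starting at one token -/
noncomputable def lam2 (T : Tr A) (i : ι) (g : ι → A) (P : A) (w : List (Tok A ι)) :
    Tok A ι → ℂ
  | c _ => 0
  | l k true => if i ≤ k then -2⁻¹ * T.τ (P * g k * wval g w) +
      I * Lam1 T i g P [l k true] w else 0
  | l k false => if i ≤ k then -2⁻¹ * T.τ (P * star (g k) * wval g w) +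
      -I * Lam1 T i g (P * star (g k)) [] w else 0

/-- limit of the second order term -/
noncomputable def Lam2 (T : Tr A) (i : ι) (g : ι → A) : A → List (Tok A ι) → ℂ
  | _, [] => 0
  | P, t :: w => lam2 T i g P w t + Lam2 T i g (P * val g t) w

lemma Src.tendsto_Lam2 (w : List (Tok A ι)) (P : A) :
    Tendsto (fun j => 𝔼 ω : R.Ω j, T.τ (P * D2 i g (R.X j ω) w)) R.F (𝓝 (Lam2 T i g P w)) := by
  induction w generalizing P with
  | nil => simp [D2, Lam2]
  | cons t w ih =>
    simp only [D2, mul_add, map_add, Finset.expect_add_distrib, Lam2]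
    refine Tendsto.add ?_ (by simpa only [mul_assoc] using ih (P * val g t))
    rcases t with a | ⟨k, _ | _⟩
    · simp [d1, d2, lam2]
    · by_cases h : i ≤ k
      · simp only [lam2, h, if_true]
        refine Tendsto.add ?_ ?_
        · have := (R.ha 1 (wval g w * P * star (g k))).const_mul (-2⁻¹)
          rw [T.map_one, one_mul, mul_assoc (wval g w), T.comm (wval g w)] at this
          refine this.congr fun j => ?_
          rw [Finset.mul_expect]
          refine Finset.expect_congr rfl fun ω _ => ?_
          simp only [d2, h, if_true, smul_mul_assoc, mul_smul_comm, map_smul, smul_eq_mul,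
            mul_assoc, one_mul]
          rw [← mul_assoc P, T.comm (P * star (g k))]; simp only [mul_assoc]
        · refine ((R.tendsto_Lam1 i g (P * star (g k)) w []).const_mul (-I)).congr fun j => ?_
          rw [Finset.mul_expect]
          refine Finset.expect_congr rfl fun ω _ => ?_
          simp only [d1, h, if_true, smul_mul_assoc, mul_smul_comm, map_smul, smul_eq_mul,
            mul_assoc, wval_nil, one_mul]
      · simp [d1, d2, h, lam2]
    · by_cases h : i ≤ k
      · simp only [lam2, h, if_true]
        refine Tendsto.add ?_ ?_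
        · have := (R.ha 1 (g k * wval g w * P)).const_mul (-2⁻¹)
          rw [T.map_one, one_mul, T.comm _ P, ← mul_assoc P] at this
          refine this.congr fun j => ?_
          rw [Finset.mul_expect]
          refine Finset.expect_congr rfl fun ω _ => ?_
          simp only [d2, h, if_true, smul_mul_assoc, mul_smul_comm, map_smul, smul_eq_mul,
            mul_assoc, one_mul]
          rw [T.comm P]; simp only [mul_assoc]
        · refine ((R.tendsto_Lam1 i g P w [l k true]).const_mul I).congr fun j => ?_
          rw [Finset.mul_expect]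
          refine Finset.expect_congr rfl fun ω _ => ?_
          simp only [d1, h, if_true, smul_mul_assoc, mul_smul_comm, map_smul, smul_eq_mul,
            mul_assoc, wval_nil, wval_cons, val, mul_one]
      · simp [d1, d2, h, lam2]

/-- the word starts with an active positive letter -/
def hp (i : ι) (w : List (Tok A ι)) : Prop := ∃ k, w.head? = some (l k true) ∧ i ≤ k
/-- the word ends with an active negative letter -/
def lm (i : ι) (w : List (Tok A ι)) : Prop := ∃ k, w.getLast? = some (l k false) ∧ i ≤ k

lemma lm_cons_cons (t t' : Tok A ι) (w : List (Tok A ι)) :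
    lm i (t :: t' :: w) ↔ lm i (t' :: w) := by simp [lm, List.getLast?_cons_cons]

variable {i g}

lemma term_bound (hg : ∀ j, g j ∈ unitary A) {W pre m w : List (Tok A ι)} {μ : ℝ}
    (hμ : ∀ v, v ≠ [] → v <:+: W → v.length < W.length → ‖T.τ (wval g v)‖ ≤ μ)
    (hW : W = pre ++ m ++ w) (hm : m ≠ []) (hne : pre ≠ [] ∨ w ≠ []) :
    ‖T.τ (wval g m) * T.τ (wval g w * wval g pre)‖ ≤ μ * wnb W := by
  have h1 : ‖T.τ (wval g m)‖ ≤ μ := by
    refine hμ m hm ⟨pre, w, hW.symm⟩ ?_
    rw [hW]; simp only [List.length_append]
    rcases hne with h | h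
    · have := List.length_pos_iff.2 h; omega
    · have := List.length_pos_iff.2 h; omega
  have h2 : ‖T.τ (wval g w * wval g pre)‖ ≤ wnb W := by
    refine (T.norm_τ_le _).trans ((norm_mul_le _ _).trans ?_)
    rw [hW, wnb_append, wnb_append]
    have a1 := norm_wval_le hg w
    have a2 := norm_wval_le hg pre
    have a3 := one_le_wnb m
    have a4 := one_le_wnb w
    have a5 := one_le_wnb pre
    calc _ ≤ wnb w * wnb pre := mul_le_mul a1 a2 (norm_nonneg _) (by linarith)
      _ ≤ _ := by nlinarith [mul_nonneg (by linarith : 0 ≤ wnb w) (by linarith : 0 ≤ wnb pre)]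
  rw [norm_mul]
  exact mul_le_mul h1 h2 (norm_nonneg _) ((norm_nonneg _).trans h1)

lemma Lam1_bound (hg : ∀ j, g j ∈ unitary A) {W : List (Tok A ι)} {μ : ℝ} (hμ0 : 0 ≤ μ)
    (hμ : ∀ v, v ≠ [] → v <:+: W → v.length < W.length → ‖T.τ (wval g v)‖ ≤ μ)
    (pre w m : List (Tok A ι)) (hW : W = pre ++ m ++ w) (hne : pre ≠ [] ∨ m ≠ []) :
    ‖Lam1 T i g (wval g pre) m w - (I * (if m = [] ∧ hp i w then 1 else 0) -
      I * (if pre = [] ∧ lm i w then 1 else 0)) * T.τ (wval g W)‖ ≤ w.length * (μ * wnb W) := by
  have hK : 0 ≤ μ * wnb W := mul_nonneg hμ0 (by linarith [one_le_wnb W])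
  induction w generalizing m with
  | nil => simp [Lam1, hp, lm]
  | cons t w ih =>
    have ih' := ih (m ++ [t]) (by simp [hW]) (Or.inr (by simp))
    simp only [List.append_eq_nil_iff, List.cons_ne_self, and_false, false_and, if_false,
      mul_zero, zero_sub] at ih'
    have key : ‖lam1 T i g (wval g pre) (wval g m) (wval g w) t -
        (I * (if m = [] ∧ hp i (t :: w) then 1 else 0) -
          I * (if pre = [] ∧ w = [] ∧ lm i [t] then 1 else 0)) * T.τ (wval g W)‖ ≤
        μ * wnb W := by
      rcases t with a | ⟨k, _ | _⟩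
      · simpa [lam1, hp, lm] using hK
      · by_cases h : i ≤ k
        · by_cases h2 : pre = [] ∧ w = []
          · obtain ⟨rfl, rfl⟩ := h2
            simpa [lam1, hp, lm, h, hW, T.map_one, val] using hK
          · have := term_bound (T := T) hg hμ (pre := pre) (m := m ++ [l k false]) (w := w)
              (by simp [hW]) (by simp) (by tauto)
            have h3 : ¬(pre = [] ∧ w = [] ∧ lm i [(l k false : Tok A ι)]) := by tauto
            simpa [lam1, hp, h, h3, val] using this
        · simpa [lam1, hp, lm, h] using hK
      · by_cases h : i ≤ k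
        · by_cases h2 : m = []
          · subst h2
            have : T.τ (g k * wval g w * wval g pre) = T.τ (wval g W) := by
              rw [T.comm, hW]; simp [val]
            simpa [lam1, hp, lm, h, T.map_one, this] using hK
          · have := term_bound (T := T) hg hμ (pre := pre) (m := m) (w := l k true :: w)
              hW h2 (Or.inr (by simp))
            simpa [lam1, lm, h, h2, val] using this
        · simpa [lam1, hp, lm, h] using hK
    have e : (if pre = [] ∧ lm i (t :: w) then (1 : ℂ) else 0) =
        (if pre = [] ∧ w = [] ∧ lm i [t] then 1 else 0) + (if pre = [] ∧ lm i w then 1 else 0) := by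
      rcases w with _ | ⟨t', w⟩
      · simp [lm]
      · simp [lm_cons_cons]
    rw [Lam1, e]
    refine le_trans (le_of_eq ?_) ((norm_add_le _ _).trans ((add_le_add key ih').trans
      (le_of_eq ?_)))
    · congr 1; ring
    · simp only [List.length_cons]; push_cast; ring

/-- contribution of a token to the diagonal coefficient -/
noncomputable def rho1 (i : ι) (w : List (Tok A ι)) : Tok A ι → ℝ
  | c _ => 0
  | l k true => if i ≤ k then -2⁻¹ else 0
  | l k false => if i ≤ k then -2⁻¹ + (if hp i w then 1 else 0) else 0

/-- the linear part of the diagonal coefficient -/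
noncomputable def rho (i : ι) : List (Tok A ι) → ℝ
  | [] => 0
  | t :: w => rho1 i w t + rho i w

lemma Lam2_bound (hg : ∀ j, g j ∈ unitary A) {W : List (Tok A ι)} {μ : ℝ} (hμ0 : 0 ≤ μ)
    (hμ : ∀ v, v ≠ [] → v <:+: W → v.length < W.length → ‖T.τ (wval g v)‖ ≤ μ)
    (w pre : List (Tok A ι)) (hW : W = pre ++ w) :
    ‖Lam2 T i g (wval g pre) w - ((rho i w + if pre = [] ∧ hp i w ∧ lm i w.tail then 1 else 0 : ℝ)
      : ℂ) * T.τ (wval g W)‖ ≤ w.length ^ 2 * (μ * wnb W) := by
  have hK : 0 ≤ μ * wnb W := mul_nonneg hμ0 (by linarith [one_le_wnb W])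
  induction w generalizing pre with
  | nil => simp [Lam2, rho, hp]
  | cons t w ih =>
    have ih' := ih (pre ++ [t]) (by simp [hW])
    simp only [List.append_eq_nil_iff, List.cons_ne_self, and_false, false_and, if_false,
      add_zero, wval_append, wval_cons, wval_nil, mul_one] at ih'
    have key : ‖lam2 T i g (wval g pre) w t - ((rho1 i w t +
        if pre = [] ∧ hp i (t :: w) ∧ lm i w then 1 else 0 : ℝ) : ℂ) * T.τ (wval g W)‖ ≤
        w.length * (μ * wnb W) := by
      have hK' : 0 ≤ w.length * (μ * wnb W) := by positivity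
      rcases t with a | ⟨k, _ | _⟩
      · simpa [lam2, rho1, hp] using hK'
      · by_cases h : i ≤ k
        · have h1 := Lam1_bound (T := T) (i := i) hg hμ0 hμ (pre ++ [l k false]) w []
            (by simp [hW]) (Or.inl (by simp))
          have e : T.τ (wval g pre * star (g k) * wval g w) = T.τ (wval g W) := by
            rw [hW]; simp [val, mul_assoc]
          have hn : ¬ hp i (l k false :: w) := by simp [hp]
          simp only [lam2, rho1, h, if_true, e, hn, false_and, and_false, if_false, add_zero]
          simp only [List.append_eq_nil_iff, List.cons_ne_self, and_false, false_and, if_false,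
            mul_zero, sub_zero, true_and, wval_append, wval_cons, wval_nil, mul_one, val] at h1
          refine le_trans (le_of_eq ?_) h1
          have hI : ∀ z : ℂ, ‖z‖ = ‖-I * z‖ := fun z => by simp
          rw [hI (Lam1 T i g _ _ _ - _)]
          congr 1
          by_cases h3 : hp i w <;> simp only [h3, if_true, if_false] <;> push_cast
          · linear_combination (-T.τ (wval g W)) * I_mul_I
          · ring
        · simpa [lam2, rho1, hp, h] using hK'
      · by_cases h : i ≤ k
        · have h1 := Lam1_bound (T := T) (i := i) hg hμ0 hμ pre w [l k true]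
            (by simp [hW]) (Or.inr (by simp))
          have e : T.τ (wval g pre * g k * wval g w) = T.τ (wval g W) := by
            rw [hW]; simp [val, mul_assoc]
          have hn : hp i (l k true :: w) := ⟨k, rfl, h⟩
          simp only [lam2, rho1, h, if_true, e, hn, true_and]
          simp only [List.cons_ne_self, false_and, if_false, mul_zero, zero_sub] at h1
          refine le_trans (le_of_eq ?_) h1
          have hI : ∀ z : ℂ, ‖z‖ = ‖I * z‖ := fun z => by simp
          rw [hI (Lam1 T i g _ _ _ - _)]
          congr 1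
          by_cases h3 : pre = [] ∧ lm i w
          · rw [if_pos h3, if_pos h3]; push_cast
            linear_combination (-T.τ (wval g W)) * I_mul_I
          · rw [if_neg h3, if_neg h3]; push_cast; ring
        · simpa [lam2, rho1, hp, h] using hK'
    rw [Lam2, rho, List.tail_cons]
    refine le_trans (le_of_eq ?_) ((norm_add_le _ _).trans ((add_le_add key ih').trans ?_))
    · congr 1; push_cast; ring
    · simp only [List.length_cons]; push_cast
      have : (0 : ℝ) ≤ w.length := Nat.cast_nonneg _
      nlinarith

end Crest.Agent.GEN
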