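import Crest.Agent.GEN.Free2

/-! Existence of asymptotically free unitaries by a potential argument. -/

set_option autoImplicit false
set_option linter.unusedSectionVars false
open NormedSpace Complex Filter Topology
open scoped Classical BigOperators ComplexConjugate

namespace Crest.Agent.GEN

universe u
variable {A : Type u} [CStarAlgebra A] {ι : Type} [LinearOrder ι]
open Tok

/-- reduced words with centred constants -/
def Red (T : Tr A) (w : List (Tok A ι)) : Prop :=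
  List.IsChain Adj w ∧ ∀ a, c a ∈ w → T.τ a = 0

lemma Red.infix {T : Tr A} {v w : List (Tok A ι)} (h : Red T w) (hv : v <:+: w) : Red T v :=
  ⟨h.1.infix hv, fun a ha => h.2 a (hv.subset ha)⟩

/-- words of the form `g_j v g_j⋆` -/
def Conj (w : List (Tok A ι)) : Prop := ∃ j v, w = l j true :: (v ++ [l j false])

/-- diagonal coefficient -/
noncomputable def coef (i : ι) (w : List (Tok A ι)) : ℝ :=
  rho i w + if hp i w ∧ lm i w.tail then 1 else 0

lemma rho_le (i : ι) (w : List (Tok A ι)) :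
    rho i w + (if hp i w then 2⁻¹ else 0) + (if lm i w then 2⁻¹ else 0) ≤ 0 := by
  induction w with
  | nil => simp [rho, hp, lm]
  | cons t w ih =>
    have hl : (if lm i (t :: w) then (2⁻¹ : ℝ) else 0) =
        (if w = [] ∧ lm i [t] then 2⁻¹ else 0) + (if lm i w then 2⁻¹ else 0) := by
      rcases w with _ | ⟨t', w⟩
      · simp [lm]
      · simp [lm_cons_cons]
    have hw : w = [] → ¬ hp i w := by rintro rfl; simp [hp]
    rw [rho, hl]
    rcases t with a | ⟨k, _ | _⟩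
    · have h1 : ¬ hp i (c a :: w) := by simp [hp]
      have h2 : ¬ lm i [(c a : Tok A ι)] := by simp [lm]
      simp only [rho1, h1, h2, if_false, and_false]
      split_ifs at ih ⊢ <;> linarith
    · have h1 : ¬ hp i (l k false :: w) := by simp [hp]
      have h2 : lm i [(l k false : Tok A ι)] ↔ i ≤ k := by simp [lm]
      simp only [rho1, h1, h2, if_false]
      by_cases h3 : w = []
      · have := hw h3
        simp only [this, if_false] at ih ⊢
        split_ifs at ih ⊢ <;> first | linarith | tauto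
      · simp only [h3, false_and, if_false]
        split_ifs at ih ⊢ <;> linarith
    · have h1 : hp i (l k true :: w) ↔ i ≤ k := by simp [hp]
      have h2 : ¬ lm i [(l k true : Tok A ι)] := by simp [lm]
      simp only [rho1, h1, h2, if_false, and_false]
      split_ifs at ih ⊢ <;> linarith

lemma coef_nonpos (i : ι) (w : List (Tok A ι)) : coef i w ≤ 0 := by
  have h := rho_le i w
  unfold coef
  by_cases h1 : hp i w ∧ lm i w.tail
  · have h2 : lm i w := by
      rcases w with _ | ⟨t, _ | ⟨t', w⟩⟩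
      · exact h1.2
      · simpa [lm] using h1.2
      · exact (lm_cons_cons i t t' w).2 h1.2
    rw [if_pos h1.1, if_pos h2] at h
    rw [if_pos h1]; linarith
  · rw [if_neg h1]
    split_ifs at h <;> linarith

lemma rho_max (i : ι) (w : List (Tok A ι)) (hc : List.IsChain Adj w)
    (hm : ∀ k s, l k s ∈ w → k ≤ i) :
    rho i w ≤ if ∃ s, l i s ∈ w then -2⁻¹ else 0 := by
  induction w with
  | nil => simp [rho]
  | cons t w ih =>
    have ih' := ih hc.tail (fun k s h => hm k s (List.mem_cons_of_mem _ h))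
    have h1 : rho1 i w t ≤ if ∃ s, l i s = t then -2⁻¹ else 0 := by
      rcases t with a | ⟨k, _ | _⟩
      · simp [rho1]
      · by_cases h : i ≤ k
        · obtain rfl : k = i := le_antisymm (hm k false (by simp)) h
          have : ¬ hp k w := by
            rintro ⟨k', h1, h2⟩
            rcases w with _ | ⟨t', w⟩
            · simp at h1
            · obtain rfl : t' = l k' true := by simpa using h1
              have h3 : k' = k := le_antisymm (hm k' true (by simp)) h2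
              have := (List.isChain_cons_cons.1 hc).1
              simp [Adj, h3] at this
          simp [rho1, this]
        · have : i ≠ k := fun e => h e.le
          simp [rho1, h, this]
      · by_cases h : i ≤ k
        · obtain rfl : k = i := le_antisymm (hm k true (by simp)) h
          simp [rho1]
        · have : i ≠ k := fun e => h e.le
          simp [rho1, h, this]
    rw [rho]
    simp only [List.mem_cons, exists_or]
    split_ifs at h1 ih' ⊢ <;> first | linarith | tauto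

lemma exists_coef_le (w : List (Tok A ι)) (hc : List.IsChain Adj w) (hl : ∃ k s, l k s ∈ w)
    (hn : ¬ Conj w) : ∃ i : ι, coef i w ≤ -2⁻¹ := by
  have hfin : {k : ι | ∃ s, l k s ∈ w}.Finite := by
    refine ((List.finite_toSet w).image (fun t : Tok A ι => match t with
      | c _ => hl.choose
      | l k _ => k)).subset ?_
    rintro k ⟨s, hs⟩
    exact ⟨_, hs, rfl⟩
  obtain ⟨i, ⟨s, hi⟩, hmax⟩ := Set.exists_max_image _ id hfin ⟨hl.choose, hl.choose_spec⟩
  have hm : ∀ k s, l k s ∈ w → k ≤ i := fun k s h => hmax k ⟨s, h⟩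
  refine ⟨i, ?_⟩
  have h1 := rho_max i w hc hm
  rw [if_pos ⟨s, hi⟩] at h1
  have h2 : ¬ (hp i w ∧ lm i w.tail) := by
    rintro ⟨⟨k, hk, hik⟩, ⟨k', hk', hik'⟩⟩
    rcases w with _ | ⟨t, w⟩
    · simp at hk
    obtain rfl : t = l k true := by simpa using hk
    obtain ⟨v, rfl⟩ := List.getLast?_eq_some_iff.1 hk'
    have e1 : k = i := le_antisymm (hm k true (by simp)) hik
    have e2 : k' = i := le_antisymm (hm k' false (by
      simp only [List.tail_cons] at *; simp)) hik'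
    exact hn ⟨i, v, by simp [e1, e2]⟩
  rw [coef, if_neg h2]; linarith

variable {T : Tr A}

/-- domination of all words by the essential ones -/
lemma dom {g : ι → A} (hg : ∀ j, g j ∈ unitary A) (V : Finset (List (Tok A ι)))
    (hV : ∀ w ∈ V, w ≠ [] ∧ Red T w) (hcl : ∀ w ∈ V, ∀ v, v ≠ [] → v <:+: w → v ∈ V)
    (n : ℕ) : ∀ w ∈ V, w.length ≤ n → T.τ (wval g w) = 0 ∨
      ∃ v ∈ V, (∃ k s, l k s ∈ v) ∧ ¬ Conj v ∧ v.length ≤ w.length ∧
        T.τ (wval g w) = T.τ (wval g v) := by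
  induction n with
  | zero => intro w hw h; exact absurd (List.length_eq_zero_iff.1 (by omega)) (hV w hw).1
  | succ n ih =>
    intro w hw hlen
    by_cases h1 : ∃ k s, l k s ∈ w
    · by_cases h2 : Conj w
      · obtain ⟨j, v, rfl⟩ := h2
        have hv : v ≠ [] := by
          rintro rfl
          have := (hV _ hw).2.1
          simp [Adj] at this
        have hvV : v ∈ V := hcl _ hw v hv ⟨[l j true], [l j false], by simp⟩
        have e : T.τ (wval g (l j true :: (v ++ [l j false]))) = T.τ (wval g v) := by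
          simp only [wval_cons, wval_append, wval_nil, val, mul_one]
          rw [T.comm, mul_assoc, Unitary.star_mul_self_of_mem (hg j), mul_one]
        simp only [List.length_cons, List.length_append, List.length_nil] at hlen ⊢
        rcases ih v hvV (by omega) with h | ⟨v', h1, h2, h3, h4, h5⟩
        · exact Or.inl (e.trans h)
        · exact Or.inr ⟨v', h1, h2, h3, by omega, e.trans h5⟩
      · exact Or.inr ⟨w, hw, h1, h2, le_rfl, rfl⟩
    · left
      obtain ⟨hne, hch, hce⟩ := hV w hw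
      rcases w with _ | ⟨t, w⟩
      · exact absurd rfl hne
      rcases t with a | ⟨k, s⟩
      · rcases w with _ | ⟨t', w⟩
        · simpa [val] using hce a (by simp)
        · rcases t' with a' | ⟨k, s⟩
          · simp [Adj] at hch
          · exact absurd ⟨k, s, by simp⟩ h1
      · exact absurd ⟨k, s, by simp⟩ h1

/-- one step estimate for one word -/
lemma step_word (w : List (Tok A ι)) : ∃ C : ℝ, 0 ≤ C ∧ ∀ (g : ι → A), (∀ j, g j ∈ unitary A) →
    ∀ (i : ι) (R : Src T) (δ : ℝ), 0 < δ → δ ≤ 1 → ∀ᶠ j in R.F,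
      𝔼 ω : R.Ω j, ‖T.τ (wval (pert i (eU δ (R.X j ω)) g) w)‖ ^ 2 ≤
        ‖T.τ (wval g w)‖ ^ 2 + 2 * δ ^ 2 * (conj (T.τ (wval g w)) * Lam2 T i g 1 w).re +
          C * δ ^ 3 := by
  obtain ⟨C, hC, h⟩ := tay_word (A := A) (ι := ι) w
  refine ⟨9 * C ^ 2 + 1, by positivity, fun g hg i R δ h0 h1 => ?_⟩
  set f := T.τ (wval g w) with hf
  have t1 := R.tendsto_D1 i g w 1
  have t2 := R.tendsto_Lam2 i g w 1
  simp only [one_mul] at t1 t2
  have t3 : Tendsto (fun j => ‖f‖ ^ 2 + 2 * δ ^ 2 *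
      (conj f * 𝔼 ω : R.Ω j, T.τ (D2 i g (R.X j ω) w)).re + 9 * C ^ 2 * δ ^ 3 +
      (δ⁻¹ + 3) * 𝔼 ω : R.Ω j, ‖T.τ (D1 i g (R.X j ω) w)‖ ^ 2) R.F
      (𝓝 (‖f‖ ^ 2 + 2 * δ ^ 2 * (conj f * Lam2 T i g 1 w).re + 9 * C ^ 2 * δ ^ 3 +
        (δ⁻¹ + 3) * 0)) :=
    ((tendsto_const_nhds.add (((continuous_re.tendsto _).comp
      (t2.const_mul (conj f))).const_mul _)).add tendsto_const_nhds).add (t1.const_mul _)
  have hlt : ‖f‖ ^ 2 + 2 * δ ^ 2 * (conj f * Lam2 T i g 1 w).re + 9 * C ^ 2 * δ ^ 3 +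
      (δ⁻¹ + 3) * 0 < ‖f‖ ^ 2 + 2 * δ ^ 2 * (conj f * Lam2 T i g 1 w).re +
      (9 * C ^ 2 + 1) * δ ^ 3 := by nlinarith [pow_pos h0 3]
  filter_upwards [t3.eventually (gt_mem_nhds hlt)] with j hj
  refine le_trans ?_ hj.le
  have e : ‖f‖ ^ 2 + 2 * δ ^ 2 * (conj f * 𝔼 ω : R.Ω j, T.τ (D2 i g (R.X j ω) w)).re +
      9 * C ^ 2 * δ ^ 3 + (δ⁻¹ + 3) * 𝔼 ω : R.Ω j, ‖T.τ (D1 i g (R.X j ω) w)‖ ^ 2 =
      𝔼 ω : R.Ω j, (‖f‖ ^ 2 + 2 * δ ^ 2 * (conj f * T.τ (D2 i g (R.X j ω) w)).re +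
        9 * C ^ 2 * δ ^ 3 + (δ⁻¹ + 3) * ‖T.τ (D1 i g (R.X j ω) w)‖ ^ 2) := by
    simp only [Finset.expect_add_distrib, Fintype.expect_const, ← Finset.mul_expect]
    rw [Finset.mul_expect, Complex.re_expect]
  rw [e]
  refine Finset.expect_le_expect fun ω _ => ?_
  obtain ⟨b0, -, b2, br⟩ := h ⟨i, δ, g, R.X j ω, h0.le, h1, hg, R.sa j ω, R.bd j ω⟩
  simp only at b0 b2 br
  set a := T.τ (D1 i g (R.X j ω) w)
  set b := T.τ (D2 i g (R.X j ω) w)
  set f' := T.τ (wval (pert i (eU δ (R.X j ω)) g) w)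
  have hfC : ‖f‖ ≤ C := (T.norm_τ_le _).trans b0
  have hbC : ‖b‖ ≤ C := (T.norm_τ_le _).trans b2
  have hr : ‖f' - (f + δ * a + δ ^ 2 * b)‖ ≤ C * δ ^ 3 := by
    refine le_trans (le_of_eq ?_) ((T.norm_τ_le _).trans br)
    simp only [map_sub, map_add, map_smul, smul_eq_mul]; rfl
  set r := f' - (f + δ * a + δ ^ 2 * b) with hrdef
  have hf' : f' = f + (δ * a + δ ^ 2 * b + r) := by rw [hrdef]; ring
  have hsq : ‖f'‖ ^ 2 = ‖f‖ ^ 2 + 2 * (conj f * (δ * a + δ ^ 2 * b + r)).re +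
      ‖δ * a + δ ^ 2 * b + r‖ ^ 2 := by
    rw [hf', @norm_add_sq ℂ, RCLike.inner_apply']; simp only [RCLike.re_to_complex]
  have hre : (conj f * (δ * a + δ ^ 2 * b + r)).re =
      δ * (conj f * a).re + δ ^ 2 * (conj f * b).re + (conj f * r).re := by
    have : conj f * (δ * a + δ ^ 2 * b + r) =
        (δ : ℂ) * (conj f * a) + ((δ ^ 2 : ℝ) : ℂ) * (conj f * b) + conj f * r := by
      push_cast; ring
    rw [this, add_re, add_re, re_ofReal_mul, re_ofReal_mul]
  have n1 : (conj f * a).re ≤ ‖f‖ * ‖a‖ := by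
    simpa using (re_le_norm (conj f * a))
  have n2 : (conj f * r).re ≤ C * (C * δ ^ 3) := by
    refine (re_le_norm _).trans ?_
    rw [norm_mul, norm_conj]
    exact mul_le_mul hfC hr (norm_nonneg _) hC
  have n3 : ‖δ * a + δ ^ 2 * b + r‖ ≤ δ * ‖a‖ + δ ^ 2 * C + C * δ ^ 3 := by
    refine norm_add₃_le.trans ?_
    rw [norm_mul, norm_mul, norm_pow, norm_real, Real.norm_eq_abs, abs_of_pos h0]
    gcongr
  have n4 : ‖δ * a + δ ^ 2 * b + r‖ ^ 2 ≤ 3 * ‖a‖ ^ 2 + 6 * C ^ 2 * δ ^ 3 := by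
    have h2 : ‖δ * a + δ ^ 2 * b + r‖ ^ 2 ≤ (δ * ‖a‖ + δ ^ 2 * C + C * δ ^ 3) ^ 2 := by gcongr
    have h3 : (δ * ‖a‖ + δ ^ 2 * C + C * δ ^ 3) ^ 2 ≤
        3 * ((δ * ‖a‖) ^ 2 + (δ ^ 2 * C) ^ 2 + (C * δ ^ 3) ^ 2) := by
      nlinarith [sq_nonneg (δ * ‖a‖ - δ ^ 2 * C), sq_nonneg (δ * ‖a‖ - C * δ ^ 3),
        sq_nonneg (δ ^ 2 * C - C * δ ^ 3)]
    have h4 : (δ * ‖a‖) ^ 2 ≤ ‖a‖ ^ 2 := by
      rw [mul_pow]; exact mul_le_of_le_one_left (sq_nonneg _) (pow_le_one₀ h0.le h1)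
    have h5 : (δ ^ 2 * C) ^ 2 ≤ C ^ 2 * δ ^ 3 := by
      have : δ ^ 4 ≤ δ ^ 3 := pow_le_pow_of_le_one h0.le h1 (by norm_num)
      nlinarith [sq_nonneg C]
    have h6 : (C * δ ^ 3) ^ 2 ≤ C ^ 2 * δ ^ 3 := by
      have : δ ^ 6 ≤ δ ^ 3 := pow_le_pow_of_le_one h0.le h1 (by norm_num)
      nlinarith [sq_nonneg C]
    linarith
  have n5 : 2 * (δ * (‖f‖ * ‖a‖)) ≤ C ^ 2 * δ ^ 3 + δ⁻¹ * ‖a‖ ^ 2 := by
    have h2 : 2 * (δ * (‖f‖ * ‖a‖)) ≤ ‖f‖ ^ 2 * δ ^ 3 + δ⁻¹ * ‖a‖ ^ 2 := by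
      have h3 : 0 ≤ δ⁻¹ * (δ ^ 2 * ‖f‖ - ‖a‖) ^ 2 := by positivity
      have h4 : δ⁻¹ * (δ ^ 2 * ‖f‖ - ‖a‖) ^ 2 =
          ‖f‖ ^ 2 * δ ^ 3 + δ⁻¹ * ‖a‖ ^ 2 - 2 * (δ * (‖f‖ * ‖a‖)) := by field_simp; ring
      linarith
    have h5 : ‖f‖ ^ 2 ≤ C ^ 2 := by gcongr
    nlinarith [pow_pos h0 3]
  rw [hsq, hre]
  nlinarith [mul_le_mul_of_nonneg_left n1 h0.le]

end Crest.Agent.GEN
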