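import Crest.Agent.GEN.Free3

/-! The potential argument. -/

set_option autoImplicit false
set_option linter.unusedSectionVars false
open NormedSpace Complex Filter Topology
open scoped Classical BigOperators ComplexConjugate

namespace Crest.Agent.GEN

universe u
variable {A : Type u} [CStarAlgebra A] {ι : Type} [LinearOrder ι] {T : Tr A}
open Tok

/-- the potential -/
noncomputable def pot (T : Tr A) (V : Finset (List (Tok A ι))) (κ : ℝ) (g : ι → A) : ℝ :=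
  ∑ w ∈ V, κ ^ w.length * ‖T.τ (wval g w)‖ ^ 2

lemma pot_nonneg (V : Finset (List (Tok A ι))) {κ : ℝ} (hκ : 0 ≤ κ) (g : ι → A) :
    0 ≤ pot T V κ g := Finset.sum_nonneg fun _ _ => by positivity

lemma le_pot {V : Finset (List (Tok A ι))} {κ : ℝ} (hκ : 0 ≤ κ) (g : ι → A)
    {w : List (Tok A ι)} (hw : w ∈ V) : κ ^ w.length * ‖T.τ (wval g w)‖ ^ 2 ≤ pot T V κ g :=
  Finset.single_le_sum (f := fun w => κ ^ w.length * ‖T.τ (wval g w)‖ ^ 2)
    (fun _ _ => by positivity) hw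

lemma pot_step (V : Finset (List (Tok A ι))) {κ : ℝ} (hκ : 0 ≤ κ) :
    ∃ C : ℝ, 0 ≤ C ∧ ∀ (g : ι → A), (∀ j, g j ∈ unitary A) →
    ∀ (i : ι) (R : Src T) (δ : ℝ), 0 < δ → δ ≤ 1 → ∃ j ω,
      pot T V κ (pert i (eU δ (R.X j ω)) g) ≤ pot T V κ g + 2 * δ ^ 2 *
        ∑ w ∈ V, κ ^ w.length * (conj (T.τ (wval g w)) * Lam2 T i g 1 w).re + C * δ ^ 3 := by
  choose C hC h using step_word (T := T) (ι := ι)
  refine ⟨∑ w ∈ V, κ ^ w.length * C w, Finset.sum_nonneg fun w _ => by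
    have := hC w; positivity, fun g hg i R δ h0 h1 => ?_⟩
  obtain ⟨j, hj⟩ := ((Filter.eventually_all_finset V).2 fun w _ => h w g hg i R δ h0 h1).exists
  refine ⟨j, ?_⟩
  have : 𝔼 ω : R.Ω j, pot T V κ (pert i (eU δ (R.X j ω)) g) ≤ pot T V κ g + 2 * δ ^ 2 *
      ∑ w ∈ V, κ ^ w.length * (conj (T.τ (wval g w)) * Lam2 T i g 1 w).re +
      (∑ w ∈ V, κ ^ w.length * C w) * δ ^ 3 := by
    unfold pot
    rw [Finset.expect_sum_comm, Finset.mul_sum, Finset.sum_mul, ← Finset.sum_add_distrib,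
      ← Finset.sum_add_distrib]
    refine Finset.sum_le_sum fun w hw => ?_
    rw [← Finset.mul_expect]
    have := mul_le_mul_of_nonneg_left (hj w hw) (pow_nonneg hκ w.length)
    linarith
  obtain ⟨ω, -, hω⟩ := Finset.exists_le_of_expect_le Finset.univ_nonempty this
  exact ⟨ω, hω⟩

theorem free_exists [Fintype ι] [Nonempty ι] (G : Set (ι → A)) (hne : G.Nonempty)
    (hU : ∀ g ∈ G, ∀ j, g j ∈ unitary A)
    (hP : ∀ g ∈ G, ∀ i, ∃ R : Src T, ∀ j ω δ, pert i (eU δ (R.X j ω)) g ∈ G)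
    (W : Finset (List (Tok A ι))) (hW : ∀ w ∈ W, w ≠ [] ∧ Red T w) {ε : ℝ} (hε : 0 < ε) :
    ∃ g ∈ G, ∀ w ∈ W, ‖T.τ (wval g w)‖ ≤ ε := by
  set V : Finset (List (Tok A ι)) :=
    W.biUnion fun w => w.sublists.toFinset.filter fun v => v ≠ [] ∧ v <:+: w with hVdef
  have memV : ∀ v, v ∈ V ↔ ∃ w ∈ W, v ≠ [] ∧ v <:+: w := fun v => by
    simp only [hVdef, Finset.mem_biUnion, Finset.mem_filter, List.mem_toFinset,
      List.mem_sublists]
    exact exists_congr fun w => and_congr_right fun _ =>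
      ⟨fun h => h.2, fun h => ⟨h.2.sublist, h⟩⟩
  have hV : ∀ w ∈ V, w ≠ [] ∧ Red T w := fun v hv => by
    obtain ⟨w, hw, h1, h2⟩ := (memV v).1 hv
    exact ⟨h1, (hW w hw).2.infix h2⟩
  have hcl : ∀ w ∈ V, ∀ v, v ≠ [] → v <:+: w → v ∈ V := fun w hw v h1 h2 => by
    obtain ⟨w', hw', -, h3⟩ := (memV w).1 hw
    exact (memV v).2 ⟨w', hw', h1, h2.trans h3⟩
  set V2 := V.filter fun w => (∃ k s, l k s ∈ w) ∧ ¬ Conj w with hV2
  set B : ℝ := ∑ w ∈ V, (w.length : ℝ) ^ 2 * wnb w with hB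
  have hB0 : ∀ w : List (Tok A ι), 0 ≤ (w.length : ℝ) ^ 2 * wnb w := fun w => by
    have := one_le_wnb w; positivity
  have hBw : ∀ w ∈ V, (w.length : ℝ) ^ 2 * wnb w ≤ B := fun w hw =>
    Finset.single_le_sum (f := fun w => (w.length : ℝ) ^ 2 * wnb w) (fun w _ => hB0 w) hw
  set n : ℝ := (Fintype.card ι : ℝ) with hn
  have hn1 : 1 ≤ n := by rw [hn]; exact_mod_cast Fintype.card_pos
  set D : ℝ := (V2.card : ℝ) * (n * B) ^ 2 with hD
  have hD0 : 0 ≤ D := by positivity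
  set κ : ℝ := (8 * (D + 1))⁻¹ with hκdef
  have hκ : 0 < κ := by positivity
  have hκ1 : κ ≤ 1 := by rw [hκdef]; exact inv_le_one_of_one_le₀ (by linarith)
  have hκD : D * κ ≤ 8⁻¹ := by
    rw [hκdef, ← div_eq_mul_inv, div_le_iff₀ (by positivity)]; linarith
  have hdom : ∀ g : ι → A, (∀ j, g j ∈ unitary A) → ∀ w ∈ V,
      κ ^ w.length * ‖T.τ (wval g w)‖ ^ 2 ≤ pot T V2 κ g := fun g hg w hw => by
    rcases dom hg V hV hcl w.length w hw le_rfl with h | ⟨v, h1, h2, h3, h4, h5⟩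
    · simpa [h] using pot_nonneg V2 hκ.le g
    · refine le_trans ?_ (le_pot hκ.le g (Finset.mem_filter.2 ⟨h1, h2, h3⟩))
      rw [h5]
      exact mul_le_mul_of_nonneg_right (pow_le_pow_of_le_one hκ.le hκ1 h4) (sq_nonneg _)
  have hsum : ∀ g : ι → A, (∀ j, g j ∈ unitary A) → ∑ i, ∑ w ∈ V2, κ ^ w.length *
      (conj (T.τ (wval g w)) * Lam2 T i g 1 w).re ≤ -(pot T V2 κ g / 8) := fun g hg => by
    set Φ := pot T V2 κ g with hΦ
    have hΦ0 : 0 ≤ Φ := pot_nonneg V2 hκ.le g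
    rw [Finset.sum_comm]
    have each : ∀ w ∈ V2, ∑ i, κ ^ w.length * (conj (T.τ (wval g w)) * Lam2 T i g 1 w).re ≤
        -(κ ^ w.length * ‖T.τ (wval g w)‖ ^ 2) / 4 + (n * B) ^ 2 * (κ * Φ) := by
      intro w hw
      obtain ⟨hwV, hl, hc⟩ := Finset.mem_filter.1 hw
      have hkw : 0 < κ ^ w.length := pow_pos hκ _
      set μ := √(κ * Φ / κ ^ w.length) with hμdef
      have hμ0 : 0 ≤ μ := Real.sqrt_nonneg _
      have hμsq : κ ^ w.length * μ ^ 2 = κ * Φ := by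
        rw [hμdef, Real.sq_sqrt (by positivity)]; field_simp
      have hμ : ∀ v, v ≠ [] → v <:+: w → v.length < w.length → ‖T.τ (wval g v)‖ ≤ μ := by
        intro v h1 h2 h3
        refine Real.le_sqrt_of_sq_le ?_
        rw [le_div_iff₀ hkw]
        have h4 := hdom g hg v (hcl w hwV v h1 h2)
        have h5 : κ ^ w.length ≤ κ ^ (v.length + 1) := pow_le_pow_of_le_one hκ.le hκ1 h3
        calc _ ≤ ‖T.τ (wval g v)‖ ^ 2 * κ ^ (v.length + 1) := by gcongr
          _ = κ * (κ ^ v.length * ‖T.τ (wval g v)‖ ^ 2) := by ring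
          _ ≤ _ := by gcongr
      set f := T.τ (wval g w) with hf
      have hi : ∀ i, (conj f * Lam2 T i g 1 w).re ≤ coef i w * ‖f‖ ^ 2 + ‖f‖ * (μ * B) := by
        intro i
        have h1 := Lam2_bound (T := T) (i := i) hg hμ0 hμ w [] rfl
        simp only [wval_nil, true_and] at h1
        have e : conj f * Lam2 T i g 1 w = ((coef i w * ‖f‖ ^ 2 : ℝ) : ℂ) +
            conj f * (Lam2 T i g 1 w - (coef i w : ℂ) * f) := by
          have : conj f * f = ((‖f‖ ^ 2 : ℝ) : ℂ) := by rw [conj_mul']; push_cast; rfl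
          push_cast at this ⊢
          linear_combination (coef i w : ℂ) * this
        rw [e, add_re, ofReal_re]
        refine add_le_add le_rfl ((re_le_norm _).trans ?_)
        rw [norm_mul, norm_conj]
        refine mul_le_mul_of_nonneg_left (h1.trans ?_) (norm_nonneg _)
        have := hBw w hwV
        nlinarith
      obtain ⟨i0, hi0⟩ := exists_coef_le w (hV w hwV).2.1 hl hc
      have hc2 : ∑ i, coef i w ≤ -2⁻¹ := by
        rw [← Finset.add_sum_erase _ _ (Finset.mem_univ i0)]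
        have := Finset.sum_nonpos (s := Finset.univ.erase i0) fun i _ => coef_nonpos i w
        linarith
      have h2 : ∑ i, (conj f * Lam2 T i g 1 w).re ≤ -2⁻¹ * ‖f‖ ^ 2 + n * (‖f‖ * (μ * B)) := by
        refine (Finset.sum_le_sum fun i _ => hi i).trans ?_
        rw [Finset.sum_add_distrib, ← Finset.sum_mul, Finset.sum_const, Finset.card_univ,
          nsmul_eq_mul]
        gcongr
      rw [← Finset.mul_sum]
      have h3 : -2⁻¹ * ‖f‖ ^ 2 + n * (‖f‖ * (μ * B)) ≤ -‖f‖ ^ 2 / 4 + (n * B) ^ 2 * μ ^ 2 := by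
        nlinarith [sq_nonneg (‖f‖ / 2 - n * B * μ)]
      calc _ ≤ κ ^ w.length * (-‖f‖ ^ 2 / 4 + (n * B) ^ 2 * μ ^ 2) := by gcongr; linarith
        _ = _ := by rw [← hμsq]; ring
    refine (Finset.sum_le_sum each).trans ?_
    rw [Finset.sum_add_distrib, ← Finset.sum_div, Finset.sum_neg_distrib, Finset.sum_const,
      nsmul_eq_mul]
    change -Φ / 4 + _ ≤ _
    have : (V2.card : ℝ) * ((n * B) ^ 2 * (κ * Φ)) = D * κ * Φ := by rw [hD]; ring
    rw [this]; nlinarith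
  obtain ⟨C, hC, hstep⟩ := pot_step (T := T) V2 hκ.le
  have hinf : ∀ η > 0, ∃ g ∈ G, pot T V2 κ g < η := by
    intro η hη
    by_contra hcon
    push Not at hcon
    have hbdd : BddBelow (pot T V2 κ '' G) := ⟨η, by rintro _ ⟨g, hg, rfl⟩; exact hcon g hg⟩
    set φ := sInf (pot T V2 κ '' G) with hφ
    have hφη : η ≤ φ := le_csInf (hne.image _) (by rintro _ ⟨g, hg, rfl⟩; exact hcon g hg)
    have hφ0 : 0 < φ := by linarith
    set δ := min 1 (φ / (16 * n * (C + 1))) with hδ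
    have hδ0 : 0 < δ := lt_min one_pos (by positivity)
    have hδC : C * δ ≤ φ / (16 * n) := by
      have h1 : δ ≤ φ / (16 * n * (C + 1)) := min_le_right _ _
      rw [le_div_iff₀ (by positivity)] at h1 ⊢
      nlinarith
    obtain ⟨_, ⟨g, hg, rfl⟩, hlt⟩ := exists_lt_of_csInf_lt (hne.image (pot T V2 κ))
      (show φ < φ + δ ^ 2 * (φ / (16 * n)) from lt_add_of_pos_right _ (by positivity))
    have hφg : φ ≤ pot T V2 κ g := csInf_le hbdd ⟨g, hg, rfl⟩
    obtain ⟨i, -, hi⟩ : ∃ i ∈ Finset.univ, ∑ w ∈ V2, κ ^ w.length *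
        (conj (T.τ (wval g w)) * Lam2 T i g 1 w).re ≤ -(φ / (8 * n)) := by
      refine Finset.exists_le_of_sum_le Finset.univ_nonempty ((hsum g (hU g hg)).trans ?_)
      rw [Finset.sum_const, Finset.card_univ, nsmul_eq_mul, ← hn]
      have : n * -(φ / (8 * n)) = -(φ / 8) := by field_simp
      rw [this]; linarith
    obtain ⟨R, hR⟩ := hP g hg i
    obtain ⟨j, ω, h⟩ := hstep g (hU g hg) i R δ hδ0 (min_le_left _ _)
    have h2 : φ ≤ pot T V2 κ (pert i (eU δ (R.X j ω)) g) := csInf_le hbdd ⟨_, hR j ω δ, rfl⟩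
    have h3 : C * δ ^ 3 ≤ δ ^ 2 * (φ / (16 * n)) := by
      have := mul_le_mul_of_nonneg_left hδC (sq_nonneg δ)
      nlinarith
    have h4 : φ / (8 * n) = 2 * (φ / (16 * n)) := by field_simp; ring
    have h5 : 0 < δ ^ 2 * (φ / (16 * n)) := by positivity
    have h6 := mul_le_mul_of_nonneg_left hi (by positivity : 0 ≤ 2 * δ ^ 2)
    rw [h4] at h6
    nlinarith
  obtain ⟨g, hg, hlt⟩ := hinf (κ ^ (W.sup List.length) * ε ^ 2) (by positivity)
  refine ⟨g, hg, fun w hw => ?_⟩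
  have h1 := hdom g (hU g hg) w ((memV w).2 ⟨w, hw, (hW w hw).1, List.infix_refl w⟩)
  have h2 : κ ^ (W.sup List.length) ≤ κ ^ w.length :=
    pow_le_pow_of_le_one hκ.le hκ1 (Finset.le_sup (f := List.length) hw)
  have h3 : κ ^ w.length * ‖T.τ (wval g w)‖ ^ 2 ≤ κ ^ w.length * ε ^ 2 := by
    nlinarith [sq_nonneg ε]
  exact (abs_le_of_sq_le_sq' (le_of_mul_le_mul_left h3 (pow_pos hκ _)) hε.le).2

end Crest.Agent.GEN
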