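import Crest.Agent.GEN.VN
import Crest.Agent.GEN.Corner

/-! Single generation of a II₁ factor from the tower and the generic generator theorems. -/

set_option autoImplicit false
open scoped InnerProductSpace
open Filter Topology Crest.OpAlg

namespace Crest.Agent.GEN

universe u

section Alg
variable {B : Type u} [CStarAlgebra B]

lemma sylv {r a y : B} (hr : IsStarProjection r) (hra : Commute r a) (ha : ‖a‖ < 1 / 2)
    (h : Commute y (r + a)) : Commute y r ∧ Commute y a := by
  have hrr : r * r = r := hr.isIdempotentElem.eq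
  have h' : y * r + y * a = r * y + a * y := by simpa [mul_add, add_mul] using h.eq
  have key : ∀ Y : B, Y = Y * a - a * Y ∨ Y = a * Y - Y * a → Y = 0 := fun Y hY => by
    have h1 := norm_mul_le Y a
    have h2 := norm_mul_le a Y
    have h3 : ‖Y‖ ≤ ‖Y * a‖ + ‖a * Y‖ := by
      rcases hY with hY | hY
      · exact (congrArg norm hY).le.trans (norm_sub_le _ _)
      · exact (congrArg norm hY).le.trans ((norm_sub_le _ _).trans (add_comm _ _).le)
    have := norm_nonneg Y
    exact norm_le_zero_iff.1 (by nlinarith)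
  have e1 : r * y * (1 - r) = 0 := key _ (Or.inl (by
    have h1 : r * (y * r + y * a) * (1 - r) = r * y * (1 - r) * a := by
      have : a * (1 - r) = (1 - r) * a := by rw [mul_sub, sub_mul, hra.eq]; simp
      rw [mul_add, add_mul, mul_assoc r (y * r), mul_assoc y r, mul_sub r, hrr, mul_one, _root_.sub_self,
        mul_zero, mul_zero, zero_add, mul_assoc r, mul_assoc y, this]
      simp only [mul_assoc]
    have h2 : r * (r * y + a * y) * (1 - r) = r * y * (1 - r) + a * (r * y * (1 - r)) := by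
      rw [mul_add, add_mul, ← mul_assoc r r, hrr, ← mul_assoc r a, hra.eq]
      simp only [mul_assoc]
    rw [← h1, h', h2, add_sub_cancel_right]))
  have e2 : (1 - r) * y * r = 0 := key _ (Or.inr (by
    have h1 : (1 - r) * (r * y + a * y) * r = a * ((1 - r) * y * r) := by
      have : (1 - r) * a = a * (1 - r) := by rw [mul_sub, sub_mul, hra.eq]; simp
      rw [mul_add, ← mul_assoc (1 - r) r, sub_mul 1 r r, hrr, one_mul, _root_.sub_self, zero_mul,
        zero_add, ← mul_assoc, this]
      simp only [mul_assoc]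
    have h2 : (1 - r) * (y * r + y * a) * r = (1 - r) * y * r + (1 - r) * y * r * a := by
      rw [mul_add, add_mul]
      simp only [mul_assoc]
      rw [hrr, hra.eq]
    rw [← h1, ← h', h2, add_sub_cancel_right]))
  have e3 : y * r = r * y := by
    rw [mul_sub, mul_one, sub_eq_zero] at e1
    rw [sub_mul, one_mul, sub_mul, sub_eq_zero] at e2
    rw [e2, ← e1]
  refine ⟨e3, ?_⟩
  rw [e3] at h'
  exact add_left_cancel h'

/-- Encoding of a sequence of projections into one element. -/
noncomputable def enc (q : ℕ → B) : B := ∑' n, ((4⁻¹ : ℂ) ^ n) • q n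

lemma enc_norm_le {q : ℕ → B} (hq : ∀ n, IsStarProjection (q n)) (n : ℕ) :
    ‖((4⁻¹ : ℂ) ^ n) • q n‖ ≤ (4⁻¹ : ℝ) ^ n := by
  rw [norm_smul, norm_pow, norm_inv]
  simp only [Complex.norm_ofNat]
  exact mul_le_of_le_one_right (by positivity) (hq n).norm_le

lemma enc_summable {q : ℕ → B} (hq : ∀ n, IsStarProjection (q n)) :
    Summable fun n => ((4⁻¹ : ℂ) ^ n) • q n :=
  .of_norm_bounded (summable_geometric_of_lt_one (by norm_num) (by norm_num)) (enc_norm_le hq)

lemma norm_enc {q : ℕ → B} (hq : ∀ n, IsStarProjection (q n)) : ‖enc q‖ ≤ 4 / 3 := by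
  refine (tsum_of_norm_bounded (hasSum_geometric_of_lt_one (by norm_num) (by norm_num))
    (enc_norm_le hq)).trans (by norm_num)

lemma star_enc {q : ℕ → B} (hq : ∀ n, IsStarProjection (q n)) : star (enc q) = enc q := by
  rw [enc, tsum_star]
  refine tsum_congr fun n => ?_
  rw [star_smul, (hq n).isSelfAdjoint.star_eq]; simp

lemma enc_succ {q : ℕ → B} (hq : ∀ n, IsStarProjection (q n)) :
    enc q = q 0 + (4⁻¹ : ℂ) • enc fun n => q (n + 1) := by
  rw [enc, (enc_summable hq).tsum_eq_zero_add, enc,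
    ← (enc_summable fun n => hq (n + 1)).tsum_const_smul]
  simp only [pow_zero, one_smul, smul_smul, pow_succ']

lemma mul_enc {q : ℕ → B} (hq : ∀ n, IsStarProjection (q n)) (y : B) :
    y * enc q = ∑' n, ((4⁻¹ : ℂ) ^ n) • (y * q n) := by
  rw [enc, ← (enc_summable hq).tsum_mul_left]; simp

lemma enc_mul {q : ℕ → B} (hq : ∀ n, IsStarProjection (q n)) (y : B) :
    enc q * y = ∑' n, ((4⁻¹ : ℂ) ^ n) • (q n * y) := by
  rw [enc, ← (enc_summable hq).tsum_mul_right]; simp

lemma commute_enc {q : ℕ → B} (hq : ∀ n, IsStarProjection (q n)) {y : B}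
    (h : ∀ n, Commute y (q n)) : Commute y (enc q) := by
  rw [Commute, SemiconjBy, mul_enc hq, enc_mul hq]
  exact tsum_congr fun n => by rw [(h n).eq]

lemma commute_of_enc {q : ℕ → B} (hq : ∀ n, IsStarProjection (q n))
    (hc : ∀ m n, Commute (q m) (q n)) {y : B} (h : Commute y (enc q)) (n : ℕ) :
    Commute y (q n) := by
  have step : ∀ q : ℕ → B, (∀ n, IsStarProjection (q n)) → (∀ m n, Commute (q m) (q n)) →
      Commute y (enc q) → Commute y (q 0) ∧ Commute y (enc fun n => q (n + 1)) := by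
    intro q hq hc h
    rw [enc_succ hq] at h
    obtain ⟨h1, h2⟩ := sylv (hq 0) ((commute_enc (fun n => hq (n + 1))
      fun n => hc 0 (n + 1)).smul_right _) (by
        have := norm_enc fun n => hq (n + 1)
        rw [norm_smul, norm_inv]
        simp only [Complex.norm_ofNat]
        linarith) h
    refine ⟨h1, ?_⟩
    simpa [smul_smul] using h2.smul_right (4 : ℂ)
  induction n generalizing q with
  | zero => exact (step q hq hc h).1
  | succ n ih => exact ih (fun n => hq (n + 1)) (fun m n => hc _ _) (step q hq hc h).2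

/-- An algebra containing an averaging subalgebra and a corner is 2-dense. -/
lemma approx_of_corner (T : Tr B) {S R : StarSubalgebra ℂ B} (hSR : S ≤ R) (hD : T.Dix S) {e : B}
    (he : IsStarProjection e) (hτ : T.τ e = 1 / 2) (hc : ∀ m, e * m * e ∈ R) (m : B) (ε : ℝ)
    (hε : 0 < ε) : ∃ b ∈ R, T.n2 (m - b) < ε := by
  classical
  have hm : 0 < ‖m‖ + 1 := by positivity
  obtain ⟨ι, _, _, w, hw, h⟩ := hD {e} (ε / (8 * (‖m‖ + 1))) (by positivity)
  have h := h e (Finset.mem_singleton_self e)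
  set y : B := (2 : ℂ) • ((Fintype.card ι : ℂ)⁻¹ • ∑ k, w k * e * star (w k)) with hy
  have h1 : T.n2 (1 - y) ≤ ε / (4 * (‖m‖ + 1)) := by
    have : 1 - y = (-2 : ℂ) • ((Fintype.card ι : ℂ)⁻¹ • ∑ k, w k * e * star (w k) -
        T.τ e • (1 : B)) := by
      rw [hτ, smul_sub, smul_smul (-2 : ℂ) (1 / 2), hy, neg_smul]; norm_num; abel
    rw [this, T.n2_smul]
    have e2 : ε / (4 * (‖m‖ + 1)) = 2 * (ε / (8 * (‖m‖ + 1))) := by field_simp; ring
    rw [e2]; simpa using h
  have h2 : ‖y‖ ≤ 2 := by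
    have hc0 : (0 : ℝ) < Fintype.card ι := by exact_mod_cast Fintype.card_pos
    rw [hy, norm_smul, norm_smul, norm_inv, Complex.norm_natCast]
    simp only [Complex.norm_ofNat]
    refine mul_le_of_le_one_right (by norm_num) ?_
    rw [inv_mul_le_iff₀ hc0, mul_one]
    refine (norm_sum_le _ _).trans ?_
    refine (Finset.sum_le_card_nsmul _ _ 1 fun k _ => ?_).trans (by simp)
    rw [CStarRing.norm_mul_mem_unitary _ (Unitary.star_mem (hw k).2),
      CStarRing.norm_mem_unitary_mul _ (hw k).2]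
    exact he.norm_le
  refine ⟨y * m * y, ?_, ?_⟩
  · simp only [hy, smul_mul_assoc, mul_smul_comm, Finset.sum_mul, Finset.mul_sum]
    refine R.smul_mem (R.smul_mem (sum_mem fun k _ => R.smul_mem (R.smul_mem
      (sum_mem fun l _ => ?_) _) _) _) _
    have := mul_mem (mul_mem (hSR (hw l).1) (hc (star (w l) * m * w k)))
      (star_mem (hSR (hw k).1))
    simpa only [mul_assoc] using this
  · have e1 : m - y * m * y = (1 - y) * m + y * m * (1 - y) := by noncomm_ring
    have h3 := T.n2_mul_le' (1 - y) m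
    have h4 := T.n2_mul_le (y * m) (1 - y)
    have h5 := norm_mul_le y m
    have h6 := T.n2_nonneg (1 - y)
    have h7 := norm_nonneg m
    rw [e1]
    refine (T.n2_add_le _ _).trans_lt ?_
    have h8 : T.n2 (1 - y) * (4 * (‖m‖ + 1)) ≤ ε := by
      rwa [← le_div_iff₀ (by positivity)]
    have h9 : ‖y * m‖ ≤ 2 * ‖m‖ := h5.trans (by gcongr)
    have h10 : ‖y * m‖ * T.n2 (1 - y) ≤ 2 * ‖m‖ * T.n2 (1 - y) := by gcongr
    nlinarith

lemma not_finite_of_small (T : Tr B) (hF : T.Faithful) {S : StarSubalgebra ℂ B}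
    (h : ∀ c > 0, ∃ q ∈ S, IsStarProjection q ∧ 0 < (T.τ q).re ∧ (T.τ q).re ≤ c) :
    ¬ FiniteDimensional ℂ S := by
  intro hfd
  have : ProperSpace S := FiniteDimensional.proper ℂ S
  have hK : IsCompact (Metric.sphere (0 : S) 1) := isCompact_sphere _ _
  obtain ⟨q0, hq0S, hq0, hq0p, -⟩ := h 1 one_pos
  have hn : ∀ q ∈ S, IsStarProjection q → 0 < (T.τ q).re → ‖q‖ = 1 := fun q _ hq hp => by
    have h1 := CStarRing.norm_star_mul_self (x := q)
    rw [hq.isSelfAdjoint.star_eq, hq.isIdempotentElem.eq] at h1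
    have h2 : ‖q‖ ≠ 0 := norm_ne_zero_iff.2 (by rintro rfl; simp at hp)
    exact (mul_eq_left₀ h2).1 h1.symm
  obtain ⟨z, hz, hmin⟩ := hK.exists_isMinOn ⟨⟨q0, hq0S⟩, by simpa using hn q0 hq0S hq0 hq0p⟩
    (f := fun s : S => T.n2 s) (T.continuous_n2.comp continuous_subtype_val).continuousOn
  have hz0 : 0 < T.n2 z := (T.n2_nonneg _).lt_of_ne' fun h0 => by
    have : z = 0 := Subtype.ext (hF _ h0)
    rw [this] at hz; simp at hz
  obtain ⟨q, hqS, hq, hqp, hqc⟩ := h (T.n2 z ^ 2 / 2) (by positivity)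
  have h1 : T.n2 z ≤ T.n2 q := hmin (a := ⟨q, hqS⟩) (by simpa using hn q hqS hq hqp)
  rw [← T.n2_proj_sq hq] at hqc
  nlinarith

end Alg

variable {H : Type u} [NormedAddCommGroup H] [InnerProductSpace ℂ H] [CompleteSpace H]

lemma exists_rangeProj (h : H →L[ℂ] H) : ∃ r : H →L[ℂ] H, IsStarProjection r ∧ r * h = h ∧
    (∀ g : H →L[ℂ] H, g * h = 0 → g * r = 0) ∧
    ∀ y : H →L[ℂ] H, Commute y h → Commute (star y) h → Commute y r := by
  let U₀ : Submodule ℂ H := LinearMap.range (h : H →ₗ[ℂ] H)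
  let U := U₀.topologicalClosure
  have : CompleteSpace U := (Submodule.isClosed_topologicalClosure U₀).completeSpace_coe
  have hinv : ∀ y : H →L[ℂ] H, Commute y h → ∀ v ∈ U, y v ∈ U := fun y hy v hv => by
    refine map_mem_closure y.continuous hv ?_
    rintro _ ⟨w, rfl⟩
    exact ⟨y w, (congrArg (fun f : H →L[ℂ] H => f w) hy.eq).symm⟩
  refine ⟨U.starProjection, isStarProjection_starProjection, ?_, fun g hg => ?_,
    fun y h1 h2 => ?_⟩
  · ext v
    exact Submodule.starProjection_eq_self_iff.2 (U₀.le_topologicalClosure ⟨v, rfl⟩)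
  · ext v
    have : U ≤ LinearMap.ker (g : H →ₗ[ℂ] H) :=
      Submodule.topologicalClosure_minimal _ (by
        rintro _ ⟨w, rfl⟩
        exact congrArg (fun f : H →L[ℂ] H => f w) hg) (ContinuousLinearMap.isClosed_ker g)
    exact this (U.starProjection_apply_mem v)
  · ext v
    refine proj_comm U y (star y) (fun v w => ?_) (hinv y h1) (hinv _ h2) v
    rw [ContinuousLinearMap.star_eq_adjoint, ContinuousLinearMap.adjoint_inner_left]

lemma exists_signProj {k : H →L[ℂ] H} (hk : IsSelfAdjoint k) : ∃ r : H →L[ℂ] H,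
    IsStarProjection r ∧ (∀ y : H →L[ℂ] H, Commute y k → Commute (star y) k → Commute y r) ∧
    ∀ y : H →L[ℂ] H, Commute y r → Commute y (k * k) → Commute y k := by
  obtain ⟨r, hr, h1, h2, h3⟩ := exists_rangeProj k⁺
  have hc : ∀ y : H →L[ℂ] H, Commute y k → Commute y k⁺ := fun y hy => by
    rw [CFC.posPart_def]; exact (hy.symm.cfcₙ_real _).symm
  refine ⟨r, hr, fun y a b => h3 y (hc y a) (hc _ b), fun y hyr hyk => ?_⟩
  have h4 : r * k⁻ = 0 := by
    have := congrArg star (h2 _ (CFC.negPart_mul_posPart k))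
    rwa [star_mul, hr.isSelfAdjoint.star_eq, (CFC.negPart_nonneg k).isSelfAdjoint.star_eq,
      star_zero] at this
  have h5 : (k⁺ + k⁻) * (k⁺ + k⁻) = k * k := by
    conv_rhs => rw [← CFC.posPart_sub_negPart k hk]
    simp only [mul_add, add_mul, mul_sub, sub_mul, CFC.posPart_mul_negPart,
      CFC.negPart_mul_posPart]
    simp
  have h6 : Commute y (k⁺ + k⁻) := by
    rw [← CFC.sqrt_unique h5 (add_nonneg (CFC.posPart_nonneg k) (CFC.negPart_nonneg k)),
      CFC.sqrt]
    exact (hyk.symm.cfcₙ_nnreal _).symm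
  have h7 : k = (r + r - 1) * (k⁺ + k⁻) := by
    conv_lhs => rw [← CFC.posPart_sub_negPart k hk]
    simp only [mul_add, add_mul, sub_mul, h1, h4, one_mul]
    abel
  rw [h7]
  exact ((hyr.add_right hyr).sub_right (Commute.one_right y)).mul_right h6

/-- The von Neumann algebra generated by a set. -/
noncomputable def vnGen (G : Set (H →L[ℂ] H)) : VonNeumannAlgebra H :=
  (vnComm (StarAlgebra.adjoin ℂ G)).commutant

lemma subset_vnGen {G : Set (H →L[ℂ] H)} {x : H →L[ℂ] H} (hx : x ∈ G) : x ∈ vnGen G :=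
  VonNeumannAlgebra.mem_commutant_iff.2 fun y hy =>
    ((mem_vnComm _ y).1 hy x (StarAlgebra.subset_adjoin ℂ G hx)).symm

lemma vnGen_le {G : Set (H →L[ℂ] H)} {N : VonNeumannAlgebra H} (h : ∀ x ∈ G, x ∈ N) :
    vnGen G ≤ N := fun x hx => (vn_mem_iff N x).2 fun y hy =>
  VonNeumannAlgebra.mem_commutant_iff.1 hx y ((mem_vnComm _ y).2 fun b hb =>
    VonNeumannAlgebra.mem_commutant_iff.1 hy b
      ((StarAlgebra.adjoin_le (S := N.toStarSubalgebra) h) hb))

lemma mem_of_approx {M : VonNeumannAlgebra H} {ξ : ℕ → H} (hξ : IsFaithfulTracialVectorState M ξ)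
    (N : VonNeumannAlgebra H) (a : M.toStarSubalgebra)
    (h : ∀ ε > 0, ∃ b ∈ sub N M, (vnTr hξ).n2 (a - b) < ε) : a ∈ sub N M :=
  (vn_mem_iff N _).2 fun y hy => vn_commute hξ a y fun ε hε => by
    obtain ⟨b, hb, hn⟩ := h ε hε
    exact ⟨b, (VonNeumannAlgebra.mem_commutant_iff.1 hy b hb).symm, hn⟩

/-- A projection, two commuting families of projections and a unitary of the corner are
generated by one element. -/
lemma single_gen (M : VonNeumannAlgebra H) {e v : H →L[ℂ] H} {p q : ℕ → H →L[ℂ] H}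
    (he : IsStarProjection e) (hp : ∀ n, IsStarProjection (p n)) (hq : ∀ n, IsStarProjection (q n))
    (hpe : ∀ n, p n * e = 0) (hpp : ∀ m n, Commute (p m) (p n)) (hqq : ∀ m n, Commute (q m) (q n))
    (hev : e * v = v) (hve : v * e = v) (hv1 : star v * v = e) (hv2 : v * star v = e)
    (heM : e ∈ M) (hvM : v ∈ M) (hpM : ∀ n, p n ∈ M) (hqM : ∀ n, q n ∈ M) :
    ∃ x ∈ M, ∀ N : VonNeumannAlgebra H, x ∈ N →
      e ∈ N ∧ v ∈ N ∧ (∀ n, p n ∈ N) ∧ ∀ n, q n ∈ N := by
  have hes := he.isSelfAdjoint.star_eq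
  have hev' : e * star v = star v := by simpa [hes] using congrArg star hve
  have hve' : star v * e = star v := by simpa [hes] using congrArg star hev
  have hep : ∀ n, e * p n = 0 := fun n => by
    simpa [hes, (hp n).isSelfAdjoint.star_eq] using congrArg star (hpe n)
  have hpv : ∀ n, Commute (p n) v := fun n => by
    rw [Commute, SemiconjBy, ← hev, ← mul_assoc, hpe, hev, ← hve, mul_assoc, hep]; simp
  have hpv' : ∀ n, Commute (p n) (star v) := fun n => by
    simpa [(hp n).isSelfAdjoint.star_eq] using (hpv n).star_star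
  set R := v + star v with hR
  set K := Complex.I • (star v - v) with hK
  have hRs : star R = R := by rw [hR, star_add, star_star, add_comm]
  have hKs : IsSelfAdjoint K := by
    rw [IsSelfAdjoint, hK, star_smul, star_sub, star_star, Complex.star_def, Complex.conj_I]
    module
  have hvv : Commute v (star v) := hv2.trans hv1.symm
  have hcK : ∀ y, Commute y v → Commute y (star v) → Commute y K := fun y h1 h2 =>
    (h2.sub_right h1).smul_right _
  obtain ⟨r, hr, hr1, hr2⟩ := exists_signProj hKs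
  have hrs : ∀ y, star y = y → Commute y K → Commute y r := fun y hy h => hr1 y h (by rwa [hy])
  have hnv : ‖v‖ ≤ 1 := by
    have h1 := CStarRing.norm_star_mul_self (x := v)
    rw [hv1] at h1
    have := he.norm_le
    nlinarith [norm_nonneg v]
  have hnR : ‖R‖ ≤ 2 := (norm_add_le _ _).trans (by rw [norm_star]; linarith)
  set c := (8⁻¹ : ℂ) • (R + enc p) with hc
  set d := (8⁻¹ : ℂ) • (r + c) with hd
  have hnc : ‖c‖ < 1 / 2 := by
    have h1 := norm_enc hp
    have h2 := norm_add_le R (enc p)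
    rw [hc, norm_smul, norm_inv]; simp only [Complex.norm_ofNat]; linarith
  have hnd : ‖d‖ < 1 / 2 := by
    have h1 := hr.norm_le
    have h2 := norm_add_le r c
    rw [hd, norm_smul, norm_inv]; simp only [Complex.norm_ofNat]; linarith
  have hcc : ∀ y, Commute y R → (∀ n, Commute y (p n)) → Commute y c := fun y h1 h2 =>
    (h1.add_right (commute_enc hp h2)).smul_right _
  have hrc : Commute r c := hcc r (hrs R hRs (hcK R (Commute.add_left (Commute.refl _) hvv.symm)
    (Commute.add_left hvv (Commute.refl _)))).symm fun n =>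
      (hrs _ (hp n).isSelfAdjoint.star_eq (hcK _ (hpv n) (hpv' n))).symm
  have hcev : Commute e v := hev.trans hve.symm
  have hcev' : Commute e (star v) := hev'.trans hve'.symm
  have hed : Commute e d := ((hrs e hes (hcK e hcev hcev')).add_right
    (hcc e (hcev.add_right hcev') fun n => (hep n).trans (hpe n).symm)).smul_right _
  have hcs : star c = c := by rw [hc, star_smul, star_add, hRs, star_enc hp]; simp
  have hds : star d = d := by
    rw [hd, star_smul, star_add, hcs, hr.isSelfAdjoint.star_eq]; simp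
  refine ⟨enc q + Complex.I • (e + d), (vn_mem_iff M _).2 fun y hy => ?_, fun N hN => ?_⟩
  · have hy1 : ∀ z ∈ M, Commute y z := fun z hz =>
      (VonNeumannAlgebra.mem_commutant_iff.1 hy z hz).symm
    have hy2 : ∀ z ∈ M, Commute (star y) z := fun z hz =>
      (VonNeumannAlgebra.mem_commutant_iff.1 (star_mem hy) z hz).symm
    have h1 : Commute y r := hr1 y (hcK _ (hy1 _ hvM) (hy1 _ (star_mem hvM)))
      (hcK _ (hy2 _ hvM) (hy2 _ (star_mem hvM)))
    exact ((commute_enc hq fun n => hy1 _ (hqM n)).add_right (((hy1 e heM).add_right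
      ((h1.add_right (hcc y ((hy1 _ hvM).add_right (hy1 _ (star_mem hvM)))
        fun n => hy1 _ (hpM n))).smul_right _)).smul_right _)).eq
  · have key : ∀ y ∈ N.commutant, Commute y e ∧ Commute y v ∧ (∀ n, Commute y (p n)) ∧
        ∀ n, Commute y (q n) := by
      intro y hy
      have h1 : Commute y (enc q + Complex.I • (e + d)) :=
        (VonNeumannAlgebra.mem_commutant_iff.1 hy _ hN).symm
      have h2 : Commute y (enc q - Complex.I • (e + d)) := by
        have := (VonNeumannAlgebra.mem_commutant_iff.1 hy _ (star_mem hN)).symm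
        rwa [star_add, star_enc hq, star_smul, star_add, hes, hds, Complex.star_def,
          Complex.conj_I, neg_smul, ← sub_eq_add_neg] at this
      have h3 : Commute y (enc q) := by
        have := (h1.add_right h2).smul_right (2⁻¹ : ℂ)
        rwa [add_add_sub_cancel, ← two_smul ℂ, smul_smul, inv_mul_cancel₀ two_ne_zero,
          one_smul] at this
      have h4 : Commute y (e + d) := by
        have := (h1.sub_right h3).smul_right (-Complex.I)
        rwa [add_sub_cancel_left, smul_smul, neg_mul, Complex.I_mul_I, neg_neg, one_smul] at this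
      obtain ⟨h5, h6⟩ := sylv he hed hnd h4
      have h7 : Commute y (r + c) := by simpa [hd, smul_smul] using h6.smul_right (8 : ℂ)
      obtain ⟨h8, h9⟩ := sylv hr hrc hnc h7
      have h10 : Commute y (R + enc p) := by simpa [hc, smul_smul] using h9.smul_right (8 : ℂ)
      have h11 : Commute y R := by
        have := h5.mul_right h10
        rwa [mul_add, mul_enc hp, tsum_congr (fun n => by rw [hep n, smul_zero]), tsum_zero,
          add_zero, hR, mul_add, hev, hev'] at this
      have h12 : Commute y (enc p) := by simpa using h10.sub_right h11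
      have h13 : Commute y K := hr2 y h8 (by
        have : K * K = (4 : ℂ) • e - R * R := by
          rw [hK, hR, smul_mul_smul_comm, Complex.I_mul_I]
          simp only [mul_add, add_mul, mul_sub, sub_mul, hv1, hv2]
          module
        rw [this]
        exact (h5.smul_right _).sub_right (h11.mul_right h11))
      refine ⟨h5, ?_, commute_of_enc hp hpp h12, commute_of_enc hq hqq h3⟩
      have := (h11.add_right (h13.smul_right Complex.I)).smul_right (2⁻¹ : ℂ)
      have e1 : (2⁻¹ : ℂ) • (R + Complex.I • K) = v := by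
        rw [hK, hR, smul_smul, Complex.I_mul_I]; module
      rwa [e1] at this
    exact ⟨(vn_mem_iff N _).2 fun y hy => (key y hy).1.eq,
      (vn_mem_iff N _).2 fun y hy => (key y hy).2.1.eq,
      fun n => (vn_mem_iff N _).2 fun y hy => ((key y hy).2.2.1 n).eq,
      fun n => (vn_mem_iff N _).2 fun y hy => ((key y hy).2.2.2 n).eq⟩

lemma corner_gen (hB : ThmB.{u}) (hD : DixThm.{u}) {B : Type u} [CStarAlgebra B] (T : Tr B)
    {S : StarSubalgebra ℂ B} (hS : IsClosed (S : Set B)) (hF : T.Faithful) (hC : T.Complete ⊤)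
    (hSep : T.Sep) (hdix : T.Dix S) {e : B} (he : IsStarProjection e) (h0 : 0 < (T.τ e).re)
    (heS : e ∈ S) (hpart : T.Part S e) :
    ∃ v : B, e * v = v ∧ v * e = v ∧ star v * v = e ∧ v * star v = e ∧
      ∀ R : StarSubalgebra ℂ B, S ≤ R → v ∈ R → ∀ a, ∀ ε > 0, ∃ b ∈ R,
        T.n2 (e * a * e - b) < ε := by
  have hcl := Cor.isClosed_sub (he := he) heS hS
  have hF' := T.corner_faithful (he := he) (h0 := h0) hF
  have hC' := T.corner_complete_top (he := he) (h0 := h0) hF hC
  obtain ⟨v, hvu, -, hv⟩ := hB _ (T.corner he h0) (Cor.sub he S heS) hcl hF' hC'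
    (T.corner_sep hSep) (hD _ _ _ hcl hF' hC' (T.corner_irred hF h0 heS hdix))
    (T.corner_part heS hpart) 1 (one_mem _) 1 one_pos
  refine ⟨v.val, v.e_mul, v.mul_e, congrArg Cor.val (Unitary.star_mul_self_of_mem hvu),
    congrArg Cor.val (Unitary.mul_star_self_of_mem hvu), fun R hSR hvR a ε hε => ?_⟩
  obtain ⟨b, hb, hbn⟩ := hv (Cor.cut he a) ε hε
  have hbN : b ∈ Cor.sub he R (hSR heS) := by
    refine StarAlgebra.adjoin_le (S := Cor.sub he R (hSR heS)) ?_ hb
    rintro _ (rfl | h)
    exacts [hvR, hSR h]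
  refine ⟨b.val, hbN, ?_⟩
  rw [T.n2_sub_rev]
  exact (T.n2_val_le (h0 := h0) (b - Cor.cut he a)).trans_lt hbn

theorem s125 (hB : ThmB.{u}) (hD : DixThm.{u}) (hPt : PartThm.{u}) (hT : TowerThm.{u})
    (H : Type u) [NormedAddCommGroup H] [InnerProductSpace ℂ H] [CompleteSpace H]
    [TopologicalSpace.SeparableSpace H] (M : VonNeumannAlgebra H) (hM : IsTypeIIOneFactor M) :
    ∃ x ∈ M, ∀ N : VonNeumannAlgebra H, x ∈ N → M ≤ N := by
  obtain ⟨hfac, hinf, ξ, hξ⟩ := hM
  have hF : (vnTr hξ).Faithful := vn_faithful hξ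
  have hirr : Irred (⊤ : StarSubalgebra ℂ M.toStarSubalgebra) := by
    rw [← sub_self]; exact sub_irred le_rfl hfac
  obtain ⟨e, p, q, he, hτe, hpq, hcomm, hsmall, hirr'⟩ :=
    hT _ (vnTr hξ) hF (vn_complete_top hξ) (vn_sep hξ) hirr hinf
  have h0 : 0 < ((vnTr hξ).τ e).re := by rw [hτe]; norm_num
  obtain ⟨P, heP, hpP, hqP, hGN⟩ : ∃ P : VonNeumannAlgebra H, (e : H →L[ℂ] H) ∈ P ∧
      (∀ n, (p n : H →L[ℂ] H) ∈ P) ∧ (∀ n, (q n : H →L[ℂ] H) ∈ P) ∧
      ∀ N : VonNeumannAlgebra H, (e : H →L[ℂ] H) ∈ N → (∀ n, (p n : H →L[ℂ] H) ∈ N) →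
      (∀ n, (q n : H →L[ℂ] H) ∈ N) → P ≤ N :=
    ⟨vnGen (insert (e : H →L[ℂ] H)
      (Set.range (fun n => (p n : H →L[ℂ] H)) ∪ Set.range fun n => (q n : H →L[ℂ] H))),
      subset_vnGen (Or.inl rfl), fun n => subset_vnGen (Or.inr (Or.inl ⟨n, rfl⟩)),
      fun n => subset_vnGen (Or.inr (Or.inr ⟨n, rfl⟩)), fun N h1 h2 h3 => vnGen_le (by
        rintro _ (rfl | ⟨n, rfl⟩ | ⟨n, rfl⟩)
        exacts [h1, h2 n, h3 n])⟩
  have hPM : P ≤ M := hGN M e.2 (fun n => (p n).2) fun n => (q n).2
  have hSi : Irred (sub P M) := fun z hz =>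
    hirr' z (hz e heP) fun n => ⟨hz _ (hpP n), hz _ (hqP n)⟩
  have hdix := hD _ (vnTr hξ) _ (isClosed_sub P M) hF (vn_complete_top hξ) hSi
  have hpart := (hPt _ (vnTr hξ) _ hF hdix (vn_complete hξ P hPM)
    (not_finite_of_small _ hF fun c hc => by
      obtain ⟨n, h1, h2⟩ := hsmall c hc
      exact ⟨q n, hqP n, (hpq n).2.2, h1, h2⟩) e heP he).2
  obtain ⟨v, hv1, hv2, hv3, hv4, hv⟩ := corner_gen hB hD _ (isClosed_sub P M) hF
    (vn_complete_top hξ) (vn_sep hξ) hdix he h0 heP hpart
  have hsp : ∀ {a : M.toStarSubalgebra}, IsStarProjection a →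
      IsStarProjection (a : H →L[ℂ] H) := fun ha =>
    ⟨congrArg Subtype.val ha.isIdempotentElem.eq, congrArg Subtype.val ha.isSelfAdjoint.star_eq⟩
  obtain ⟨x, hxM, hx⟩ := single_gen M (e := e) (v := v) (p := fun n => p n) (q := fun n => q n)
    (hsp he) (fun n => hsp (hpq n).1) (fun n => hsp (hpq n).2.2)
    (fun n => congrArg Subtype.val (hpq n).2.1) (fun m n => congrArg Subtype.val (hcomm m n).1)
    (fun m n => congrArg Subtype.val (hcomm m n).2) (congrArg Subtype.val hv1)
    (congrArg Subtype.val hv2) (congrArg Subtype.val hv3) (congrArg Subtype.val hv4)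
    e.2 v.2 (fun n => (p n).2) fun n => (q n).2
  refine ⟨x, hxM, fun N hN m hm => ?_⟩
  obtain ⟨h1, h2, h3, h4⟩ := hx N hN
  have hSR : sub P M ≤ sub N M := fun a ha => hGN N h1 h3 h4 ha
  exact mem_of_approx hξ N ⟨m, hm⟩ (approx_of_corner _ hSR hdix he hτe
    (fun a => mem_of_approx hξ N _ (hv _ hSR h2 a)) _)

end Crest.Agent.GEN
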