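import Crest.Agent.GEN.VN

set_option autoImplicit false
open Filter Topology Crest.OpAlg

namespace Crest.Agent.GEN

universe u

theorem s126 (hB : ThmB.{u}) (hO : GenOpen.{u}) (hD : DixThm.{u}) (hPart : PartThm.{u})
    (H : Type u) [NormedAddCommGroup H] [InnerProductSpace ℂ H] [CompleteSpace H]
    [TopologicalSpace.SeparableSpace H] (P M : VonNeumannAlgebra H) (hPM : P ≤ M)
    (hP : IsTypeIIOneFactor P)
    (hPM' : ∀ x ∈ M, (∀ y ∈ P, x * y = y * x) → ∃ c : ℂ, x = c • (1 : H →L[ℂ] H))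
    (ξ : ℕ → H) (hξ : IsFaithfulTracialVectorState M ξ) :
    (∃ O : ℕ → Set (H →L[ℂ] H),
      (∀ k : ℕ, ∀ u ∈ M, u ∈ unitary (H →L[ℂ] H) → u ∈ O k → ∃ δ : ℝ, 0 < δ ∧
        ∀ v ∈ M, v ∈ unitary (H →L[ℂ] H) → traceNormSq ξ (v - u) < δ → v ∈ O k) ∧
      (∀ u ∈ M, u ∈ unitary (H →L[ℂ] H) →
        ((∀ N : VonNeumannAlgebra H, P ≤ N → u ∈ N → M ≤ N) ↔ ∀ k : ℕ, u ∈ O k))) ∧
    (∀ u ∈ M, u ∈ unitary (H →L[ℂ] H) → ∀ ε : ℝ, 0 < ε →
      ∃ v ∈ M, v ∈ unitary (H →L[ℂ] H) ∧ (∀ N : VonNeumannAlgebra H, P ≤ N → v ∈ N → M ≤ N) ∧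
        traceNormSq ξ (v - u) < ε) := by
  set T := vnTr hξ with hT
  set S := sub P M with hS
  have hdix : T.Dix S := hD _ T S (isClosed_sub P M) (vn_faithful hξ) (vn_complete_top hξ)
    (sub_irred hPM hPM')
  have hpart : T.Part S 1 := (hPart _ T S (vn_faithful hξ) hdix (vn_complete hξ P hPM)
    (sub_infinite hPM hP.2.1) 1 (one_mem _) (IsStarProjection.one _)).2
  refine ⟨?_, fun u hu huu ε hε => ?_⟩
  · obtain ⟨x, -, hx⟩ := vn_sep hξ (Metric.closedBall 0 1) 1 ⟨0, by simp⟩ (by simp)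
    refine ⟨fun k => {u | ∃ hu : u ∈ M,
      T.Gen S ⟨u, hu⟩ (x k.unpair.1) (1 / ((k.unpair.2 : ℝ) + 1))}, ?_, ?_⟩
    · rintro k u hu huu ⟨hu', hg⟩
      obtain ⟨δ, hδ, h⟩ := hO _ T S ⟨u, hu'⟩ ((mem_unitary_vn _).2 huu) _ _ hg
      refine ⟨δ ^ 2, by positivity, fun v hv hvu hvd => ⟨hv, h ⟨v, hv⟩
        ((mem_unitary_vn _).2 hvu) ?_⟩⟩
      refine lt_of_pow_lt_pow_left₀ 2 hδ.le ?_
      rw [hT, vnTr_n2_sq]
      exact hvd
    · intro u hu _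
      refine (vn_gen_iff hξ P hPM ⟨u, hu⟩).trans ⟨fun h k => ⟨hu, h _ _ (by positivity)⟩, ?_⟩
      intro h y δ hδ
      set r : ℝ := ‖y‖ + 1 with hr
      have hr0 : 0 < r := by positivity
      have hy : ((r⁻¹ : ℝ) : ℂ) • y ∈ Metric.closedBall (0 : M.toStarSubalgebra) 1 := by
        rw [mem_closedBall_zero_iff, norm_smul, Complex.norm_real,
          Real.norm_of_nonneg (inv_nonneg.2 hr0.le), inv_mul_le_iff₀ hr0]
        linarith
      obtain ⟨n, hn⟩ := hx _ hy (δ / (2 * r)) (by positivity)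
      obtain ⟨m, hm⟩ := exists_nat_one_div_lt (show 0 < δ / (2 * r) by positivity)
      obtain ⟨_, a, ha, han⟩ := h (Nat.pair n m)
      simp only [Nat.unpair_pair] at han
      refine ⟨(r : ℂ) • a, Subalgebra.smul_mem _ ha _, ?_⟩
      have e : (r : ℂ) • a - y = (r : ℂ) • (a - ((r⁻¹ : ℝ) : ℂ) • y) := by
        rw [smul_sub, smul_smul, ← Complex.ofReal_mul, mul_inv_cancel₀ hr0.ne']; simp
      rw [e, Tr.n2_smul, Complex.norm_real, Real.norm_of_nonneg hr0.le, ← lt_div_iff₀' hr0]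
      have h1 := T.n2_triangle a (x n) (((r⁻¹ : ℝ) : ℂ) • y)
      rw [T.n2_sub_rev (x n)] at h1
      have h2 : δ / r = δ / (2 * r) + δ / (2 * r) := by field_simp; ring
      rw [h2]
      linarith
  · obtain ⟨v, hv, hvu, hg⟩ := hB _ T S (isClosed_sub P M) (vn_faithful hξ) (vn_complete_top hξ)
      (vn_sep hξ) hdix hpart ⟨u, hu⟩ ((mem_unitary_vn _).2 huu) (√ε) (Real.sqrt_pos.2 hε)
    refine ⟨v, v.2, (mem_unitary_vn _).1 hv, (vn_gen_iff hξ P hPM v).2 hg, ?_⟩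
    have h1 := vnTr_n2_sq hξ (v - ⟨u, hu⟩)
    have h2 := pow_lt_pow_left₀ hvu (T.n2_nonneg _) two_ne_zero
    rw [Real.sq_sqrt hε.le, hT, h1] at h2
    exact h2

end Crest.Agent.GEN
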