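import Crest.Agent.GEN.Step

/-! Transfer through an ultralimit and the main theorem. -/

set_option autoImplicit false
set_option linter.unusedSectionVars false
open NormedSpace Filter Topology BoundedContinuousFunction
open scoped Classical BigOperators ComplexConjugate ComplexOrder

namespace Crest.Agent.GEN

universe u
open Tok
variable {A : Type u} [CStarAlgebra A]

/-- a type with the discrete topology -/
def Disc (J : Type u) : Type u := J
instance (J : Type u) : TopologicalSpace (Disc J) := ⊥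
instance (J : Type u) : DiscreteTopology (Disc J) := ⟨rfl⟩

variable {J : Type u}

lemma exists_ulim (T : Tr A) (U : Ultrafilter (Disc J)) (f : Disc J →ᵇ A) :
    ∃ z, Tendsto (fun j => T.τ (f j)) U (𝓝 z) := by
  obtain ⟨z, -, hz⟩ := (isCompact_closedBall (0 : ℂ) ‖f‖).ultrafilter_le_nhds
    (U.map fun j => T.τ (f j)) (by
      rw [Ultrafilter.coe_map, le_principal_iff, mem_map]
      exact univ_mem' fun j => by
        simpa using (T.norm_τ_le _).trans (f.norm_coe_le_norm j))
  exact ⟨z, hz⟩

/-- the ultralimit of the traces -/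
noncomputable def ulim (T : Tr A) (U : Ultrafilter (Disc J)) (f : Disc J →ᵇ A) : ℂ :=
  (exists_ulim T U f).choose

lemma tendsto_ulim (T : Tr A) (U : Ultrafilter (Disc J)) (f : Disc J →ᵇ A) :
    Tendsto (fun j => T.τ (f j)) U (𝓝 (ulim T U f)) := (exists_ulim T U f).choose_spec

lemma ulim_eq {T : Tr A} {U : Ultrafilter (Disc J)} {f : Disc J →ᵇ A} {z : ℂ}
    (h : Tendsto (fun j => T.τ (f j)) U (𝓝 z)) : ulim T U f = z :=
  tendsto_nhds_unique (tendsto_ulim T U f) h

/-- the ultralimit trace -/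
noncomputable def ultraTr (T : Tr A) (U : Ultrafilter (Disc J)) : Tr (Disc J →ᵇ A) where
  τ := LinearMap.mkContinuous
    { toFun := ulim T U
      map_add' := fun f g => ulim_eq (by
        simpa using (tendsto_ulim T U f).add (tendsto_ulim T U g))
      map_smul' := fun a f => ulim_eq (by
        simpa using (tendsto_ulim T U f).const_mul a) } 1 (fun f => by
      refine le_of_tendsto' (tendsto_ulim T U f).norm fun j => ?_
      simpa using (T.norm_τ_le _).trans (f.norm_coe_le_norm j))
  map_one := ulim_eq (by simp [T.map_one])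
  comm f g := ulim_eq ((tendsto_ulim T U (g * f)).congr fun j => T.comm _ _)
  nonneg f := ge_of_tendsto' (tendsto_ulim T U (star f * f)) fun j => T.nonneg (f j)
  map_star f := ulim_eq (by
    simpa [T.map_star, Function.comp_def] using
      (Complex.continuous_conj.tendsto _).comp (tendsto_ulim T U f))

lemma tendsto_τ (T : Tr A) (U : Ultrafilter (Disc J)) (f : Disc J →ᵇ A) :
    Tendsto (fun j => T.τ (f j)) U (𝓝 ((ultraTr T U).τ f)) := tendsto_ulim T U f

lemma tendsto_n2 (T : Tr A) (U : Ultrafilter (Disc J)) (f : Disc J →ᵇ A) :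
    Tendsto (fun j => T.n2 (f j)) U (𝓝 ((ultraTr T U).n2 f)) := by
  simp only [Tr.n2_eq_sqrt]
  exact (Real.continuous_sqrt.tendsto _).comp ((Complex.continuous_re.tendsto _).comp
    (tendsto_τ T U (star f * f)))

/-- constant functions -/
def consts (J : Type u) (A : Type u) [CStarAlgebra A] : StarSubalgebra ℂ (Disc J →ᵇ A) where
  carrier := {f | ∀ i j, f i = f j}
  mul_mem' hf hg i j := by simp [hf i j, hg i j]
  add_mem' hf hg i j := by simp [hf i j, hg i j]
  algebraMap_mem' r i j := by simp [Algebra.algebraMap_eq_smul_one]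
  star_mem' hf i j := by simp [hf i j]

/-- evaluation of a token -/
def evTok {ι : Type} (j : Disc J) : Tok (Disc J →ᵇ A) ι → Tok A ι
  | c f => c (f j)
  | l k s => l k s

lemma wval_apply {ι : Type} (g : ι → (Disc J →ᵇ A)) (j : Disc J) (w : List (Tok _ ι)) :
    wval g w j = wval (fun k => g k j) (w.map (evTok j)) := by
  induction w with
  | nil => simp
  | cons t w ih =>
    rw [wval_cons, List.map_cons, wval_cons, ← ih]
    rcases t with a | ⟨k, _ | _⟩ <;> rfl

lemma pre_apply (v u : ℕ → (Disc J →ᵇ A)) (j : Disc J) (k : ℕ) :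
    pre v u k j = pre (fun k => v k j) (fun k => u k j) k := by
  induction k with
  | zero => rfl
  | succ k ih => simp [pre, ih]

lemma unitary_of_apply {f : Disc J →ᵇ A} (h : ∀ j, f j ∈ unitary A) :
    f ∈ unitary (Disc J →ᵇ A) :=
  Unitary.mem_iff.2 ⟨ext fun j => Unitary.star_mul_self_of_mem (h j),
    ext fun j => Unitary.mul_star_self_of_mem (h j)⟩

lemma apply_unitary {f : Disc J →ᵇ A} (h : f ∈ unitary (Disc J →ᵇ A)) (j : Disc J) :
    f j ∈ unitary A :=
  Unitary.mem_iff.2 ⟨congrArg (fun g : Disc J →ᵇ A => g j) (Unitary.star_mul_self_of_mem h),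
    congrArg (fun g : Disc J →ᵇ A => g j) (Unitary.mul_star_self_of_mem h)⟩

lemma pre_tele {v u u' : ℕ → A} (hv : ∀ k, v k ∈ unitary A) (hu : ∀ k, u k ∈ unitary A) {s : A}
    (k : ℕ) (h : ∀ i < k, u' i = u i * s) : pre v u' k =
      ((List.range k).map fun i => pre v u (i + 1) * s * star (pre v u (i + 1))).prod *
        pre v u k := by
  induction k with
  | zero => simp [pre]
  | succ k ih =>
    rw [pre, ih fun i hi => h i (by omega), h k (by omega), List.range_succ, List.map_append,
      List.prod_append]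
    simp only [List.map_cons, List.map_nil, List.prod_cons, List.prod_nil, mul_one, mul_assoc]
    rw [Unitary.star_mul_self_of_mem (pre_unitary hv hu _), pre]
    simp only [mul_assoc, mul_one]

lemma pre_mem {S : StarSubalgebra ℂ A} {v u : ℕ → A} (hv : ∀ k, v k ∈ S) (hu : ∀ k, u k ∈ S)
    (k : ℕ) : pre v u k ∈ S := by
  induction k with
  | zero => exact one_mem _
  | succ k ih => exact mul_mem (mul_mem ih (hv k)) (hu k)

theorem step {T : Tr A} {S : StarSubalgebra ℂ A} (hS : IsClosed (S : Set A)) (hD : T.Dix S)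
    (hP : T.Part S 1) {u x p : A} (hu : u ∈ unitary A) (hx : x ∈ unitary A) (hp : p ∈ S)
    (hpp : IsStarProjection p) {ε : ℝ} (hε : 0 < ε) :
    ∃ v ∈ unitary A, T.n2 (v - u) < ε ∧ T.Gen S v (x * p) (20 * (T.τ p).re + ε) := by
  obtain ⟨L, hL, hL1, hL2⟩ : ∃ L : ℕ, 2 ≤ L ∧ KK0 / L < ε ∧ √(8 * KK0 / L) + KK0 / L < ε := by
    have t1 : Tendsto (fun L : ℕ => KK0 / L) atTop (𝓝 0) := tendsto_const_div_atTop_nhds_zero_nat _
    have t2 : Tendsto (fun L : ℕ => √(8 * KK0 / L) + KK0 / L) atTop (𝓝 (√0 + 0)) :=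
      (tendsto_const_div_atTop_nhds_zero_nat _).sqrt.add t1
    exact ((eventually_ge_atTop 2).and ((t1.eventually (gt_mem_nhds hε)).and
      (t2.eventually (gt_mem_nhds (by simpa))))).exists
  let u0 : ℕ → A := fun k => if k < L then u else 1
  have hu0 : ∀ k, u0 k ∈ unitary A := fun k => by
    by_cases h : k < L <;> simp [u0, h, hu, one_mem]
  let J := Finset (List (Tok A (Fin (L + 1)))) × ℕ
  choose v hv hfree using fun j : J => free_tuple hS hD hP (L + 1) hu0
    (j.1.filter fun w => w ≠ [] ∧ Red T w) (fun w hw => (Finset.mem_filter.1 hw).2)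
    (ε := 1 / ((j.2 : ℝ) + 1)) (by positivity)
  obtain ⟨U, hU⟩ : ∃ U : Ultrafilter (Disc J), (U : Filter (Disc J)) ≤ (atTop : Filter J) :=
    @Ultrafilter.exists_le J atTop atTop_neBot
  let vB : ℕ → (Disc J →ᵇ A) := fun k =>
    ofNormedAddCommGroupDiscrete (fun j => v j k) 1 fun j => norm_unitary_le (hv j k).2
  let uB : ℕ → (Disc J →ᵇ A) := fun k => const _ (u0 k)
  have hvB : ∀ k, vB k ∈ unitary (Disc J →ᵇ A) := fun k => unitary_of_apply fun j => (hv j k).2
  have huB : ∀ k, uB k ∈ unitary (Disc J →ᵇ A) := fun k => unitary_of_apply fun j => hu0 k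
  let Φ : FreeD (Disc J →ᵇ A) (Fin (L + 1)) :=
    { T := ultraTr T U
      M := consts J A
      g := fun i => pre vB uB (i + 1)
      z := Fin.last L
      hg := fun i => pre_unitary hvB huB _
      free := fun w hw hr hc => by
        let j0 : Disc J := ((∅, 0) : J)
        have h1 : ∀ j, w.map (evTok j) = w.map (evTok j0) := fun j =>
          List.map_congr_left fun t ht => by
            rcases t with f | ⟨k, s⟩
            · simp only [evTok]; rw [hc f ht j j0]
            · rfl
        have h2 : Red T (w.map (evTok j0)) := by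
          refine ⟨List.isChain_map_of_isChain _ (fun a b h => ?_) hr.1, fun a ha => ?_⟩
          · cases a <;> cases b <;> exact h
          · obtain ⟨t, ht, e⟩ := List.mem_map.1 ha
            rcases t with f | ⟨k, s⟩
            · obtain rfl : f j0 = a := by simpa [evTok] using e
              have := tendsto_τ T U f
              rw [hr.2 f ht] at this
              simp only [fun j => hc f ht j j0] at this
              exact tendsto_nhds_unique tendsto_const_nhds this
            · simp [evTok] at e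
        refine ulim_eq (Tendsto.mono_left ?_ hU)
        have hlim : Tendsto (fun j : J => 1 / ((j.2 : ℝ) + 1)) atTop (𝓝 0) := by
          refine tendsto_one_div_add_atTop_nhds_zero_nat.comp ?_
          rw [← prod_atTop_atTop_eq]; exact tendsto_snd
        refine squeeze_zero_norm' ?_ hlim
        refine (eventually_ge_atTop (({w.map (evTok j0)}, 0) : J)).mono fun j hj => ?_
        show ‖T.τ (wval (fun i : Fin (L + 1) => pre vB uB (i + 1)) w j)‖ ≤ 1 / ((j.2 : ℝ) + 1)
        rw [wval_apply, h1]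
        simp only [pre_apply]
        exact hfree j _ (Finset.mem_filter.2 ⟨hj.1 (by simp), by simpa using hw, h2⟩) }
  obtain ⟨s, hs, μ, ν, hμ, hν, e1, e2⟩ := exact_step hL Φ rfl (x := const _ x) (p := const _ p)
    (fun _ _ => rfl) (unitary_of_apply fun _ => hx) (fun _ _ => rfl)
    ⟨ext fun _ => hpp.isIdempotentElem.eq, ext fun _ => hpp.isSelfAdjoint.star_eq⟩
  have e3 : Φ.T.τ (const _ p) = T.τ p := ulim_eq tendsto_const_nhds
  rw [e3] at e1
  let uB' : ℕ → (Disc J →ᵇ A) := fun k => if k < L then uB k * s else 1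
  have e4 : ((List.finRange L).map fun i => Φ.g i.castSucc * s * star (Φ.g i.castSucc)).prod *
      Φ.g (Fin.last L) = pre vB uB' (L + 1) := by
    rw [pre, pre_tele hvB huB L (s := s) fun i hi => if_pos hi, ← List.map_coe_finRange_eq_range,
      List.map_map]
    have : uB L = 1 := by ext j; simp [uB, u0]
    simp only [Φ, uB', Fin.val_last, pre, this, lt_irrefl, if_false, mul_assoc, Function.comp_def,
      Fin.val_castSucc]
  rw [e4] at e1
  obtain ⟨j, f1, f2⟩ := (((tendsto_n2 T U _).eventually (gt_mem_nhds (e1.trans_lt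
    (add_lt_add_right hL1 _)))).and ((tendsto_n2 T U _).eventually
      (gt_mem_nhds (e2.trans_lt hL2)))).exists
  have hνν : conj ν * ν = 1 := by rw [Complex.conj_mul', hν]; simp
  have hsj := apply_unitary hs j
  refine ⟨ν • (u * s j), ?_, ?_, μ • (pre vB uB' (L + 1) j * p), ?_, f1⟩
  · refine Unitary.mem_iff.2 ⟨?_, ?_⟩
    · rw [star_smul, smul_mul_smul_comm, Unitary.star_mul_self_of_mem (mul_mem hu hsj)]
      simp [hνν]
    · rw [star_smul, smul_mul_smul_comm, Unitary.mul_star_self_of_mem (mul_mem hu hsj), mul_comm]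
      simp [hνν]
  · have : ν • (u * s j) - u = u * (ν • s j - 1) := by simp [mul_sub]
    rw [this, T.n2_unitary_mul hu]; exact f2
  · have hsub : ∀ a ∈ S, a ∈ StarAlgebra.adjoin ℂ (insert (ν • (u * s j)) (S : Set A)) :=
      fun a ha => StarAlgebra.subset_adjoin _ _ (Set.mem_insert_of_mem _ ha)
    refine SMulMemClass.smul_mem _ (mul_mem ?_ (hsub p hp))
    rw [pre_apply]
    refine pre_mem (fun k => hsub _ (hv j k).1) (fun k => ?_) _
    by_cases h : k < L
    · have : uB' k j = conj ν • ν • (u * s j) := by simp [uB', uB, u0, h, smul_smul, hνν]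
      rw [this]
      exact SMulMemClass.smul_mem _ (StarAlgebra.subset_adjoin _ _ (Set.mem_insert _ _))
    · simp [uB', h]

theorem thmA (hO : GenOpen.{u}) : ThmA.{u} := by
  intro A _ T S hS hD hP u hu x hx ε hε
  obtain ⟨k, p, hp, horth, hsum⟩ := hP (ε ^ 2 / 1600) (by positivity)
  set η : ℝ := ε / (2 * (k + 1)) with hη
  have hη0 : 0 < η := by positivity
  have key : ∀ I : Finset (Fin k), ∃ v ∈ unitary A, T.n2 (v - u) < ε ∧
      ∀ a ∈ I, T.Gen S v (x * p a) (20 * (T.τ (p a)).re + η) := by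
    intro I
    induction I using Finset.induction_on with
    | empty => exact ⟨u, hu, by simpa, by simp⟩
    | insert a I _ ih =>
      obtain ⟨v, hv, h1, h2⟩ := ih
      choose! δ hδ hδ2 using fun b (hb : b ∈ I) => hO A T S v hv _ _ (h2 b hb)
      obtain ⟨ρ, hρ, hρ1, hρ2, hρ3⟩ : ∃ ρ > 0, ρ ≤ η ∧ ρ ≤ ε - T.n2 (v - u) ∧ ∀ b ∈ I, ρ ≤ δ b := by
        have : ∀ᶠ ρ in 𝓝[>] (0 : ℝ), ρ ≤ η ∧ ρ ≤ ε - T.n2 (v - u) ∧ ∀ b ∈ I, ρ ≤ δ b :=
          nhdsWithin_le_nhds ((eventually_le_nhds hη0).and ((eventually_le_nhds (by linarith)).and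
            ((eventually_all_finset I).2 fun b hb => eventually_le_nhds (hδ b hb))))
        obtain ⟨ρ, h3, h4⟩ := (this.and self_mem_nhdsWithin).exists
        exact ⟨ρ, h4, h3⟩
      obtain ⟨w, hw, h3, y, hy, h4⟩ := step hS hD hP hv hx (hp a).1 (hp a).2.1 hρ
      refine ⟨w, hw, by linarith [T.n2_triangle w v u], fun b hb => ?_⟩
      rcases Finset.mem_insert.1 hb with rfl | hb
      · exact ⟨y, hy, by linarith⟩
      · exact hδ2 b hb w hw (h3.trans_le (hρ3 b hb))
  obtain ⟨v, hv, h1, h2⟩ := key Finset.univ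
  choose b hb hb2 using fun a => h2 a (Finset.mem_univ a)
  refine ⟨v, hv, h1, ∑ a, b a * p a, sum_mem fun a _ => mul_mem (hb a)
    (StarAlgebra.subset_adjoin _ _ (Set.mem_insert_of_mem _ (hp a).1)), ?_⟩
  have e : ∑ a, b a * p a - x = ∑ a, (b a - x * p a) * p a := by
    simp only [sub_mul, mul_assoc, (hp _).2.1.isIdempotentElem.eq, Finset.sum_sub_distrib,
      ← Finset.mul_sum, hsum, mul_one]
  rw [e]
  refine lt_of_pow_lt_pow_left₀ 2 hε.le ?_
  rw [n2_sum_orth (fun a => (hp a).2.1) horth]
  have each : ∀ a, T.n2 ((b a - x * p a) * p a) ^ 2 ≤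
      (T.τ (p a)).re * (ε ^ 2 / 2) + 2 * η ^ 2 := fun a => by
    have a1 := (T.n2_mul_le' (b a - x * p a) (p a)).trans
      (mul_le_of_le_one_right (T.n2_nonneg _) (hp a).2.1.norm_le)
    have a2 : T.n2 ((b a - x * p a) * p a) ^ 2 ≤ (20 * (T.τ (p a)).re + η) ^ 2 := by
      have := T.n2_nonneg ((b a - x * p a) * p a)
      gcongr; linarith [hb2 a]
    have a3 := mul_le_mul_of_nonneg_left (hp a).2.2.2 (hp a).2.2.1.le
    nlinarith [sq_nonneg (20 * (T.τ (p a)).re - η)]
  refine (Finset.sum_le_sum fun a _ => each a).trans_lt ?_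
  rw [Finset.sum_add_distrib, ← Finset.sum_mul, ← Complex.re_sum, ← map_sum, hsum, T.map_one]
  simp only [Complex.one_re, one_mul, Finset.sum_const, Finset.card_univ, Fintype.card_fin,
    nsmul_eq_mul]
  have hk : (0 : ℝ) ≤ k := Nat.cast_nonneg k
  have h3 : η * (2 * (k + 1)) = ε := by rw [hη]; field_simp
  rw [← h3]
  nlinarith [sq_pos_of_pos hη0, mul_nonneg hk (sq_nonneg η), mul_nonneg (mul_nonneg hk hk) (sq_nonneg η)]

end Crest.Agent.GEN
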