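import Crest.Agent.GEN.Basic

/-! Halving and small partitions of projections. -/

set_option autoImplicit false
open Filter Topology
open scoped ComplexOrder

namespace Crest.Agent.GEN

universe u

namespace PartAux

variable {B : Type u} [CStarAlgebra B] (T : Tr B)

/-- Real part of the trace. -/
noncomputable def tr (a : B) : ℝ := (T.τ a).re

lemma tr_add (a b : B) : tr T (a + b) = tr T a + tr T b := by simp [tr]
lemma tr_sub (a b : B) : tr T (a - b) = tr T a - tr T b := by simp [tr]
lemma tr_one : tr T 1 = 1 := by simp [tr, T.map_one]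
lemma tr_zero : tr T 0 = 0 := by simp [tr]
lemma tr_le (a : B) : tr T a ≤ ‖a‖ := (Complex.re_le_norm _).trans (T.norm_τ_le a)
lemma tr_proj {p : B} (hp : IsStarProjection p) : tr T p = T.n2 p ^ 2 := (T.n2_proj_sq hp).symm
lemma tr_proj_nonneg {p : B} (hp : IsStarProjection p) : 0 ≤ tr T p := by
  rw [tr_proj T hp]; positivity
lemma tr_proj_pos (hF : T.Faithful) {p : B} (hp : IsStarProjection p) (h0 : p ≠ 0) :
    0 < tr T p := by
  rw [tr_proj T hp]
  exact pow_pos (lt_of_le_of_ne (T.n2_nonneg p) fun h => h0 (hF p h.symm)) 2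
lemma τ_eq_tr {p : B} (hp : IsStarProjection p) : T.τ p = (tr T p : ℂ) := by
  rw [T.τ_proj hp, tr_proj T hp]

lemma proj_mul_comm {p q : B} (hp : IsStarProjection p) (hq : IsStarProjection q)
    (h : p * q = p) : q * p = p := by
  simpa [hp.isSelfAdjoint.star_eq, hq.isSelfAdjoint.star_eq] using congrArg star h

lemma proj_mul_zero {p q : B} (hp : IsStarProjection p) (hq : IsStarProjection q)
    (h : p * q = 0) : q * p = 0 := by
  simpa [hp.isSelfAdjoint.star_eq, hq.isSelfAdjoint.star_eq] using congrArg star h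

/-- Convergence in 2-norm. -/
def Conv (x : ℕ → B) (g : B) : Prop := Tendsto (fun n => T.n2 (x n - g)) atTop (𝓝 0)

variable {T}

lemma Conv.of_le {x : ℕ → B} {g : B} {r : ℕ → ℝ} (hr : Tendsto r atTop (𝓝 0))
    (h : ∀ n, T.n2 (x n - g) ≤ r n) : Conv T x g :=
  squeeze_zero (fun _ => T.n2_nonneg _) h hr

lemma Conv.unique (hF : T.Faithful) {x : ℕ → B} {g g' : B} (h : Conv T x g) (h' : Conv T x g') :
    g = g' := by
  refine sub_eq_zero.1 (hF _ (le_antisymm ?_ (T.n2_nonneg _)))
  have := Tendsto.add h h'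
  rw [add_zero] at this
  refine ge_of_tendsto' this fun n => ?_
  have h1 := T.n2_triangle g (x n) g'
  rwa [T.n2_sub_rev g (x n)] at h1

lemma Conv.mul_left {x : ℕ → B} {g : B} (h : Conv T x g) (a : B) :
    Conv T (fun n => a * x n) (a * g) := by
  have := Tendsto.const_mul ‖a‖ h
  rw [mul_zero] at this
  exact Conv.of_le this fun n => by rw [← mul_sub]; exact T.n2_mul_le _ _

lemma Conv.mul_right {x : ℕ → B} {g : B} (h : Conv T x g) (a : B) :
    Conv T (fun n => x n * a) (g * a) := by
  have := Tendsto.mul_const ‖a‖ h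
  rw [zero_mul] at this
  exact Conv.of_le this fun n => by rw [← sub_mul]; exact T.n2_mul_le' _ _

lemma Conv.star {x : ℕ → B} {g : B} (h : Conv T x g) : Conv T (fun n => star (x n)) (star g) :=
  Conv.of_le h fun n => by rw [← star_sub, T.n2_star]

lemma Conv.of_eventually {x : ℕ → B} {g : B} (h : ∀ᶠ n in atTop, x n = g) : Conv T x g := by
  refine tendsto_const_nhds.congr' ?_
  filter_upwards [h] with n hn
  simp [hn]

lemma Conv.tr {x : ℕ → B} {g : B} (h : Conv T x g) :
    Tendsto (fun n => tr T (x n)) atTop (𝓝 (tr T g)) := by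
  rw [tendsto_iff_norm_sub_tendsto_zero]
  refine squeeze_zero (fun _ => norm_nonneg _) (fun n => ?_) h
  rw [← tr_sub, Real.norm_eq_abs]
  exact (Complex.abs_re_le_norm _).trans (T.norm_τ_le_n2 _)

lemma mono_lim (hF : T.Faithful) (hC : T.Complete ⊤) (x : ℕ → B) (hsa : ∀ n, IsSelfAdjoint (x n))
    (hn : ∀ n, ‖x n‖ ≤ 1) (hm : ∀ n m, n ≤ m → T.n2 (x m - x n) ^ 2 ≤ tr T (x m) - tr T (x n))
    (hx : ∀ n, Conv T (fun m => x n * x m) (x n)) :
    ∃ g, IsStarProjection g ∧ Conv T x g := by
  have hmono : Monotone fun n => tr T (x n) := fun n m h => by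
    have := hm n m h
    nlinarith [sq_nonneg (T.n2 (x m - x n))]
  have hcs : CauchySeq fun n => tr T (x n) :=
    (tendsto_atTop_ciSup hmono ⟨1, by
      rintro _ ⟨n, rfl⟩; exact (tr_le T _).trans (hn n)⟩).cauchySeq
  obtain ⟨g, -, -, hg⟩ := hC x 1 (fun _ => trivial) hn fun ε hε => by
    obtain ⟨N, hN⟩ := Metric.cauchySeq_iff.1 hcs (ε ^ 2) (by positivity)
    refine ⟨N, fun m hm' n hn' => lt_of_pow_lt_pow_left₀ 2 hε.le ?_⟩
    have h1 := hN m hm' n hn'
    rw [Real.dist_eq, abs_lt] at h1
    rcases le_total n m with h | h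
    · linarith [hm n m h]
    · rw [T.n2_sub_rev]; linarith [hm m n h]
  have hg : Conv T x g := hg
  have h1 : star g = g := Conv.unique hF hg.star (by simpa [(hsa _).star_eq] using hg)
  have h2 : ∀ n, x n * g = x n := fun n => Conv.unique hF (hg.mul_left _) (hx n)
  have h3 : g * g = g := Conv.unique hF (hg.mul_right g) (by simpa [h2] using hg)
  exact ⟨g, ⟨h3, h1⟩, hg⟩

section order
variable [PartialOrder B] [StarOrderedRing B]

lemma tr_nonneg {a : B} (ha : 0 ≤ a) : 0 ≤ tr T a := by
  obtain ⟨z, rfl⟩ := CStarAlgebra.nonneg_iff_eq_star_mul_self.1 ha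
  exact (T.nonneg z).1

/-- Support projections. -/
lemma exists_supp (hF : T.Faithful) (hC : T.Complete ⊤) {h : B} (hh : 0 ≤ h) :
    ∃ g, IsStarProjection g ∧ h * g = h ∧ ∀ k, h * k = 0 → g * k = 0 := by
  have hsa : IsSelfAdjoint h := IsSelfAdjoint.of_nonneg hh
  have hs : ∀ t ∈ spectrum ℝ h, 0 ≤ t := fun t ht => spectrum_nonneg_of_nonneg hh ht
  let d : ℕ → ℝ := fun n => 1 / ((n : ℝ) + 1)
  have hd : ∀ n, 0 < d n := fun n => by positivity
  have hd0 : Tendsto d atTop (𝓝 0) := tendsto_one_div_add_atTop_nhds_zero_nat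
  let φ : ℕ → ℝ → ℝ := fun n t => t / (t + d n)
  have hc : ∀ n, ContinuousOn (φ n) (spectrum ℝ h) := fun n =>
    ContinuousOn.div continuousOn_id (by fun_prop) fun t ht => by linarith [hs t ht, hd n]
  have hφ0 : ∀ n t, 0 ≤ t → 0 ≤ φ n t := fun n t ht => by have := hd n; positivity
  have hφ1 : ∀ n t, 0 ≤ t → φ n t ≤ 1 := fun n t ht => by
    have := hd n
    exact div_le_one_of_le₀ (by linarith) (by positivity)
  have hφ2 : ∀ n t, 0 ≤ t → |t * φ n t - t| ≤ d n := fun n t ht => by
    have := hd n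
    have e : t * φ n t - t = -(d n * φ n t) := by simp only [φ]; field_simp; ring
    rw [e, abs_neg, abs_of_nonneg (mul_nonneg this.le (hφ0 n t ht))]
    exact mul_le_of_le_one_right this.le (hφ1 n t ht)
  let x : ℕ → B := fun n => cfc (φ n) h
  have hxr : ∀ n, x n = cfc (fun t => 1 / (t + d n)) h * h := fun n => by
    have hc' : ContinuousOn (fun t : ℝ => 1 / (t + d n)) (spectrum ℝ h) :=
      ContinuousOn.div continuousOn_const (by fun_prop) fun t ht => by linarith [hs t ht, hd n]
    conv_rhs => enter [2]; rw [← cfc_id' ℝ h]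
    rw [← cfc_mul _ _ h hc']
    exact cfc_congr fun t _ => by simp only [φ]; ring
  have hhx : Conv T (fun m => h * x m) h := by
    refine Conv.of_le hd0 fun m => (T.n2_le_norm _).trans ?_
    have e : h * x m - h = cfc (fun t => t * φ m t - t) h := by
      rw [cfc_sub (fun t => t * φ m t) (fun t => t) h (continuousOn_id.mul (hc m)),
        cfc_mul (fun t => t) (φ m) h (by fun_prop) (hc m), cfc_id' ℝ h]
    rw [e]
    exact norm_cfc_le (hd m).le fun t ht => hφ2 m t (hs t ht)
  obtain ⟨g, hg, hcv⟩ := mono_lim hF hC x (fun n => cfc_predicate _ _)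
    (fun n => norm_cfc_le zero_le_one fun t ht => by
      rw [Real.norm_of_nonneg (hφ0 n t (hs t ht))]; exact hφ1 n t (hs t ht))
    (fun n m hnm => by
      have hcd : ContinuousOn (fun t => φ m t - φ n t) (spectrum ℝ h) := (hc m).sub (hc n)
      have e : x m - x n = cfc (fun t => φ m t - φ n t) h := (cfc_sub _ _ h (hc m) (hc n)).symm
      have hsa' : IsSelfAdjoint (x m - x n) := by rw [e]; exact cfc_predicate _ _
      rw [← tr_sub, T.n2_sq, hsa'.star_eq, ← sub_nonneg]
      change 0 ≤ tr T _ - tr T _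
      rw [← tr_sub, e, ← cfc_mul _ _ h hcd hcd, 
        ← cfc_sub _ (fun t => (φ m t - φ n t) * (φ m t - φ n t)) h hcd (hcd.mul hcd)]
      refine tr_nonneg (cfc_nonneg fun t ht => ?_)
      have ht0 := hs t ht
      have h1 : φ n t ≤ φ m t := by
        have := hd m
        have : d m ≤ d n := Nat.one_div_le_one_div hnm
        simp only [φ]
        gcongr
      have h2 := hφ0 n t ht0
      have h3 := hφ1 m t ht0
      nlinarith)
    (fun n => by
      have := hhx.mul_left (cfc (fun t => 1 / (t + d n)) h)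
      simpa only [← mul_assoc, ← hxr] using this)
  refine ⟨g, hg, Conv.unique hF (hcv.mul_left h) hhx, fun k hk => ?_⟩
  refine Conv.unique hF (hcv.mul_right k) (Conv.of_eventually (Eventually.of_forall fun n => ?_))
  rw [hxr, mul_assoc, hk, mul_zero]

lemma exists_sub_of_not_scalar (hF : T.Faithful) (hC : T.Complete ⊤) {f a : B}
    (hf : IsStarProjection f) (ha : IsSelfAdjoint a) (haf : a * f = a)
    (hne : ∀ t : ℝ, a ≠ t • f) :
    ∃ g, IsStarProjection g ∧ g * f = g ∧ g ≠ 0 ∧ g ≠ f := by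
  have hfa : f * a = a := by
    simpa [ha.star_eq, hf.isSelfAdjoint.star_eq] using congrArg star haf
  have hconj : ∀ (t : ℝ) (s : ℝ), star f * (algebraMap ℝ B t - s • a) * f = t • f - s • a := by
    intro t s
    rw [hf.isSelfAdjoint.star_eq, Algebra.algebraMap_eq_smul_one]
    simp [mul_sub, sub_mul, hf.isIdempotentElem.eq, hfa, haf]
  obtain ⟨t, ht1, ht2⟩ : ∃ t : ℝ, ¬ 0 ≤ a - t • f ∧ ¬ a - t • f ≤ 0 := by
    by_contra hcon
    push Not at hcon
    have hU : IsClosed {t : ℝ | 0 ≤ a - t • f} := isClosed_le (by fun_prop) (by fun_prop)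
    have hV : IsClosed {t : ℝ | a - t • f ≤ 0} := isClosed_le (by fun_prop) (by fun_prop)
    obtain ⟨t, -, h1, h2⟩ := isPreconnected_closed_iff.1 isPreconnected_univ _ _ hU hV
      (fun t _ => by
        by_cases h : 0 ≤ a - t • f
        · exact Or.inl h
        · exact Or.inr (hcon t h))
      ⟨-‖a‖, trivial, by
        have h0 : (0 : B) ≤ algebraMap ℝ B ‖a‖ - (-1 : ℝ) • a := by
          have := ha.neg.le_algebraMap_norm_self
          rw [norm_neg] at this
          rw [neg_one_smul]
          exact sub_nonneg.2 this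
        have := star_left_conjugate_nonneg h0 f
        rw [hconj] at this
        change 0 ≤ a - (-‖a‖) • f
        convert this using 1
        module⟩
      ⟨‖a‖, trivial, by
        have h0 : (0 : B) ≤ algebraMap ℝ B ‖a‖ - (1 : ℝ) • a := by
          simpa using ha.le_algebraMap_norm_self
        have := star_left_conjugate_nonneg h0 f
        rw [hconj, one_smul, sub_nonneg] at this
        exact sub_nonpos.2 this⟩
    exact hne t (sub_eq_zero.1 (le_antisymm h2 h1))
  set x := a - t • f with hx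
  have hxsa : IsSelfAdjoint x := ha.sub (IsSelfAdjoint.smul (IsSelfAdjoint.all t) hf.isSelfAdjoint)
  have hxf : x * (1 - f) = 0 := by
    simp [hx, mul_sub, sub_mul, hf.isIdempotentElem.eq, haf]
  have key : ∀ y : B, IsSelfAdjoint y → y * y * (1 - f) = 0 → y * (1 - f) = 0 := fun y hy h => by
    rw [← CStarRing.star_mul_self_eq_zero_iff, star_mul, hy.star_eq, mul_assoc, ← mul_assoc y, h,
      mul_zero]
  have hp : x⁺ * (1 - f) = 0 := by
    refine key _ (IsSelfAdjoint.of_nonneg (CFC.posPart_nonneg x)) ?_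
    have : x⁺ * x⁺ = x⁺ * x := by
      conv_rhs => enter [2]; rw [← CFC.posPart_sub_negPart x hxsa]
      rw [mul_sub, CFC.posPart_mul_negPart, sub_zero]
    rw [this, mul_assoc, hxf, mul_zero]
  have hn : x⁻ * (1 - f) = 0 := by
    have : x⁻ = x⁺ - x := by
      conv_rhs => enter [2]; rw [← CFC.posPart_sub_negPart x hxsa]
      abel
    rw [this, sub_mul, hp, hxf, sub_zero]
  obtain ⟨g, hg, h1, h2⟩ := exists_supp hF hC (CFC.posPart_nonneg x)
  refine ⟨g, hg, ?_, ?_, ?_⟩
  · have := h2 _ hp
    rw [mul_sub, mul_one, sub_eq_zero] at this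
    exact this.symm
  · rintro rfl
    rw [mul_zero] at h1
    exact ht2 ((CFC.posPart_eq_zero_iff x hxsa).1 h1.symm)
  · rintro rfl
    have h3 := h2 _ (CFC.posPart_mul_negPart x)
    rw [mul_sub, mul_one, sub_eq_zero] at hn
    have h4 := congrArg star h3
    rw [star_mul, hg.isSelfAdjoint.star_eq,
      (IsSelfAdjoint.of_nonneg (CFC.negPart_nonneg x)).star_eq, star_zero, ← hn] at h4
    exact ht1 ((CFC.negPart_eq_zero_iff x hxsa).1 h4)

end order

lemma eq_zero_of_dix (hF : T.Faithful) (hD : T.Dix ⊤) {f r : B} (hf : IsStarProjection f)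
    (h0 : f ≠ 0) (h : ∀ w, r * w * f = 0) : r = 0 := by
  have hpos := tr_proj_pos T hF hf h0
  refine hF _ (le_antisymm (le_of_forall_pos_le_add fun ε hε => ?_) (T.n2_nonneg _))
  obtain ⟨ι, _, _, w, -, hw⟩ := hD {f} (ε * tr T f / (‖r‖ + 1)) (by positivity)
  have h1 := hw f (Finset.mem_singleton_self f)
  have h2 := T.n2_mul_le r ((Fintype.card ι : ℂ)⁻¹ • ∑ k, w k * f * star (w k) - T.τ f • (1 : B))
  have h3 : r * ((Fintype.card ι : ℂ)⁻¹ • ∑ k, w k * f * star (w k) - T.τ f • (1 : B)) =
      -(T.τ f • r) := by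
    rw [mul_sub, mul_smul_comm, Finset.mul_sum, Finset.sum_eq_zero fun k _ => by
      rw [← mul_assoc, ← mul_assoc, h, zero_mul]]
    simp
  rw [h3, T.n2_neg, T.n2_smul, τ_eq_tr T hf, Complex.norm_real, Real.norm_of_nonneg hpos.le] at h2
  have h4 : tr T f * T.n2 r ≤ tr T f * ε := by
    calc _ ≤ (‖r‖ + 1) * (ε * tr T f / (‖r‖ + 1)) := by
          refine h2.trans ?_
          rw [← τ_eq_tr T hf]
          gcongr
          · exact T.n2_nonneg _
          · linarith
      _ = _ := by field_simp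
  simpa using le_of_mul_le_mul_left h4 hpos

lemma finite_of_minimal (hF : T.Faithful) (hD : T.Dix ⊤) {f : B} (hf : IsStarProjection f)
    (h0 : f ≠ 0) (hmin : ∀ a, ∃ c : ℂ, f * a * f = c • f) : FiniteDimensional ℂ B := by
  have hpos := tr_proj_pos T hF hf h0
  have key : ∀ (n : ℕ) (p : B), IsStarProjection p → tr T p < n * tr T f →
      ∃ (k : ℕ) (v : Fin k → B), (∀ i, v i * f = v i) ∧ p = ∑ i, v i * star (v i) := by
    intro n
    induction n with
    | zero => intro p hp h; simp at h; linarith [tr_proj_nonneg T hp]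
    | succ n ih =>
      intro p hp h
      by_cases hp0 : p = 0
      · exact ⟨0, Fin.elim0, fun i => i.elim0, by simp [hp0]⟩
      obtain ⟨w, hw⟩ : ∃ w, p * w * f ≠ 0 := by
        by_contra hcon
        push Not at hcon
        exact hp0 (eq_zero_of_dix hF hD hf h0 hcon)
      set y := p * w * f with hy
      have hyf : y * f = y := by rw [hy, mul_assoc, hf.isIdempotentElem.eq]
      have hpy : p * y = y := by rw [hy, ← mul_assoc, ← mul_assoc, hp.isIdempotentElem.eq]
      obtain ⟨c, hc⟩ := hmin (star y * y)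
      have hfy : f * star y = star y := by
        simpa [hf.isSelfAdjoint.star_eq] using congrArg star hyf
      rw [← mul_assoc, hfy, mul_assoc, hyf] at hc
      have hy2 : 0 < T.n2 y := lt_of_le_of_ne (T.n2_nonneg y) fun h => hw (hF y h.symm)
      have hc' : c = ((T.n2 y ^ 2 / tr T f : ℝ) : ℂ) := by
        have := congrArg T.τ hc
        rw [T.τ_star_mul_self, map_smul, τ_eq_tr T hf, smul_eq_mul] at this
        have h5 : (tr T f : ℂ) ≠ 0 := by exact_mod_cast hpos.ne'
        push_cast at this ⊢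
        rw [eq_div_iff h5, this]
      set μ : ℝ := √(tr T f) / T.n2 y with hμ
      set v := (μ : ℂ) • y with hv
      have hvv : star v * v = f := by
        rw [hv, star_smul, smul_mul_assoc, mul_smul_comm, hc, hc', smul_smul, smul_smul,
          RCLike.star_def, Complex.conj_ofReal, ← Complex.ofReal_mul, ← Complex.ofReal_mul]
        have : μ * μ * (T.n2 y ^ 2 / tr T f) = 1 := by
          rw [hμ, div_mul_div_comm, Real.mul_self_sqrt hpos.le]; field_simp
        rw [this]; simp
      have hvf : v * f = v := by rw [hv, smul_mul_assoc, hyf]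
      have hpv : p * v = v := by rw [hv, mul_smul_comm, hpy]
      have hq : IsStarProjection (v * star v) :=
        ⟨by change _ * _ = _; rw [mul_assoc, ← mul_assoc (star v), hvv, ← mul_assoc, hvf],
          IsSelfAdjoint.mul_star_self v⟩
      have hq' : IsStarProjection (p - v * star v) :=
        hq.sub_of_mul_eq_right hp (by rw [← mul_assoc, hpv])
      have htr : tr T (v * star v) = tr T f := by rw [tr, T.comm, hvv, tr]
      obtain ⟨k, u, hu, hsum⟩ := ih _ hq' (by rw [tr_sub, htr]; push_cast at h; linarith)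
      refine ⟨k + 1, Fin.cons v u, fun i => ?_, ?_⟩
      · refine Fin.cases ?_ (fun i => ?_) i
        · simpa using hvf
        · simpa using hu i
      · rw [Fin.sum_univ_succ]
        simp only [Fin.cons_zero, Fin.cons_succ]
        rw [← hsum]; abel
  obtain ⟨n, hn⟩ := exists_nat_gt (1 / tr T f)
  obtain ⟨k, v, hv, hsum⟩ := key n 1 (IsStarProjection.one _) (by
    rw [tr_one]; rwa [div_lt_iff₀ hpos] at hn)
  have hspan : Submodule.span ℂ (Set.range fun ij : Fin k × Fin k => v ij.1 * star (v ij.2)) = ⊤ := by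
    refine eq_top_iff.2 fun a _ => ?_
    have e : a = ∑ i, ∑ j, v i * (f * (star (v i) * a * v j) * f) * star (v j) := by
      calc a = 1 * a * 1 := by simp
        _ = _ := by
          rw [hsum, Finset.sum_mul, Finset.sum_mul]
          refine Finset.sum_congr rfl fun i _ => ?_
          rw [Finset.mul_sum]
          refine Finset.sum_congr rfl fun j _ => ?_
          have h1 : f * star (v j) = star (v j) := by
            simpa [hf.isSelfAdjoint.star_eq] using congrArg star (hv j)
          simp only [← mul_assoc, hv i]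
          simp only [mul_assoc, h1]
    rw [e]
    refine Submodule.sum_mem _ fun i _ => Submodule.sum_mem _ fun j _ => ?_
    obtain ⟨c, hc⟩ := hmin (star (v i) * a * v j)
    rw [hc, mul_smul_comm, smul_mul_assoc, hv i]
    exact Submodule.smul_mem _ _ (Submodule.subset_span ⟨(i, j), rfl⟩)
  exact ⟨Submodule.fg_def.2 ⟨_, Set.finite_range _, hspan⟩⟩

variable (hF : T.Faithful) (hD : T.Dix ⊤) (hC : T.Complete ⊤) (hI : ¬ FiniteDimensional ℂ B)
include hF hD hC hI

open scoped ComplexStarModule in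
lemma exists_sub {f : B} (hf : IsStarProjection f) (h0 : f ≠ 0) :
    ∃ g, IsStarProjection g ∧ g * f = g ∧ g ≠ 0 ∧ g ≠ f := by
  let _ := CStarAlgebra.spectralOrder B
  have _ := CStarAlgebra.spectralOrderedRing B
  by_contra hcon
  have key : ∀ a : B, IsSelfAdjoint a → ∃ t : ℝ, f * a * f = t • f := fun a ha => by
    by_contra h
    push Not at h
    refine hcon (exists_sub_of_not_scalar hF hC hf ?_ ?_ h)
    · simpa [hf.isSelfAdjoint.star_eq] using ha.conjugate f
    · rw [mul_assoc, hf.isIdempotentElem.eq]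
  refine hI (finite_of_minimal hF hD hf h0 fun a => ?_)
  obtain ⟨s, hs⟩ := key _ (ℜ a).2
  obtain ⟨t, ht⟩ := key _ (ℑ a).2
  refine ⟨s + Complex.I * t, ?_⟩
  conv_lhs => rw [← realPart_add_I_smul_imaginaryPart a]
  rw [mul_add, add_mul, mul_smul_comm, smul_mul_assoc, hs, ht, add_smul, mul_smul,
    Complex.coe_smul, Complex.coe_smul]

lemma exists_small {e : B} (he : IsStarProjection e) (h0 : e ≠ 0) {c : ℝ} (hc : 0 < c) :
    ∃ g, IsStarProjection g ∧ g * e = g ∧ 0 < tr T g ∧ tr T g ≤ c := by
  have key : ∀ n : ℕ, ∃ g, IsStarProjection g ∧ g * e = g ∧ g ≠ 0 ∧ tr T g ≤ (1 / 2) ^ n := by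
    intro n
    induction n with
    | zero => exact ⟨e, he, he.isIdempotentElem.eq, h0, by
        simpa using (tr_le T e).trans (he.norm_le e)⟩
    | succ n ih =>
      obtain ⟨f, hf, hfe, hf0, hfn⟩ := ih
      obtain ⟨g, hg, hgf, hg0, hgne⟩ := exists_sub hF hD hC hI hf hf0
      have hge : g * e = g := by rw [← hgf, mul_assoc, hfe]
      rcases le_total (tr T g) (tr T f / 2) with h | h
      · exact ⟨g, hg, hge, hg0, by rw [pow_succ]; linarith⟩
      · refine ⟨f - g, hg.sub_of_mul_eq_left hf hgf, by rw [sub_mul, hfe, hge],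
          sub_ne_zero.2 hgne.symm, ?_⟩
        rw [tr_sub, pow_succ]; linarith
  obtain ⟨n, hn⟩ := exists_pow_lt_of_lt_one hc (show (1 / 2 : ℝ) < 1 by norm_num)
  obtain ⟨g, hg, hge, hg0, hgn⟩ := key n
  exact ⟨g, hg, hge, tr_proj_pos T hF hg hg0, hgn.trans hn.le⟩

lemma exists_trace {e : B} (he : IsStarProjection e) {s : ℝ} (hs0 : 0 ≤ s) (hs : s ≤ tr T e) :
    ∃ f, IsStarProjection f ∧ f * e = f ∧ tr T f = s := by
  let G : B → Prop := fun f => IsStarProjection f ∧ f * e = f ∧ tr T f ≤ s
  have step : ∀ f, G f → ∃ f', G f' ∧ f * f' = f ∧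
      ∀ g, IsStarProjection g → g * (e - f) = g → tr T f + tr T g ≤ s →
        tr T f + tr T g / 2 ≤ tr T f' := by
    rintro f ⟨hf, hfe, hfs⟩
    let K : Set ℝ := {r | ∃ g, IsStarProjection g ∧ g * (e - f) = g ∧ tr T f + tr T g ≤ s ∧
      r = tr T g}
    have hK0 : (0 : ℝ) ∈ K := ⟨0, IsStarProjection.zero _, by simp, by simpa [tr_zero],
      (tr_zero T).symm⟩
    have hKb : BddAbove K := ⟨s - tr T f, by rintro _ ⟨g, -, -, h, rfl⟩; linarith⟩
    have hex : ∃ r ∈ K, sSup K / 2 ≤ r := by
      rcases (le_csSup hKb hK0).eq_or_lt with h | h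
      · exact ⟨0, hK0, by rw [← h]; simp⟩
      · obtain ⟨r, hr, h2⟩ := exists_lt_of_lt_csSup ⟨0, hK0⟩ (half_lt_self h)
        exact ⟨r, hr, h2.le⟩
    obtain ⟨_, ⟨g, hg, hge, hgs, rfl⟩, hr⟩ := hex
    have hef : e * f = f := proj_mul_comm hf he hfe
    have hgf : g * f = 0 := by
      rw [← hge, mul_assoc, sub_mul, hef, hf.isIdempotentElem.eq, sub_self, mul_zero]
    have hfg : f * g = 0 := proj_mul_zero hg hf hgf
    have hge' : g * e = g := by rwa [mul_sub, hgf, sub_zero] at hge
    refine ⟨f + g, ⟨hf.add hg hfg, by rw [add_mul, hfe, hge'], by rwa [tr_add]⟩,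
      by rw [mul_add, hfg, hf.isIdempotentElem.eq, add_zero], fun g' h1 h2 h3 => ?_⟩
    have := le_csSup hKb ⟨g', h1, h2, h3, rfl⟩
    rw [tr_add]; linarith
  choose! nx hnx using step
  let x : ℕ → B := fun n => nx^[n] 0
  have hx1 : ∀ n, x (n + 1) = nx (x n) := fun n => Function.iterate_succ_apply' nx n 0
  have hG : ∀ n, G (x n) := fun n => by
    induction n with
    | zero => exact ⟨IsStarProjection.zero _, by simp [x], by simpa [x, tr_zero]⟩
    | succ n ih => rw [hx1]; exact (hnx _ ih).1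
  have hle : ∀ n m, n ≤ m → x n * x m = x n := fun n m h => by
    induction m, h using Nat.le_induction with
    | base => exact (hG n).1.isIdempotentElem.eq
    | succ m _ ih => rw [hx1, ← ih, mul_assoc, (hnx _ (hG m)).2.1]
  obtain ⟨f, hf, hcv⟩ := mono_lim hF hC x (fun n => (hG n).1.isSelfAdjoint)
    (fun n => (hG n).1.norm_le _)
    (fun n m h => by
      rw [← tr_proj T ((hG n).1.sub_of_mul_eq_left (hG m).1 (hle n m h)), tr_sub])
    (fun n => Conv.of_eventually ((eventually_ge_atTop n).mono (hle n)))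
  have hfe : f * e = f := Conv.unique hF (hcv.mul_right e) (by simpa [(hG _).2.1] using hcv)
  have hfs : tr T f ≤ s := le_of_tendsto' hcv.tr fun n => (hG n).2.2
  have hxf : ∀ n, x n * f = x n := fun n => Conv.unique hF (hcv.mul_left _)
    (Conv.of_eventually ((eventually_ge_atTop n).mono (hle n)))
  refine ⟨f, hf, hfe, ?_⟩
  by_contra hne
  have hlt : tr T f < s := lt_of_le_of_ne hfs hne
  have hef : IsStarProjection (e - f) := hf.sub_of_mul_eq_left he hfe
  have hef0 : e - f ≠ 0 := fun h => by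
    rw [sub_eq_zero] at h
    rw [h] at hs
    linarith
  obtain ⟨g, hg, hge, hg0, hgs⟩ := exists_small hF hD hC hI hef hef0 (sub_pos.2 hlt)
  have hxt : ∀ n, tr T (x n) ≤ tr T f := fun n => by
    have := tr_proj_nonneg T ((hG n).1.sub_of_mul_eq_left hf (hxf n))
    rw [tr_sub] at this
    linarith
  have hgrow : ∀ n : ℕ, n * (tr T g / 2) ≤ tr T (x n) := fun n => by
    induction n with
    | zero => simp [x, tr_zero]
    | succ n ih =>
      have h1 : e * x n = x n := proj_mul_comm (hG n).1 he (hG n).2.1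
      have h2 : f * x n = x n := proj_mul_comm (hG n).1 hf (hxf n)
      have h3 : g * x n = 0 := by rw [← hge, mul_assoc, sub_mul, h1, h2, sub_self, mul_zero]
      have h4 : g * e = g := by
        rw [← hge, mul_assoc, sub_mul, he.isIdempotentElem.eq, hfe]
      have := (hnx _ (hG n)).2.2 g hg (by rw [mul_sub, h3, h4, sub_zero]) (by linarith [hxt n])
      rw [hx1]
      push_cast
      linarith
  obtain ⟨n, hn⟩ := exists_nat_gt (tr T f / (tr T g / 2))
  rw [div_lt_iff₀ (by positivity)] at hn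
  linarith [hgrow n, hxt n]

lemma part {e : B} (he : IsStarProjection e) : T.Part ⊤ e := by
  intro c hc
  have key : ∀ (n : ℕ) (e : B), IsStarProjection e → tr T e ≤ n * c →
      ∃ (k : ℕ) (p : Fin k → B), (∀ a, IsStarProjection (p a) ∧ 0 < tr T (p a) ∧ tr T (p a) ≤ c) ∧
        (∀ a b, a ≠ b → p a * p b = 0) ∧ ∑ a, p a = e := by
    intro n
    induction n with
    | zero =>
      intro e he h
      refine ⟨0, Fin.elim0, fun a => a.elim0, fun a => a.elim0, ?_⟩
      by_contra h0
      have := tr_proj_pos T hF he (fun h => h0 (by simp [h]))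
      simp at h
      linarith
    | succ n ih =>
      intro e he h
      by_cases h0 : e = 0
      · exact ⟨0, Fin.elim0, fun a => a.elim0, fun a => a.elim0, by simp [h0]⟩
      have hpos := tr_proj_pos T hF he h0
      obtain ⟨f, hf, hfe, hfs⟩ := exists_trace hF hD hC hI he (le_min hpos.le hc.le)
        (min_le_left _ _)
      have hef : IsStarProjection (e - f) := hf.sub_of_mul_eq_left he hfe
      obtain ⟨k, p, hp, horth, hsum⟩ := ih (e - f) hef (by
        rw [tr_sub, hfs]
        push_cast at h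
        rcases le_total (tr T e) c with h1 | h1
        · rw [min_eq_left h1, sub_self]; positivity
        · rw [min_eq_right h1]; linarith)
      have hpf : ∀ a, p a * f = 0 := fun a => by
        have h1 : p a * (e - f) = p a := by
          rw [← hsum, Finset.mul_sum, Finset.sum_eq_single a (fun b _ hb => horth a b hb.symm)
            (by simp), (hp a).1.isIdempotentElem.eq]
        rw [← h1, mul_assoc, sub_mul, proj_mul_comm hf he hfe, hf.isIdempotentElem.eq, sub_self,
          mul_zero]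
      refine ⟨k + 1, Fin.cons f p, fun a => ?_, fun a b => ?_, ?_⟩
      · refine Fin.cases ?_ (fun a => ?_) a
        · simp only [Fin.cons_zero, hfs]
          exact ⟨hf, lt_min hpos hc, min_le_right _ _⟩
        · simpa using hp a
      · refine Fin.cases ?_ (fun a => ?_) a <;> refine Fin.cases ?_ (fun b => ?_) b
        · simp
        · intro _
          simpa using proj_mul_zero (hp b).1 hf (hpf b)
        · intro _
          simpa using hpf a
        · intro hab
          simpa using horth a b fun h => hab (by rw [h])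
      · rw [Fin.sum_univ_succ]
        simp [hsum]
  obtain ⟨n, hn⟩ := exists_nat_ge (tr T e / c)
  obtain ⟨k, p, hp, h1, h2⟩ := key n e he (by rwa [div_le_iff₀ hc] at hn)
  exact ⟨k, p, fun a => ⟨trivial, hp a⟩, h1, h2⟩

end PartAux

section res
variable {A : Type u} [CStarAlgebra A] (T : Tr A) (S : StarSubalgebra ℂ A)

lemma isClosed_of_complete (hF : T.Faithful) (hC : T.Complete S) : IsClosed (S : Set A) := by
  refine isClosed_of_closure_subset fun x hx => ?_
  obtain ⟨a, ha, hl⟩ := mem_closure_iff_seq_limit.1 hx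
  obtain ⟨C, hCb⟩ := hl.norm.bddAbove_range
  obtain ⟨b, hb, -, hlim⟩ := hC a C ha (fun n => hCb ⟨n, rfl⟩) fun ε hε => by
    obtain ⟨N, hN⟩ := Metric.cauchySeq_iff.1 hl.cauchySeq ε hε
    refine ⟨N, fun m hm n hn => (T.n2_le_norm _).trans_lt ?_⟩
    rw [← dist_eq_norm]; exact hN m hm n hn
  have h2 : PartAux.Conv T a x :=
    PartAux.Conv.of_le (tendsto_iff_norm_sub_tendsto_zero.1 hl) fun n => T.n2_le_norm _
  rw [PartAux.Conv.unique hF h2 hlim]
  exact hb

variable [IsClosed (S : Set A)]

/-- Restriction of the trace to a closed subalgebra. -/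
noncomputable def Tr.res : Tr S where
  τ := T.τ ∘L S.toSubalgebra.toSubmodule.subtypeL
  map_one := T.map_one
  comm a b := T.comm a b
  nonneg a := T.nonneg a
  map_star a := T.map_star a

lemma Tr.res_τ (a : S) : (T.res S).τ a = T.τ a := rfl

lemma Tr.res_n2 (a : S) : (T.res S).n2 a = T.n2 a := by
  rw [Tr.n2_eq_sqrt, Tr.n2_eq_sqrt]; rfl

lemma Tr.res_faithful (hF : T.Faithful) : (T.res S).Faithful := fun a ha =>
  Subtype.ext (hF a (by rwa [Tr.res_n2] at ha))

lemma Tr.res_complete (hC : T.Complete S) : (T.res S).Complete ⊤ := fun a C _ h1 h2 => by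
  obtain ⟨b, hb, h3, h4⟩ := hC (fun n => a n) C (fun n => (a n).2) h1 (by
    simp only [Tr.res_n2] at h2; exact h2)
  exact ⟨⟨b, hb⟩, trivial, h3, by simp only [Tr.res_n2]; exact h4⟩

lemma Tr.res_dix (hD : T.Dix S) : (T.res S).Dix ⊤ := fun F ε hε => by
  obtain ⟨ι, _, _, w, hw, h⟩ := hD (F.map ⟨Subtype.val, Subtype.val_injective⟩) ε hε
  refine ⟨ι, inferInstance, inferInstance, fun k => ⟨w k, (hw k).1⟩, fun k => ⟨trivial, ?_⟩,
    fun b hb => ?_⟩
  · have := (hw k).2
    rw [Unitary.mem_iff] at this ⊢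
    exact ⟨Subtype.ext this.1, Subtype.ext this.2⟩
  · rw [Tr.res_n2]
    simpa [Tr.res_τ] using h b (Finset.mem_map_of_mem _ hb)

end res

theorem partThm : PartThm.{u} := by
  intro A _ T S hF hD hC hI e heS he
  have := isClosed_of_complete T S hF hC
  have hF' := T.res_faithful S hF
  have hD' := T.res_dix S hD
  have hC' := T.res_complete S hC
  have he' : IsStarProjection (⟨e, heS⟩ : S) :=
    ⟨Subtype.ext he.isIdempotentElem.eq, Subtype.ext he.isSelfAdjoint.star_eq⟩
  have h0 := PartAux.tr_proj_nonneg (T.res S) he'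
  refine ⟨?_, fun c hc => ?_⟩
  · obtain ⟨f, hf, hfe, hft⟩ := PartAux.exists_trace hF' hD' hC' hI he'
      (s := PartAux.tr (T.res S) ⟨e, heS⟩ / 2) (by positivity) (by linarith)
    refine ⟨f, f.2, hf.map S.subtype, congrArg Subtype.val hfe, ?_⟩
    have h1 := PartAux.τ_eq_tr (T.res S) hf
    have h2 := PartAux.τ_eq_tr (T.res S) he'
    rw [Tr.res_τ] at h1 h2
    rw [h1, h2, hft]; simp
  · obtain ⟨k, p, hp, h1, h2⟩ := PartAux.part hF' hD' hC' hI he' c hc
    refine ⟨k, fun a => p a, fun a => ⟨(p a).2, (hp a).2.1.map S.subtype, (hp a).2.2⟩,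
      fun a b hab => congrArg Subtype.val (h1 a b hab), ?_⟩
    simpa using congrArg Subtype.val h2

end Crest.Agent.GEN
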