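import Crest.Agent.GEN.Exact

/-! The steering estimate in the exactly free model. -/

set_option autoImplicit false
set_option linter.unusedSectionVars false
open NormedSpace Filter Topology
open scoped Classical BigOperators ComplexConjugate

namespace Crest.Agent.GEN

universe u
variable {B : Type u} [CStarAlgebra B] {T : Tr B}
open Tok

lemma norm_exp_sub_le {Bm : B} (hB2 : ‖Bm‖ ≤ 2) {η : ℝ} (h0 : 0 ≤ η) (h1 : η ≤ 1) :
    ‖exp ((η : ℂ) • Bm) - (1 + (η : ℂ) • Bm)‖ ≤ 4 * Real.exp 4 * η ^ 2 := by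
  have hn : ‖(η : ℂ) • Bm‖ ≤ 2 * η := by
    rw [norm_smul, Complex.norm_real, Real.norm_eq_abs, abs_of_nonneg h0]; nlinarith
  refine (exp_taylor2 (by linarith)).trans ?_
  have : ‖(η : ℂ) • Bm‖ ^ 2 ≤ (2 * η) ^ 2 := by gcongr
  nlinarith [Real.exp_pos 4]

lemma exp_smul_unitary {Bm : B} (hB : star Bm = -Bm) (η : ℝ) :
    exp ((η : ℂ) • Bm) ∈ unitary B :=
  exp_unitary (by rw [star_smul, hB]; simp)

lemma eig {Bm W : B} (hB : star Bm = -Bm) (hB2 : ‖Bm‖ ≤ 2) {σ η e : ℝ} (hσ : |σ| = 1)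
    (h0 : 0 ≤ η) (h1 : η ≤ 1) (he : T.n2 (Bm * W - ((σ : ℂ) * Complex.I) • W) ≤ e)
    (hW : T.n2 W ≤ 2) (k : ℕ) :
    T.n2 (exp ((η : ℂ) • Bm) ^ k * W - Complex.exp ((σ * η : ℝ) * Complex.I) ^ k • W) ≤
      k * (η * e + (8 * Real.exp 4 + 2) * η ^ 2) := by
  set t := exp ((η : ℂ) • Bm)
  set ω := Complex.exp ((σ * η : ℝ) * Complex.I) with hω
  have hω1 : ‖ω‖ = 1 := Complex.norm_exp_ofReal_mul_I _
  have one : T.n2 (t * W - ω • W) ≤ η * e + (8 * Real.exp 4 + 2) * η ^ 2 := by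
    have e1 : t * W - ω • W = (t - (1 + (η : ℂ) • Bm)) * W +
        (η : ℂ) • (Bm * W - ((σ : ℂ) * Complex.I) • W) -
        (ω - 1 - (σ * η : ℝ) * Complex.I) • W := by
      simp only [sub_mul, add_mul, one_mul, smul_mul_assoc]; push_cast; module
    have hn : ‖((σ * η : ℝ) : ℂ) * Complex.I‖ = η := by
      rw [norm_mul, Complex.norm_I, Complex.norm_real, Real.norm_eq_abs, abs_mul, hσ,
        abs_of_nonneg h0]; ring
    have b3 := Complex.norm_exp_sub_one_sub_id_le (x := ((σ * η : ℝ) : ℂ) * Complex.I)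
      (by rw [hn]; exact h1)
    rw [hn] at b3
    rw [e1]
    refine (T.n2_sub_le _ _).trans ((add_le_add (T.n2_add_le _ _) le_rfl).trans ?_)
    rw [T.n2_smul, T.n2_smul, Complex.norm_real, Real.norm_eq_abs, abs_of_nonneg h0]
    have b1 := (T.n2_mul_le _ W).trans (mul_le_mul (norm_exp_sub_le hB2 h0 h1) hW
      (T.n2_nonneg _) (by positivity))
    have b2 := mul_le_mul_of_nonneg_left he h0
    have b4 := mul_le_mul b3 hW (T.n2_nonneg _) (by positivity)
    linarith
  induction k with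
  | zero => simp
  | succ k ih =>
    have e1 : t ^ (k + 1) * W - ω ^ (k + 1) • W =
        t * (t ^ k * W - ω ^ k • W) + ω ^ k • (t * W - ω • W) := by
      simp only [pow_succ', mul_sub, mul_smul_comm, smul_sub, smul_smul, mul_assoc]; module
    rw [e1]
    refine (T.n2_add_le _ _).trans ?_
    rw [T.n2_unitary_mul (exp_smul_unitary hB η), T.n2_smul, norm_pow, hω1, one_pow]
    push_cast; linarith

lemma rot {V y p : B} (hp : IsStarProjection p) (hV : star V * V = p) (hy : star y * y = p)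
    (hVp : V * p = V) (hyp : y * p = y) {L : ℕ} (hL : 2 ≤ L) :
    T.n2 (exp (((Real.pi / 2 / L : ℝ) : ℂ) • (y * star V - V * star y)) ^ L * V - y) ≤
      4 * T.n2 (star y * V) + 4 * (8 * Real.exp 4 + 2) / L := by
  have hL0 : (2 : ℝ) ≤ L := by exact_mod_cast hL
  have hpi := Real.pi_le_four
  have hpi0 := Real.pi_pos
  set η : ℝ := Real.pi / 2 / L with hη
  have h0 : 0 ≤ η := by positivity
  have hηL : η ≤ 2 / L := by rw [hη]; gcongr; linarith
  have h1 : η ≤ 1 := hηL.trans (by rw [div_le_one (by linarith)]; exact hL0)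
  have hLη : L * η = Real.pi / 2 := by rw [hη]; field_simp
  have hn : ∀ {v : B}, star v * v = p → ‖v‖ ≤ 1 := fun {v} h => by
    have h2 := CStarRing.norm_star_mul_self (x := v)
    rw [h] at h2
    have := hp.norm_le
    nlinarith [norm_nonneg v]
  set Bm := y * star V - V * star y with hBm
  have hB : star Bm = -Bm := by simp [hBm]
  have hB2 : ‖Bm‖ ≤ 2 := by
    refine (norm_sub_le _ _).trans ?_
    have a1 := norm_mul_le y (star V)
    have a2 := norm_mul_le V (star y)
    rw [norm_star] at a1 a2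
    nlinarith [hn hV, hn hy, norm_nonneg V, norm_nonneg y]
  set a := star y * V with ha
  have hBV : Bm * V = y - V * a := by
    rw [hBm, sub_mul, mul_assoc, hV, hyp, mul_assoc]
  have hBy : Bm * y = y * star a - V := by
    rw [hBm, sub_mul, mul_assoc V, hy, hVp, ha, star_mul, star_star, mul_assoc]
  have key : ∀ σ : ℝ, |σ| = 1 → T.n2 (exp ((η : ℂ) • Bm) ^ L * (V - ((σ : ℂ) * Complex.I) • y) -
      ((σ : ℂ) * Complex.I) • (V - ((σ : ℂ) * Complex.I) • y)) ≤
      L * (η * (2 * T.n2 a) + (8 * Real.exp 4 + 2) * η ^ 2) := by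
    intro σ hσ
    have hσn : ‖(σ : ℂ) * Complex.I‖ = 1 := by simp [hσ]
    have hσ2 : (σ : ℂ) * σ = 1 := by
      rw [← Complex.ofReal_mul, ← abs_mul_abs_self, hσ]; simp
    have := eig (T := T) (W := V - ((σ : ℂ) * Complex.I) • y) (e := 2 * T.n2 a) hB hB2 hσ h0 h1
      (by
        have e1 : Bm * (V - ((σ : ℂ) * Complex.I) • y) -
            ((σ : ℂ) * Complex.I) • (V - ((σ : ℂ) * Complex.I) • y) =
            -(V * a) - ((σ : ℂ) * Complex.I) • (y * star a) := by
          have e2 : (σ : ℂ) * Complex.I * (σ * Complex.I) = -1 := by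
            linear_combination (σ * σ : ℂ) * Complex.I_mul_I - hσ2
          rw [mul_sub, mul_smul_comm, hBV, hBy, smul_sub, smul_sub, smul_smul, e2]; module
        rw [e1]
        refine (T.n2_sub_le _ _).trans ?_
        rw [T.n2_neg, T.n2_smul, hσn]
        have a1 := T.n2_mul_le V a
        have a2 := T.n2_mul_le y (star a)
        rw [T.n2_star] at a2
        nlinarith [hn hV, hn hy, T.n2_nonneg a])
      (by
        refine (T.n2_sub_le _ _).trans ?_
        rw [T.n2_smul, hσn]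
        linarith [T.n2_le_norm V, T.n2_le_norm y, hn hV, hn hy]) L
    have e3 : Complex.exp ((σ * η : ℝ) * Complex.I) ^ L = σ * Complex.I := by
      rw [← Complex.exp_nat_mul]
      have e4 : (L : ℂ) * (((σ * η : ℝ) : ℂ) * Complex.I) = ((σ * (Real.pi / 2) : ℝ) : ℂ) *
          Complex.I := by rw [← hLη]; push_cast; ring
      rw [e4, Complex.exp_mul_I, ← Complex.ofReal_cos, ← Complex.ofReal_sin]
      rcases abs_eq (zero_le_one' ℝ) |>.1 hσ with rfl | rfl <;> simp
    rwa [e3] at this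
  have k1 := key 1 (by simp)
  have k2 := key (-1) (by simp)
  set t := exp ((η : ℂ) • Bm) ^ L
  have e5 : t * V - y = (2⁻¹ : ℂ) • ((t * (V - (((1 : ℝ) : ℂ) * Complex.I) • y) -
      (((1 : ℝ) : ℂ) * Complex.I) • (V - (((1 : ℝ) : ℂ) * Complex.I) • y)) +
      (t * (V - (((-1 : ℝ) : ℂ) * Complex.I) • y) -
      (((-1 : ℝ) : ℂ) * Complex.I) • (V - (((-1 : ℝ) : ℂ) * Complex.I) • y))) := by
    simp only [mul_sub, mul_smul_comm, smul_sub, smul_smul]
    push_cast
    simp only [one_mul, neg_mul, mul_neg, neg_neg, Complex.I_mul_I]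
    module
  rw [e5, T.n2_smul]
  have b := (T.n2_add_le _ _).trans (add_le_add k1 k2)
  have c1 : L * (η * (2 * T.n2 a) + (8 * Real.exp 4 + 2) * η ^ 2) =
      Real.pi * T.n2 a + (8 * Real.exp 4 + 2) * (Real.pi / 2 * η) := by
    rw [← hLη]; linear_combination (2 * T.n2 a) * hLη
  rw [c1] at b
  have c2 : Real.pi / 2 * η ≤ 4 / L := by
    calc _ ≤ 2 * (2 / (L : ℝ)) := mul_le_mul (by linarith) hηL h0 (by norm_num)
      _ = _ := by ring
  have c3 := mul_le_mul_of_nonneg_left c2 (by positivity : 0 ≤ 8 * Real.exp 4 + 2)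
  have c4 := mul_le_mul_of_nonneg_right hpi (T.n2_nonneg a)
  have c5 : (8 * Real.exp 4 + 2) * (4 / L) = 4 * (8 * Real.exp 4 + 2) / L := by ring
  norm_num at b ⊢
  linarith

lemma phase {U V b : B} (hU : U ∈ unitary B) (hV : V ∈ unitary B) {lam : ℂ} (hl : ‖lam‖ ≤ 1)
    (n : ℕ) (h : T.τ (b * star b * star V * U) = lam ^ n * T.τ (star b * b)) :
    ∃ μ : ℂ, ‖μ‖ = 1 ∧ T.n2 (μ • (U * b) - V * b) ^ 2 ≤ 2 * n * (1 - ‖lam‖ ^ 2) * T.n2 b ^ 2 := by
  obtain ⟨μ, hμ, hμ2⟩ : ∃ μ : ℂ, ‖μ‖ = 1 ∧ μ * lam ^ n = ((‖lam‖ ^ n : ℝ) : ℂ) := by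
    by_cases h0 : lam ^ n = 0
    · exact ⟨1, by simp, by rw [← norm_pow, h0]; simp⟩
    · have h1 : ((‖lam ^ n‖ : ℝ) : ℂ) ≠ 0 := by simpa using h0
      refine ⟨conj (lam ^ n) / ‖lam ^ n‖, ?_, ?_⟩
      · rw [norm_div, Complex.norm_conj, Complex.norm_real, norm_norm,
          div_self (by simpa using h0)]
      · rw [div_mul_eq_mul_div, Complex.conj_mul', ← norm_pow]; field_simp
  refine ⟨μ, hμ, ?_⟩
  rw [T.n2_sub_rev, T.n2_sub_sq, T.n2_smul, T.n2_unitary_mul hU, T.n2_unitary_mul hV, hμ,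
    mul_smul_comm, map_smul, smul_eq_mul]
  have e : T.τ (star (V * b) * (U * b)) = lam ^ n * T.τ (star b * b) := by
    rw [← h, ← mul_assoc, T.comm, star_mul]; simp only [mul_assoc]
  rw [e, ← mul_assoc, hμ2, T.τ_star_mul_self, ← Complex.ofReal_mul, Complex.ofReal_re]
  have h2 := one_add_mul_le_pow (a := ‖lam‖ - 1) (by linarith [norm_nonneg lam]) n
  rw [add_sub_cancel] at h2
  have h3 : 1 - ‖lam‖ ≤ 1 - ‖lam‖ ^ 2 := by nlinarith [norm_nonneg lam]
  have h4 : 1 - ‖lam‖ ^ n ≤ n * (1 - ‖lam‖ ^ 2) := by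
    have := mul_le_mul_of_nonneg_left h3 (Nat.cast_nonneg (α := ℝ) n)
    linarith
  nlinarith [sq_nonneg (T.n2 b)]

lemma conj_list_prod {γ : B} (hγ : γ ∈ unitary B) {α : Type} (l : List α) (f : α → B) :
    γ * (l.map f).prod * star γ = (l.map fun a => γ * f a * star γ).prod := by
  induction l with
  | nil => simpa using Unitary.mul_star_self_of_mem hγ
  | cons a l ih =>
    simp only [List.map_cons, List.prod_cons]
    rw [← ih]
    simp only [mul_assoc]
    rw [← mul_assoc (star γ) γ, Unitary.star_mul_self_of_mem hγ, one_mul]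

lemma list_prod_unitary {α : Type} (l : List α) {f : α → B} (h : ∀ a, f a ∈ unitary B) :
    (l.map f).prod ∈ unitary B :=
  list_prod_mem fun x hx => by obtain ⟨a, -, rfl⟩ := List.mem_map.1 hx; exact h a

lemma prod_product {α : Type} (l1 l2 : List α) (f : α × α → B) :
    ((l1 ×ˢ l2).map f).prod = (l1.map fun i => (l2.map fun j => f (i, j)).prod).prod := by
  induction l1 with
  | nil => simp
  | cons a l ih => simp [List.product_cons, ih, Function.comp_def]

lemma countP_diag {α : Type} [DecidableEq α] (l1 l2 : List α) (h : ∀ i ∈ l1, l2.count i = 1) :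
    (l1 ×ˢ l2).countP (fun p => p.1 = p.2) = l1.length := by
  induction l1 with
  | nil => simp
  | cons a l ih =>
    rw [List.product_cons, List.countP_append, ih fun i hi => h i (by simp [hi]), List.countP_map,
      List.length_cons, add_comm]
    congr 1
    rw [← h a (by simp), List.count]
    refine List.countP_congr fun x _ => ?_
    simp only [Function.comp, decide_eq_true_eq, beq_iff_eq]
    exact eq_comm

end Crest.Agent.GEN
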