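import Crest.Agent.GEN.Free4

/-! Construction of sources of increments from Dixmier averaging and small partitions. -/

set_option autoImplicit false
set_option linter.unusedSectionVars false
open NormedSpace Complex Filter Topology
open scoped Classical BigOperators ComplexConjugate

namespace Crest.Agent.GEN

universe u
variable {A : Type u} [CStarAlgebra A] {T : Tr A}

/-- sign of a boolean -/
def sg (b : Bool) : ℝ := if b then 1 else -1

lemma sg_mul_self (b : Bool) : sg b * sg b = 1 := by cases b <;> simp [sg]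
lemma sg_not (b : Bool) : sg (!b) = -sg b := by cases b <;> simp [sg]

lemma expect_sg {k : ℕ} (a b : Fin k) :
    𝔼 σ : Fin k → Bool, sg (σ a) * sg (σ b) = if a = b then 1 else 0 := by
  split_ifs with h
  · simp [h, sg_mul_self]
  · have hinv : Function.Involutive fun σ : Fin k → Bool => Function.update σ a (!σ a) := by
      intro σ; simp
    have := Fintype.expect_equiv hinv.toPerm (fun σ => -(sg (σ a) * sg (σ b)))
      (fun σ => sg (σ a) * sg (σ b)) (fun σ => by
        simp [Function.Involutive.toPerm, Function.update_of_ne (Ne.symm h), sg_not])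
    rw [Finset.expect_neg_distrib] at this
    linarith

lemma expect_sg_sq {k : ℕ} (z : Fin k → ℂ) :
    𝔼 σ : Fin k → Bool, ‖∑ a, (sg (σ a) : ℂ) * z a‖ ^ 2 = ∑ a, ‖z a‖ ^ 2 := by
  have h : ∀ σ : Fin k → Bool, ‖∑ a, (sg (σ a) : ℂ) * z a‖ ^ 2 =
      ∑ a, ∑ b, sg (σ a) * sg (σ b) * (conj (z a) * z b).re := fun σ => by
    have : ((‖∑ a, (sg (σ a) : ℂ) * z a‖ ^ 2 : ℝ) : ℂ) =
        ∑ a, ∑ b, ((sg (σ a) * sg (σ b) : ℝ) : ℂ) * (conj (z a) * z b) := by
      push_cast
      rw [← conj_mul', map_sum, Finset.sum_mul_sum]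
      refine Finset.sum_congr rfl fun a _ => Finset.sum_congr rfl fun b _ => ?_
      simp only [map_mul, conj_ofReal]; ring
    have h2 := congrArg re this
    simpa only [ofReal_re, re_sum, re_ofReal_mul] using h2
  simp only [h, Finset.expect_sum_comm, ← Finset.expect_mul, expect_sg]
  refine Finset.sum_congr rfl fun a _ => ?_
  simp only [ite_mul, one_mul, zero_mul, Finset.sum_ite_eq, Finset.mem_univ, if_true]
  rw [conj_mul', ← ofReal_pow, ofReal_re]

lemma sum_n2_proj_mul {k : ℕ} {p : Fin k → A} (hp : ∀ a, IsStarProjection (p a))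
    (hs : ∑ a, p a = 1) (D : A) : ∑ a, T.n2 (p a * D) ^ 2 = T.n2 D ^ 2 := by
  simp only [T.n2_sq, star_mul, (hp _).isSelfAdjoint.star_eq]
  rw [← re_sum, ← map_sum]
  congr 2
  have : ∀ a, star D * p a * (p a * D) = star D * p a * D := fun a => by
    rw [mul_assoc, ← mul_assoc (p a), (hp a).isIdempotentElem.eq, mul_assoc]
  simp only [this]
  rw [← Finset.sum_mul, ← Finset.mul_sum, hs, mul_one]

lemma norm_expect_sub_le {Ω : Type} [Fintype Ω] [Nonempty Ω] {f : Ω → ℂ} {z : ℂ} {e : ℝ}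
    (h : ∀ ω, ‖f ω - z‖ ≤ e) : ‖𝔼 ω, f ω - z‖ ≤ e := by
  have : 𝔼 ω, f ω - z = 𝔼 ω, (f ω - z) := by
    rw [Finset.expect_sub_distrib, Fintype.expect_const]
  rw [this]
  refine (RCLike.norm_expect_le (K := ℝ)).trans ?_
  exact Finset.expect_le Finset.univ_nonempty fun ω _ => h ω

lemma expect_prod {α β : Type} [Fintype α] [Fintype β] {M : Type} [AddCommMonoid M]
    [Module ℚ≥0 M] (f : α × β → M) : 𝔼 x, f x = 𝔼 a, 𝔼 b, f (a, b) := by
  rw [← Finset.univ_product_univ, Finset.expect_product]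

lemma exists_w {S : StarSubalgebra ℂ A} (hD : T.Dix S) (hP : T.Part S 1) (F : Finset A)
    {ε : ℝ} (hε : 0 < ε) :
    ∃ (Ω : Type) (_ : Fintype Ω) (_ : Nonempty Ω) (w : Ω → A),
      (∀ ω, w ω ∈ S ∧ w ω ∈ unitary A) ∧
      (∀ B ∈ F, ∀ C, ‖𝔼 ω, T.τ (w ω * B * star (w ω) * C) - T.τ B * T.τ C‖ ≤ ε * ‖C‖ ∧
        ‖𝔼 ω, T.τ (star (w ω) * B * w ω * C) - T.τ B * T.τ C‖ ≤ ε * ‖C‖) ∧
      ∀ C, 𝔼 ω, ‖T.τ (w ω * C)‖ ^ 2 ≤ ε * ‖C‖ ^ 2 ∧
        𝔼 ω, ‖T.τ (star (w ω) * C)‖ ^ 2 ≤ ε * ‖C‖ ^ 2 := by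
  obtain ⟨κ, _, _, α, hα, hav⟩ := hD F ε hε
  obtain ⟨k, p, hp, horth, hsum⟩ := hP ε hε
  set r : (Fin k → Bool) → A := fun σ => ∑ a, (sg (σ a) : ℂ) • p a with hr
  have hrS : ∀ σ, r σ ∈ S := fun σ => S.sum_mem fun a _ => S.smul_mem (hp a).1 _
  have hrs : ∀ σ, star (r σ) = r σ := fun σ => by
    simp only [hr, star_sum, star_smul, (hp _).2.1.isSelfAdjoint.star_eq, star_def, conj_ofReal]
  have hrr : ∀ σ, r σ * r σ = 1 := fun σ => by
    simp only [hr]
    rw [Finset.sum_mul_sum, ← hsum]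
    refine Finset.sum_congr rfl fun a _ => ?_
    rw [Finset.sum_eq_single a (fun b _ hb => by
      rw [smul_mul_smul_comm, horth a b (Ne.symm hb), smul_zero]) (by simp)]
    rw [smul_mul_smul_comm, (hp a).2.1.isIdempotentElem.eq, ← ofReal_mul, sg_mul_self]; simp
  have hru : ∀ σ, r σ ∈ unitary A := fun σ => Unitary.mem_iff.2 (by simp [hrs, hrr])
  have key1 : ∀ B ∈ F, ∀ (C U : A), U ∈ unitary A →
      ‖𝔼 b : κ, T.τ (U * α b * B * star (α b) * star U * C) - T.τ B * T.τ C‖ ≤ ε * ‖C‖ := by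
    intro B hB C U hU
    have e : 𝔼 b : κ, T.τ (U * α b * B * star (α b) * star U * C) - T.τ B * T.τ C =
        T.τ (U * ((Fintype.card κ : ℂ)⁻¹ • ∑ b, α b * B * star (α b) - T.τ B • (1 : A)) *
          star U * C) := by
      rw [Fintype.expect_eq_sum_div_card]
      simp only [mul_sub, sub_mul, map_sub, mul_smul_comm, smul_mul_assoc, map_smul, mul_one,
        Unitary.mul_star_self_of_mem hU, one_mul, smul_eq_mul, Finset.mul_sum, Finset.sum_mul,
        map_sum, mul_assoc, div_eq_inv_mul]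
    rw [e]
    refine (T.norm_τ_le_n2 _).trans ((T.n2_mul_le' _ _).trans ?_)
    rw [T.n2_mul_unitary (Unitary.star_mem hU), T.n2_unitary_mul hU]
    exact mul_le_mul_of_nonneg_right (hav B hB) (norm_nonneg _)
  have key2 : ∀ (C U V : A), U ∈ unitary A → V ∈ unitary A →
      𝔼 σ : Fin k → Bool, ‖T.τ (U * r σ * V * C)‖ ^ 2 ≤ ε * ‖C‖ ^ 2 := by
    intro C U V hU hV
    have e : ∀ σ, T.τ (U * r σ * V * C) = ∑ a, (sg (σ a) : ℂ) * T.τ (p a * (V * C * U)) := by
      intro σ
      rw [mul_assoc, mul_assoc, T.comm U]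
      simp only [hr, Finset.sum_mul, map_sum, smul_mul_assoc, map_smul, smul_eq_mul, mul_assoc]
    simp only [e, expect_sg_sq]
    have h1 : ∀ a, ‖T.τ (p a * (V * C * U))‖ ^ 2 ≤ ε * T.n2 (p a * (V * C * U)) ^ 2 := by
      intro a
      have h2 := T.cs' (p a) (p a * (V * C * U))
      rw [← mul_assoc, (hp a).2.1.isIdempotentElem.eq] at h2
      have h3 : T.n2 (p a) ^ 2 ≤ ε := by rw [T.n2_proj_sq (hp a).2.1]; exact (hp a).2.2.2
      calc _ ≤ (T.n2 (p a) * T.n2 (p a * (V * C * U))) ^ 2 := by gcongr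
        _ ≤ _ := by rw [mul_pow]; gcongr
    refine (Finset.sum_le_sum fun a _ => h1 a).trans ?_
    rw [← Finset.mul_sum, sum_n2_proj_mul (fun a => (hp a).2.1) hsum, T.n2_mul_unitary hU,
      T.n2_unitary_mul hV]
    have := T.n2_le_norm C
    have := T.n2_nonneg C
    gcongr
  refine ⟨κ × κ × (Fin k → Bool), inferInstance, inferInstance,
    fun ω => star (α ω.1) * r ω.2.2 * α ω.2.1, fun ω => ⟨?_, ?_⟩, fun B hB C => ⟨?_, ?_⟩,
    fun C => ⟨?_, ?_⟩⟩
  · exact mul_mem (mul_mem (star_mem (hα _).1) (hrS _)) (hα _).1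
  · exact mul_mem (mul_mem (Unitary.star_mem (hα _).2) (hru _)) (hα _).2
  · rw [expect_prod]
    refine norm_expect_sub_le fun a => ?_
    rw [expect_prod, Finset.expect_comm]
    refine norm_expect_sub_le fun σ => ?_
    simpa only [star_mul, mul_assoc] using
      key1 B hB C _ (mul_mem (Unitary.star_mem (hα a).2) (hru σ))
  · rw [expect_prod, Finset.expect_comm]
    refine norm_expect_sub_le fun y => ?_
    simpa only [star_mul, mul_assoc, star_star, hrs] using
      key1 B hB C _ (mul_mem (Unitary.star_mem (hα y.1).2) (hru y.2))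
  · rw [expect_prod]
    refine Finset.expect_le Finset.univ_nonempty fun a _ => ?_
    rw [expect_prod]
    refine Finset.expect_le Finset.univ_nonempty fun b _ => ?_
    simpa only using key2 C _ _ (Unitary.star_mem (hα a).2) (hα b).2
  · rw [expect_prod]
    refine Finset.expect_le Finset.univ_nonempty fun a _ => ?_
    rw [expect_prod]
    refine Finset.expect_le Finset.univ_nonempty fun b _ => ?_
    simpa only [star_mul, mul_assoc, star_star, hrs] using
      key2 C _ _ (Unitary.star_mem (hα b).2) (hα a).2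

/-- real and imaginary part, normalised -/
noncomputable def xw (w : A) : Bool → A
  | true => ((√2 : ℝ) : ℂ)⁻¹ • (w + star w)
  | false => (((√2 : ℝ) : ℂ)⁻¹ * I) • (w - star w)

lemma sqrt_two_inv_mul : ((√2 : ℝ) : ℂ)⁻¹ * ((√2 : ℝ) : ℂ)⁻¹ = 2⁻¹ := by
  rw [← mul_inv, ← ofReal_mul, Real.mul_self_sqrt (by norm_num)]; simp

lemma norm_sqrt_two_inv : ‖((√2 : ℝ) : ℂ)⁻¹‖ ≤ 1 := by
  rw [norm_inv, norm_real, Real.norm_eq_abs, abs_of_nonneg (Real.sqrt_nonneg _)]
  exact inv_le_one_of_one_le₀ Real.one_lt_sqrt_two.le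

theorem src_exists {S : StarSubalgebra ℂ A} (hD : T.Dix S) (hP : T.Part S 1) :
    ∃ R : Src T, ∀ j ω, R.X j ω ∈ S := by
  choose Ω fin ne w hw ha hb using fun j : Finset A × ℕ =>
    exists_w hD hP j.1 (ε := 1 / ((j.2 : ℝ) + 1)) (by positivity)
  have hlim : Tendsto (fun j : Finset A × ℕ => 1 / ((j.2 : ℝ) + 1)) atTop (𝓝 0) := by
    refine tendsto_one_div_add_atTop_nhds_zero_nat.comp ?_
    rw [← prod_atTop_atTop_eq]; exact tendsto_snd
  have hmem : ∀ B : A, ∀ᶠ j : Finset A × ℕ in atTop, B ∈ j.1 := fun B =>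
    (eventually_ge_atTop (({B}, 0) : Finset A × ℕ)).mono fun j hj => hj.1 (by simp)
  refine ⟨⟨Finset A × ℕ, atTop, inferInstance, fun j => Ω j × Bool, fun j => inferInstance,
    fun j => inferInstance, fun j ω => xw (w j ω.1) ω.2, ?_, ?_, fun B C => ?_, fun C => ?_⟩, ?_⟩
  · rintro j ⟨ω, _ | _⟩
    · simp only [xw, star_smul, star_sub, star_star, star_mul', star_def, conj_I, map_inv₀,
        conj_ofReal]
      rw [← neg_sub (w j ω), smul_neg, mul_neg, neg_smul, neg_neg]
    · simp [xw, add_comm]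
  · rintro j ⟨ω, _ | _⟩
    · have h1 := norm_unitary_le (hw j ω).2
      have h2 := norm_sub_le (w j ω) (star (w j ω))
      rw [norm_star] at h2
      simp only [xw, norm_smul, norm_mul, norm_I, mul_one]
      nlinarith [norm_sqrt_two_inv, norm_nonneg (w j ω - star (w j ω))]
    · have h1 := norm_unitary_le (hw j ω).2
      have h2 := norm_add_le (w j ω) (star (w j ω))
      rw [norm_star] at h2
      simp only [xw, norm_smul]
      nlinarith [norm_sqrt_two_inv, norm_nonneg (w j ω + star (w j ω))]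
  · rw [tendsto_iff_norm_sub_tendsto_zero]
    refine squeeze_zero' (Eventually.of_forall fun _ => norm_nonneg _) ?_
      (by simpa using hlim.mul_const ‖C‖)
    filter_upwards [hmem B] with j hj
    obtain ⟨h1, h2⟩ := ha j B hj C
    have e : 𝔼 ω : Ω j × Bool, T.τ (xw (w j ω.1) ω.2 * B * xw (w j ω.1) ω.2 * C) =
        2⁻¹ * 𝔼 ω, T.τ (w j ω * B * star (w j ω) * C) +
          2⁻¹ * 𝔼 ω, T.τ (star (w j ω) * B * w j ω * C) := by
      rw [expect_prod, Finset.mul_expect, Finset.mul_expect,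
        ← Finset.expect_add_distrib]
      refine Finset.expect_congr rfl fun ω _ => ?_
      rw [Fintype.expect_eq_sum_div_card, Fintype.sum_bool]
      simp only [xw, smul_mul_assoc, mul_smul_comm, smul_smul, map_smul, smul_eq_mul, add_mul,
        mul_add, sub_mul, mul_sub, map_add, map_sub, Fintype.card_bool]
      have h3 := sqrt_two_inv_mul
      set s := ((√2 : ℝ) : ℂ)⁻¹
      push_cast
      set t1 := T.τ (w j ω * B * w j ω * C)
      set t2 := T.τ (star (w j ω) * B * w j ω * C)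
      set t3 := T.τ (w j ω * B * star (w j ω) * C)
      set t4 := T.τ (star (w j ω) * B * star (w j ω) * C)
      linear_combination (t2 + t3) * h3 + (s * s * (t1 - t2 - t3 + t4) / 2) * I_mul_I
    rw [e]
    have e2 : ∀ a b z : ℂ, 2⁻¹ * a + 2⁻¹ * b - z = 2⁻¹ * (a - z) + 2⁻¹ * (b - z) := by
      intros; ring
    rw [e2]
    refine (norm_add_le _ _).trans ?_
    simp only [norm_mul, norm_inv, Complex.norm_ofNat]
    simp only [one_div] at h1 h2
    linarith
  · refine squeeze_zero (fun j => expect_sq_nonneg _) (fun j => ?_)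
      (by simpa using hlim.mul_const (4 * ‖C‖ ^ 2))
    obtain ⟨h1, h2⟩ := hb j C
    have : 𝔼 ω : Ω j × Bool, ‖T.τ (xw (w j ω.1) ω.2 * C)‖ ^ 2 ≤
        2 * 𝔼 ω, ‖T.τ (w j ω * C)‖ ^ 2 + 2 * 𝔼 ω, ‖T.τ (star (w j ω) * C)‖ ^ 2 := by
      rw [expect_prod, Finset.mul_expect, Finset.mul_expect,
        ← Finset.expect_add_distrib]
      refine Finset.expect_le_expect fun ω _ => Finset.expect_le Finset.univ_nonempty fun b _ => ?_
      have h3 : ‖T.τ (xw (w j ω) b * C)‖ ≤ ‖T.τ (w j ω * C)‖ + ‖T.τ (star (w j ω) * C)‖ := by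
        cases b
        · simp only [xw, smul_mul_assoc, map_smul, sub_mul, map_sub, norm_smul, norm_mul, norm_I,
            mul_one]
          exact (mul_le_of_le_one_left (norm_nonneg _) norm_sqrt_two_inv).trans (norm_sub_le _ _)
        · simp only [xw, smul_mul_assoc, map_smul, add_mul, map_add, norm_smul]
          exact (mul_le_of_le_one_left (norm_nonneg _) norm_sqrt_two_inv).trans (norm_add_le _ _)
      have h4 : ‖T.τ (xw (w j ω) b * C)‖ ^ 2 ≤
          (‖T.τ (w j ω * C)‖ + ‖T.τ (star (w j ω) * C)‖) ^ 2 := by gcongr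
      nlinarith [sq_nonneg (‖T.τ (w j ω * C)‖ - ‖T.τ (star (w j ω) * C)‖)]
    simp only [one_div] at h1 h2
    linarith
  · rintro j ⟨ω, _ | _⟩
    · exact S.smul_mem (sub_mem (hw j ω).1 (star_mem (s := S) (hw j ω).1)) _
    · exact S.smul_mem (add_mem (hw j ω).1 (star_mem (s := S) (hw j ω).1)) _

/-- conjugating a source by a unitary -/
def Src.conj (R : Src T) {γ : A} (hγ : γ ∈ unitary A) : Src T where
  J := R.J
  F := R.F
  ne := R.ne
  Ω := R.Ω
  fin := R.fin
  nonempty := R.nonempty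
  X j ω := γ * R.X j ω * star γ
  sa j ω := by simp [R.sa, mul_assoc]
  bd j ω := by
    rw [CStarRing.norm_mul_mem_unitary _ (Unitary.star_mem hγ),
      CStarRing.norm_mem_unitary_mul _ hγ]; exact R.bd j ω
  ha B C := by
    have h := R.ha (star γ * B * γ) (star γ * C * γ)
    have e : ∀ D, T.τ (star γ * D * γ) = T.τ D := fun D => by
      rw [T.comm, ← mul_assoc, Unitary.mul_star_self_of_mem hγ, one_mul]
    rw [e, e] at h
    refine h.congr fun j => Finset.expect_congr rfl fun ω _ => ?_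
    rw [← mul_assoc _ _ γ, T.comm _ γ]; simp only [mul_assoc]
  hb C := by
    refine (R.hb (star γ * C * γ)).congr fun j => Finset.expect_congr rfl fun ω _ => ?_
    rw [← mul_assoc _ _ γ, T.comm _ γ]; simp only [mul_assoc]

end Crest.Agent.GEN
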