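import Crest.Agent.GEN.Rot

/-! The steering step in the free model. -/

set_option autoImplicit false
set_option linter.unusedSectionVars false
open NormedSpace Filter Topology
open scoped Classical BigOperators ComplexConjugate

namespace Crest.Agent.GEN

universe u
open Tok

/-- universal constant -/
noncomputable def KK0 : ℝ := 100 * (Real.exp 4 + 1) ^ 2

theorem exact_step {B : Type u} [CStarAlgebra B] {L : ℕ} (hL : 2 ≤ L) (Φ : FreeD B (Fin (L + 1)))
    (hz : Φ.z = Fin.last L) {x p : B} (hx : x ∈ Φ.M) (hxu : x ∈ unitary B) (hp : p ∈ Φ.M)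
    (hpp : IsStarProjection p) :
    ∃ s ∈ unitary B, ∃ μ ν : ℂ, ‖μ‖ = 1 ∧ ‖ν‖ = 1 ∧
      Φ.T.n2 (μ • (((List.finRange L).map fun i =>
        Φ.g i.castSucc * s * star (Φ.g i.castSucc)).prod * Φ.g (Fin.last L) * p) - x * p) ≤
          20 * (Φ.T.τ p).re + KK0 / L ∧
      Φ.T.n2 (ν • s - 1) ≤ √(8 * KK0 / L) + KK0 / L := by
  have hL0 : (2 : ℝ) ≤ L := by exact_mod_cast hL
  have hpi := Real.pi_le_four
  have hpi0 := Real.pi_pos
  have he := Real.exp_pos 4
  set T := Φ.T with hT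
  set γ := Φ.g (Fin.last L) with hγ
  have hγu : γ ∈ unitary B := Φ.hg _
  have hγD : γ ∈ Φ.D := by rw [hγ, ← hz]; exact FreeD.g_mem_D
  have hγD' : star γ ∈ Φ.D := by rw [hγ, ← hz]; exact FreeD.star_g_mem_D
  have hps := hpp.isSelfAdjoint.star_eq
  have hpi' := hpp.isIdempotentElem.eq
  have hiso : ∀ {w : B}, w ∈ unitary B → star (w * p) * (w * p) = p := fun {w} hw => by
    rw [star_mul, hps, mul_assoc, ← mul_assoc (star w), Unitary.star_mul_self_of_mem hw, one_mul,
      hpi']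
  set η : ℝ := Real.pi / 2 / L with hη
  have h0 : 0 ≤ η := by positivity
  have hηL : η ≤ 2 / L := by rw [hη]; gcongr; linarith
  have h1 : η ≤ 1 := hηL.trans (by rw [div_le_one (by linarith)]; exact hL0)
  set Bm := x * p * star (γ * p) - γ * p * star (x * p) with hBm
  have hB : star Bm = -Bm := by simp [hBm, mul_assoc]
  have hBD : Bm ∈ Φ.D := by
    rw [hBm, star_mul, star_mul, hps]
    have a1 := FreeD.M_mem_D hx
    have a2 := FreeD.M_mem_D hp
    have a3 := FreeD.M_mem_D (star_mem hx)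
    exact sub_mem (mul_mem (mul_mem a1 a2) (mul_mem a2 hγD')) (mul_mem (mul_mem hγD a2)
      (mul_mem a2 a3))
  have hnp : ∀ {w : B}, w ∈ unitary B → ‖w * p‖ ≤ 1 := fun hw => by
    rw [CStarRing.norm_mem_unitary_mul _ hw]; exact hpp.norm_le
  have hB2 : ‖Bm‖ ≤ 2 := by
    refine (norm_sub_le _ _).trans ?_
    have a1 := norm_mul_le (x * p) (star (γ * p))
    have a2 := norm_mul_le (γ * p) (star (x * p))
    rw [norm_star] at a1 a2
    nlinarith [hnp hγu, hnp hxu, norm_nonneg (x * p), norm_nonneg (γ * p)]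
  set κ := T.n2 p with hκ
  have hκ0 : 0 ≤ κ := T.n2_nonneg p
  have hκ1 : κ ≤ 1 := (T.n2_le_norm p).trans hpp.norm_le
  have hκc : κ ^ 2 = (T.τ p).re := T.n2_proj_sq hpp
  have hBn : T.n2 Bm ≤ 2 * κ := by
    refine (T.n2_sub_le _ _).trans ?_
    have a1 := T.n2_mul_le' (x * p) (star (γ * p))
    have a2 := T.n2_mul_le' (γ * p) (star (x * p))
    rw [norm_star, T.n2_unitary_mul hxu] at a1
    rw [norm_star, T.n2_unitary_mul hγu] at a2
    nlinarith [hnp hγu, hnp hxu]
  set t := exp ((η : ℂ) • Bm) with ht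
  have htu : t ∈ unitary B := exp_smul_unitary hB η
  have htD : t ∈ Φ.D := exp_mem_closed _ Φ.isClosed_D (Φ.D.smul_mem hBD _)
  have htD' : star t ∈ Φ.D := by
    rw [ht, star_exp, star_smul, hB]
    exact exp_mem_closed _ Φ.isClosed_D (Φ.D.smul_mem (neg_mem hBD) _)
  set β := 2 * η * κ + 4 * Real.exp 4 * η ^ 2 with hβ
  have hβ0 : 0 ≤ β := by positivity
  have ht1 : T.n2 (t - 1) ≤ β := by
    have e : t - 1 = (t - (1 + (η : ℂ) • Bm)) + (η : ℂ) • Bm := by abel
    rw [e]
    refine (T.n2_add_le _ _).trans ?_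
    rw [T.n2_smul, Complex.norm_real, Real.norm_eq_abs, abs_of_nonneg h0]
    have := (T.n2_le_norm _).trans (norm_exp_sub_le hB2 h0 h1)
    nlinarith
  have hl1 : ‖T.τ t‖ ≤ 1 := (T.norm_τ_le_n2 t).trans (T.n2_unitary htu).le
  have hl2 : 1 - ‖T.τ t‖ ^ 2 ≤ β ^ 2 := by
    have a1 := Tr.n2_cen_sq (T := T) t
    have a2 := Tr.n2_cen_le (T := T) (t - 1)
    have a3 : T.cen (t - 1) = T.cen t := by simp [Tr.cen, T.map_one, sub_smul]
    rw [T.n2_unitary htu] at a1
    rw [a3] at a2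
    nlinarith [T.n2_nonneg (T.cen t)]
  set s := ((List.finRange L).map fun j => star (Φ.g j.castSucc) * t * Φ.g j.castSucc).prod
    with hs
  have hsu : s ∈ unitary B := list_prod_unitary _ fun j =>
    mul_mem (mul_mem (Unitary.star_mem (Φ.hg _)) htu) (Φ.hg _)
  set l0 := (List.finRange L).map Fin.castSucc with hl0
  have hl0n : l0.Nodup := (List.nodup_finRange L).map (Fin.castSucc_injective L)
  have hl0z : ∀ i ∈ l0, i ≠ Φ.z := by
    intro i hi
    obtain ⟨j, -, rfl⟩ := List.mem_map.1 hi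
    rw [hz]; exact (Fin.castSucc_lt_last j).ne
  have hl0l : l0.length = L := by simp [hl0]
  have hconj : ∀ i, Φ.g i * s * star (Φ.g i) = (l0.map fun j => Φ.Y t (i, j)).prod := fun i => by
    rw [hs, conj_list_prod (Φ.hg i), hl0, List.map_map]
    simp only [FreeD.Y, Function.comp_def, mul_assoc]
  have main : ∀ l1 : List (Fin (L + 1)), l1.Nodup → (∀ i ∈ l1, i ∈ l0) → ∀ b ∈ Φ.D,
      star b ∈ Φ.D → ∃ μ : ℂ, ‖μ‖ = 1 ∧
      T.n2 (μ • ((l1.map fun i => Φ.g i * s * star (Φ.g i)).prod * b) - t ^ l1.length * b) ^ 2 ≤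
        2 * (l1.length * L) * β ^ 2 * T.n2 b ^ 2 := by
    intro l1 hn hsub b hb hb'
    have h2 := FreeD.τ_prod_Y htD (mul_mem (mul_mem hb hb') (pow_mem htD' l1.length))
      (l1 ×ˢ l0) (hn.product hl0n) (fun q hq => by
        obtain ⟨a1, a2⟩ := List.pair_mem_product.1 (show (q.1, q.2) ∈ l1 ×ˢ l0 from hq)
        exact ⟨hl0z _ (hsub _ a1), hl0z _ a2⟩)
    rw [countP_diag _ _ fun i hi => List.count_eq_one_of_mem hl0n (hsub i hi), prod_product,
      ← star_pow, mul_assoc _ (star (t ^ l1.length)) (t ^ l1.length),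
      Unitary.star_mul_self_of_mem (pow_mem htu _), mul_one, T.comm b] at h2
    simp only [← hconj] at h2
    obtain ⟨μ, hμ, h3⟩ := phase (T := T) (list_prod_unitary l1 fun i =>
      mul_mem (mul_mem (Φ.hg i) hsu) (Unitary.star_mem (Φ.hg i))) (pow_mem htu _) hl1 _ h2
    refine ⟨μ, hμ, h3.trans ?_⟩
    have h4 : (((l1 ×ˢ l0).countP fun p => p.1 ≠ p.2 : ℕ) : ℝ) ≤ l1.length * L := by
      have := List.countP_le_length (p := fun p : Fin (L + 1) × Fin (L + 1) => p.1 ≠ p.2)
        (l := l1 ×ˢ l0)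
      rw [List.length_product, hl0l] at this
      exact_mod_cast this
    have h5 : 0 ≤ 1 - ‖T.τ t‖ ^ 2 := by nlinarith [norm_nonneg (T.τ t)]
    gcongr
  obtain ⟨μ, hμ, m1⟩ := main l0 hl0n (fun _ h => h) (γ * p) (mul_mem hγD (FreeD.M_mem_D hp))
    (by rw [star_mul, hps]; exact mul_mem (FreeD.M_mem_D hp) hγD')
  let i0 : Fin (L + 1) := (⟨0, by omega⟩ : Fin L).castSucc
  obtain ⟨ν, hν, m2⟩ := main [i0] (by simp) (fun i hi => by
    obtain rfl := List.mem_singleton.1 hi
    exact List.mem_map.2 ⟨_, List.mem_finRange _, rfl⟩) 1 (one_mem _) (by simp)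
  have hLβ : L * β ≤ 4 * κ + 16 * Real.exp 4 / L := by
    have a1 : L * η ≤ 2 := by rwa [le_div_iff₀' (by linarith)] at hηL
    have a2 : L * η ^ 2 ≤ 4 / L := by
      calc L * η ^ 2 = L * η * η := by ring
        _ ≤ 2 * (2 / L) := mul_le_mul a1 hηL h0 (by norm_num)
        _ = _ := by ring
    have a3 : L * β = 2 * (L * η) * κ + 4 * Real.exp 4 * (L * η ^ 2) := by rw [hβ]; ring
    have a4 : 16 * Real.exp 4 / L = 4 * Real.exp 4 * (4 / L) := by ring
    rw [a3, a4]
    have := mul_le_mul_of_nonneg_left a2 (by positivity : 0 ≤ 4 * Real.exp 4)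
    nlinarith
  have hK1 : 64 * Real.exp 4 + 8 ≤ KK0 := by unfold KK0; nlinarith
  refine ⟨s, hsu, μ, ν, hμ, hν, ?_, ?_⟩
  · have r1 := rot (T := T) hpp (hiso hγu) (hiso hxu) (by rw [mul_assoc, hpi'])
      (by rw [mul_assoc, hpi']) hL
    have r2 : T.n2 (star (x * p) * (γ * p)) = κ ^ 2 := by
      have hτp : T.τ p = ((κ ^ 2 : ℝ) : ℂ) := T.τ_proj hpp
      set q := x * p * star x with hq
      have hτq : T.τ q = ((κ ^ 2 : ℝ) : ℂ) := by
        rw [hq, T.comm, ← mul_assoc, Unitary.star_mul_self_of_mem hxu, one_mul, hτp]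
      have f1 := Φ.free [l (Fin.last L) true, c (T.cen p), l (Fin.last L) false, c (T.cen q)]
        (by simp) ⟨by simp [Adj], by simp [← hT]⟩ (by
          have : q ∈ Φ.M := mul_mem (mul_mem hx hp) (star_mem hx)
          simp only [List.mem_cons, reduceCtorEq, c.injEq, List.not_mem_nil, or_false, false_or,
            forall_eq_or_imp, forall_eq]
          exact ⟨sub_mem hp (Φ.M.smul_mem (one_mem _) _), sub_mem this (Φ.M.smul_mem (one_mem _) _)⟩)
      simp only [wval_cons, wval_nil, val, mul_one, ← hγ, ← hT] at f1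
      have f2 : T.τ (γ * (p * star γ)) = ((κ ^ 2 : ℝ) : ℂ) := by
        rw [T.comm, mul_assoc, Unitary.star_mul_self_of_mem hγu, mul_one, hτp]
      have f3 : T.τ (γ * (p * (star γ * q))) = ((κ ^ 2 * κ ^ 2 : ℝ) : ℂ) := by
        simp only [Tr.cen, mul_sub, sub_mul, map_sub, mul_smul_comm, smul_mul_assoc, map_smul,
          mul_one, one_mul, smul_eq_mul, ← mul_assoc γ (star γ), T.map_one,
          Unitary.mul_star_self_of_mem hγu, hτp, hτq, f2] at f1
        push_cast at f1 ⊢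
        linear_combination f1
      have f4 : T.τ (star (star (x * p) * (γ * p)) * (star (x * p) * (γ * p))) =
          T.τ (γ * (p * (star γ * q))) := by
        simp only [star_mul, star_star, hps, hq, mul_assoc]
        rw [← mul_assoc p p, hpi']
        calc _ = T.τ ((p * (star γ * (x * (p * star x)))) * (γ * p)) := by simp only [mul_assoc]
          _ = _ := by rw [T.comm, mul_assoc, ← mul_assoc p p, hpi']
      rw [T.n2_eq_sqrt, f4, f3, Complex.ofReal_re, Real.sqrt_mul_self (sq_nonneg _)]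
    rw [r2] at r1
    rw [hl0l, T.n2_unitary_mul hγu, hl0, List.map_map] at m1
    have m3 : 2 * ((L : ℝ) * L) * β ^ 2 * κ ^ 2 ≤ (2 * (L * β) * κ) ^ 2 := by
      nlinarith [sq_nonneg (L * β * κ)]
    have m4 := (abs_le_of_sq_le_sq' (m1.trans m3) (by positivity)).2
    have m5 := (T.n2_triangle _ _ _).trans (add_le_add m4 r1)
    rw [mul_assoc _ γ p]
    refine m5.trans ?_
    have m6 : 2 * (L * β) * κ ≤ 8 * κ ^ 2 + 32 * Real.exp 4 / L := by
      have a1 := mul_le_mul_of_nonneg_right hLβ hκ0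
      have a2 : 16 * Real.exp 4 / L * κ ≤ 16 * Real.exp 4 / L :=
        mul_le_of_le_one_right (by positivity) hκ1
      have a3 : 32 * Real.exp 4 / L = 2 * (16 * Real.exp 4 / L) := by ring
      nlinarith
    have m7 : 32 * Real.exp 4 / L + 4 * (8 * Real.exp 4 + 2) / L ≤ KK0 / L := by
      rw [← add_div]; gcongr; linarith
    rw [← hκc]; nlinarith
  · simp only [List.map_cons, List.map_nil, List.prod_cons, List.prod_nil, mul_one,
      List.length_singleton, pow_one, T.n2_one, one_pow, Nat.cast_one, one_mul] at m2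
    have e : ν • s - 1 = star (Φ.g i0) * (ν • (Φ.g i0 * s * star (Φ.g i0)) - 1) * Φ.g i0 := by
      simp only [mul_sub, sub_mul, mul_smul_comm, smul_mul_assoc, mul_one, mul_assoc,
        Unitary.star_mul_self_of_mem (Φ.hg i0)]
      rw [← mul_assoc, Unitary.star_mul_self_of_mem (Φ.hg i0), one_mul]
    rw [e, T.n2_mul_unitary (Φ.hg _), T.n2_unitary_mul (Unitary.star_mem (Φ.hg _))]
    have b1 : L * β ≤ 4 + 8 * Real.exp 4 := by
      have : 16 * Real.exp 4 / L ≤ 8 * Real.exp 4 := by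
        rw [div_le_iff₀ (by linarith)]; nlinarith
      linarith
    have b2 : β ≤ KK0 / L := by rw [le_div_iff₀' (by linarith)]; linarith
    have b3 : 2 * (L : ℝ) * β ^ 2 ≤ 8 * KK0 / L := by
      rw [le_div_iff₀ (by linarith)]
      have : (L * β) ^ 2 ≤ (4 + 8 * Real.exp 4) ^ 2 := by gcongr
      unfold KK0; nlinarith
    exact (T.n2_triangle _ t _).trans (add_le_add (Real.le_sqrt_of_sq_le (m2.trans b3))
      (ht1.trans b2))

end Crest.Agent.GEN
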