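import Crest.Agent.GEN.Corner

/-! Two commuting towers of projections with trivial relative commutant. -/

set_option autoImplicit false
open scoped ComplexOrder ComplexConjugate InnerProductSpace
open Filter Topology

namespace Crest.Agent.GEN

universe u
variable {A : Type u} [CStarAlgebra A]

/-- A finite partition of `f` into projections of positive trace. -/
structure Pt (T : Tr A) (f : A) where
  ι : Type
  fin : Fintype ι
  q : ι → A
  proj : ∀ i, IsStarProjection (q i)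
  pos : ∀ i, 0 < (T.τ (q i)).re
  orth : ∀ i j, i ≠ j → q i * q j = 0
  sum : ∑ i, q i = f

attribute [instance] Pt.fin

namespace Pt
variable {T : Tr A} {f : A}

lemma sq (P : Pt T f) (i : P.ι) : P.q i * P.q i = P.q i := (P.proj i).isIdempotentElem.eq
lemma star_q (P : Pt T f) (i : P.ι) : star (P.q i) = P.q i := (P.proj i).isSelfAdjoint.star_eq

lemma mul_f (P : Pt T f) (i : P.ι) : P.q i * f = P.q i := by
  refine (congrArg (P.q i * ·) P.sum.symm).trans ?_
  rw [Finset.mul_sum,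
    Finset.sum_eq_single i (fun b _ hb => P.orth i b hb.symm) (by simp), P.sq]

/-- The trivial partition. -/
def one (hf : IsStarProjection f) (h0 : 0 < (T.τ f).re) : Pt T f where
  ι := Unit
  fin := inferInstance
  q := fun _ => f
  proj := fun _ => hf
  pos := fun _ => h0
  orth := fun i j h => absurd (Subsingleton.elim i j) h
  sum := by simp

/-- Refinement. -/
def Ref (P' P : Pt T f) : Prop := ∀ j, ∃ i, P'.q j * P.q i = P'.q j

lemma Ref.refl (P : Pt T f) : Ref P P := fun j => ⟨j, P.sq j⟩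

lemma Ref.trans {P Q R : Pt T f} (h1 : Ref P Q) (h2 : Ref Q R) : Ref P R := fun j => by
  obtain ⟨i, hi⟩ := h1 j
  obtain ⟨k, hk⟩ := h2 i
  exact ⟨k, by rw [← hi, mul_assoc, hk]⟩

lemma Ref.comm {P Q : Pt T f} (h : Ref P Q) (j : P.ι) (i : Q.ι) :
    P.q j * Q.q i = Q.q i * P.q j := by
  obtain ⟨k, hk⟩ := h j
  have hs : P.q j * Q.q i = star (P.q j * Q.q i) := by
    by_cases hik : k = i
    · rw [← hik, hk, P.star_q]
    · rw [← hk, mul_assoc, Q.orth k i hik, mul_zero, star_zero]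
  rw [hs, star_mul, P.star_q, Q.star_q]

/-- Pinching. -/
def pinch (P : Pt T f) (x : A) : A := ∑ i, P.q i * x * P.q i

lemma pinch_sub (P : Pt T f) (x y : A) : P.pinch (x - y) = P.pinch x - P.pinch y := by
  simp [pinch, mul_sub, sub_mul]

lemma q_pinch_q (P : Pt T f) (x : A) (i : P.ι) :
    P.q i * P.pinch x * P.q i = P.q i * x * P.q i := by
  rw [pinch, Finset.mul_sum, Finset.sum_mul, Finset.sum_eq_single i _ (by simp)]
  · simp only [← mul_assoc, P.sq]; rw [mul_assoc _ (P.q i), P.sq]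
  · intro b _ hb
    simp only [← mul_assoc, P.orth i b hb.symm, zero_mul]

lemma n2_pinch_le (P : Pt T f) (x : A) : T.n2 (P.pinch x) ≤ T.n2 x := by
  have h1 : T.τ (star (P.pinch x) * P.pinch x) = T.τ (star (P.pinch x) * x) := by
    have hs : star (P.pinch x) = P.pinch (star x) := by
      simp [pinch, star_sum, P.star_q, mul_assoc]
    have h2 : ∀ y, T.τ (P.pinch (star x) * P.pinch y) = T.τ (P.pinch (star x) * y) := by
      intro y
      calc T.τ (P.pinch (star x) * P.pinch y)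
          = ∑ i, T.τ (P.q i * P.pinch (star x) * P.q i * y) := by
            conv_lhs => rw [show P.pinch y = ∑ i, P.q i * y * P.q i from rfl, Finset.mul_sum,
              map_sum]
            refine Finset.sum_congr rfl fun i _ => ?_
            rw [← mul_assoc, T.comm]; simp only [mul_assoc]
        _ = T.τ (P.pinch (star x) * y) := by
            simp only [P.q_pinch_q]
            rw [← map_sum, ← Finset.sum_mul]; rfl
    rw [hs, h2]
  have h3 : T.n2 (P.pinch x) ^ 2 ≤ T.n2 (P.pinch x) * T.n2 x := by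
    rw [T.n2_sq, h1]
    exact (Complex.re_le_norm _).trans (T.cs _ _)
  by_cases h0 : T.n2 (P.pinch x) = 0
  · rw [h0]; exact T.n2_nonneg _
  · have := (T.n2_nonneg (P.pinch x)).lt_of_ne' h0
    nlinarith

lemma pinch_comm (P : Pt T f) {z : A} (hz : ∀ i, z * P.q i = P.q i * z) : P.pinch z = z * f := by
  refine Eq.trans ?_ (congrArg (z * ·) P.sum)
  rw [pinch, Finset.mul_sum]
  refine Finset.sum_congr rfl fun i _ => ?_
  rw [← hz, mul_assoc, P.sq]

/-- Step function on the partition. -/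
def step (P : Pt T f) (c : P.ι → ℂ) : A := ∑ i, c i • P.q i

lemma star_step_mul (P : Pt T f) (c : P.ι → ℂ) :
    star (P.step c) * P.step c = ∑ i, ((‖c i‖ ^ 2 : ℝ) : ℂ) • P.q i := by
  rw [step, star_sum, Finset.sum_mul]
  refine Finset.sum_congr rfl fun i _ => ?_
  rw [Finset.mul_sum, Finset.sum_eq_single i _ (by simp)]
  · rw [star_smul, P.star_q, smul_mul_smul_comm, P.sq]
    congr 1
    rw [RCLike.star_def, Complex.conj_mul']; simp
  · intro b _ hb
    rw [star_smul, P.star_q, smul_mul_smul_comm, P.orth i b hb.symm, smul_zero]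

lemma n2_step_sq (P : Pt T f) (c : P.ι → ℂ) :
    T.n2 (P.step c) ^ 2 = ∑ i, ‖c i‖ ^ 2 * (T.τ (P.q i)).re := by
  rw [T.n2_sq, star_step_mul, map_sum, Complex.re_sum]
  refine Finset.sum_congr rfl fun i _ => ?_
  rw [map_smul, smul_eq_mul, Complex.re_ofReal_mul]

lemma sum_τ (P : Pt T f) : ∑ i, (T.τ (P.q i)).re = (T.τ f).re := by
  rw [← Complex.re_sum, ← map_sum, P.sum]

end Pt

/-- Approximate independence of two projections. -/
def Ind (T : Tr A) (η : ℝ) (y q : A) : Prop :=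
  ‖T.τ (q * y) - T.τ q * T.τ y‖ ≤ η * ((T.τ q).re * (T.τ y).re)

lemma Ind.symm {T : Tr A} {η : ℝ} {y q : A} (h : Ind T η y q) : Ind T η q y := by
  unfold Ind at *
  rw [T.comm, mul_comm (T.τ y), mul_comm (T.τ y).re]; exact h

lemma Ind.mono {T : Tr A} {η η' : ℝ} {y q : A} (h : Ind T η y q) (hy : 0 < (T.τ y).re)
    (hq : 0 < (T.τ q).re) (hη : η ≤ η') : Ind T η' y q :=
  h.trans (mul_le_mul_of_nonneg_right hη (mul_pos hq hy).le)

lemma exists_pos_le {ι : Type*} [Fintype ι] (f : ι → ℝ) (hf : ∀ i, 0 < f i) :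
    ∃ δ > 0, ∀ i, δ ≤ f i := by
  rcases isEmpty_or_nonempty ι with h | h
  · exact ⟨1, one_pos, fun i => h.elim i⟩
  · obtain ⟨i, hi⟩ := Finite.exists_min f
    exact ⟨f i, hf i, hi⟩

/-- The refinement step. -/
lemma refine_step (hD : DixThm.{u}) (hR : RefThm.{u}) (T : Tr A) (hF : T.Faithful)
    (hC : T.Complete ⊤) (hDix : T.Dix ⊤) (hP : ∀ e, IsStarProjection e → T.Part ⊤ e)
    {f : A} (P : Pt T f) (F : Finset A) {κ : Type} [Fintype κ] (y : κ → A)
    (hy0 : ∀ k, 0 < (T.τ (y k)).re) {η η' ε : ℝ} (hη : η < η') (hε : 0 < ε)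
    (hI : ∀ k i, Ind T η (y k) (P.q i)) :
    ∃ P' : Pt T f, P'.Ref P ∧ (∀ j, (T.τ (P'.q j)).re ≤ ε) ∧
      (∀ x ∈ F, ∃ c, T.n2 (P'.pinch x - P'.step c) ≤ ε) ∧ ∀ k j, Ind T η' (y k) (P'.q j) := by
  classical
  obtain ⟨δ, hδ, hδy⟩ := exists_pos_le (fun k => (η' - η) * (T.τ (y k)).re)
    (fun k => mul_pos (sub_pos.2 hη) (hy0 k))
  set ε' : ℝ := min δ (ε / (Fintype.card P.ι + 1)) with hε'
  have hc1 : (0 : ℝ) < Fintype.card P.ι + 1 := by positivity
  have hε'0 : 0 < ε' := lt_min hδ (div_pos hε hc1)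
  have hε'1 : ε' ≤ ε := (min_le_right _ _).trans (div_le_self hε.le (by linarith [
    (Nat.cast_nonneg (Fintype.card P.ι) : (0 : ℝ) ≤ _)]))
  have H := fun i : P.ι => hR (Cor (P.proj i)) (T.corner (P.proj i) (P.pos i))
    (hD _ _ ⊤ (by simp) (T.corner_faithful hF) (T.corner_complete_top hF hC)
      (T.corner_irred_top hF (P.pos i) hDix))
    (T.corner_part_top (hP _ (P.proj i)))
    ((F ∪ Finset.univ.image y).image (Cor.cut (P.proj i))) ε' hε'0
  choose k q hq ho hs hx hy using H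
  have hτ1 := fun i => T.τ_proj_re_le_one (P.proj i)
  have hqτ : ∀ i a, (T.τ (q i a).val).re =
      ((T.corner (P.proj i) (P.pos i)).τ (q i a)).re * (T.τ (P.q i)).re := fun i a => by
    rw [T.corner_τ_re, div_mul_cancel₀ _ (P.pos i).ne']
  refine ⟨⟨Σ i, Fin (k i), inferInstance, fun j => (q j.1 j.2).val,
    fun j => (Cor.isStarProjection_iff _).1 (hq j.1 j.2).1, fun j => ?_, ?_, ?_⟩,
    fun j => ⟨j.1, Cor.mul_e _⟩, fun j => ?_, fun x hxF => ?_, fun l j => ?_⟩
  · rw [hqτ]; exact mul_pos (hq j.1 j.2).2.1 (P.pos _)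
  · rintro ⟨i, a⟩ ⟨j, b⟩ hne
    by_cases hij : i = j
    · subst hij
      exact congrArg Cor.val (ho i a b fun h => hne (by rw [h]))
    · show (q i a).val * (q j b).val = 0
      rw [← Cor.mul_e (q i a), ← Cor.e_mul (q j b), mul_assoc, ← mul_assoc (P.q i),
        P.orth i j hij, zero_mul, mul_zero]
  · rw [Fintype.sum_sigma]
    refine Eq.trans (Finset.sum_congr rfl fun i _ => ?_) P.sum
    simpa using congrArg Cor.val (hs i)
  · show (T.τ (q j.1 j.2).val).re ≤ ε
    rw [hqτ]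
    exact (mul_le_of_le_one_right (hq j.1 j.2).2.1.le (hτ1 _)).trans
      ((hq j.1 j.2).2.2.trans hε'1)
  · refine ⟨fun j => (T.corner (P.proj j.1) (P.pos j.1)).τ (Cor.cut (P.proj j.1) x), ?_⟩
    simp only [Pt.pinch, Pt.step]
    rw [Fintype.sum_sigma, Fintype.sum_sigma, ← Finset.sum_sub_distrib]
    refine (T.n2_sum_le _ _).trans ((Finset.sum_le_card_nsmul _ _ ε' fun i _ => ?_).trans ?_)
    · have h1 := (T.n2_val_le (h0 := P.pos i) _).trans
        (hx i (Cor.cut (P.proj i) x) (Finset.mem_image_of_mem _ (Finset.mem_union_left _ hxF)))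
      convert h1 using 2
      rw [← hs i]
      simp only [Cor.val_sub, Cor.val_sum, Cor.val_mul, Cor.val_cut, Cor.val_smul,
        Finset.smul_sum]
      congr 1
      refine Finset.sum_congr rfl fun a _ => ?_
      simp only [← mul_assoc, Cor.mul_e]
      rw [mul_assoc _ (P.q i), Cor.e_mul]
    · rw [nsmul_eq_mul, Finset.card_univ]
      calc (Fintype.card P.ι : ℝ) * ε' ≤ (Fintype.card P.ι + 1) * (ε / (Fintype.card P.ι + 1)) :=
            mul_le_mul (by linarith) (min_le_right _ _) hε'0.le hc1.le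
        _ = ε := by field_simp
  · obtain ⟨i, a⟩ := j
    show Ind T η' (y l) (q i a).val
    have h1 := hy i (Cor.cut (P.proj i) (y l))
      (Finset.mem_image_of_mem _ (Finset.mem_union_right _ (by simp))) a
    have h2 := hI l i
    have hpi := P.pos i
    set t : ℝ := (T.τ (P.q i)).re with ht
    have htc : T.τ (P.q i) = (t : ℂ) := T.τ_proj_re (P.proj i)
    have ht0 : (t : ℂ) ≠ 0 := by exact_mod_cast hpi.ne'
    have hr : IsStarProjection (q i a).val := (Cor.isStarProjection_iff _).1 (hq i a).1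
    set s : ℝ := (T.τ (q i a).val).re with hs'
    have hsc : T.τ (q i a).val = (s : ℂ) := T.τ_proj_re hr
    have hs0 : 0 ≤ s := T.τ_proj_re_nonneg hr
    have e1 : T.τ ((q i a).val * (P.q i * y l * P.q i)) = T.τ ((q i a).val * y l) := by
      rw [← mul_assoc, ← mul_assoc, Cor.mul_e, T.comm, ← mul_assoc, Cor.e_mul]
    have e2 : T.τ (P.q i * y l * P.q i) = T.τ (P.q i * y l) := by
      rw [T.comm, ← mul_assoc, P.sq]
    rw [T.corner_τ_re, T.corner_τ, T.corner_τ, T.corner_τ, Cor.val_mul, Cor.val_cut, e1, e2,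
      ← ht, ← hs', hsc] at h1
    unfold Ind at h2 ⊢
    rw [htc, Complex.ofReal_re] at h2
    rw [← hs', hsc]
    have e3 : T.τ ((q i a).val * y l) - s * T.τ (y l) =
        t * ((t : ℂ)⁻¹ * T.τ ((q i a).val * y l) - (t : ℂ)⁻¹ * s * ((t : ℂ)⁻¹ * T.τ (P.q i * y l)))
          + (s / t : ℝ) * (T.τ (P.q i * y l) - t * T.τ (y l)) := by
      push_cast; field_simp; ring
    rw [e3]
    refine (norm_add_le _ _).trans ?_
    rw [norm_mul, norm_mul, Complex.norm_real, Complex.norm_real, Real.norm_of_nonneg hpi.le,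
      Real.norm_of_nonneg (div_nonneg hs0 hpi.le)]
    have b1 := mul_le_mul_of_nonneg_left h1 hpi.le
    have b2 := mul_le_mul_of_nonneg_left h2 (div_nonneg hs0 hpi.le)
    have b3 : ε' ≤ (η' - η) * (T.τ (y l)).re := (min_le_left _ _).trans (hδy l)
    have b4 := mul_le_mul_of_nonneg_right b3 hs0
    have c1 : t * (ε' * (s / t)) = ε' * s := by field_simp
    have c2 : s / t * (η * (t * (T.τ (y l)).re)) = η * (s * (T.τ (y l)).re) := by field_simp
    rw [c1] at b1; rw [c2] at b2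
    nlinarith

/-- The final estimate at one stage. -/
lemma stage_estimate (T : Tr A) {e z : A} (he : IsStarProjection e) (hτe : T.τ e = 1 / 2)
    (P : Pt T (1 - e)) (Q : Pt T 1) {η δ : ℝ} (hη0 : 0 ≤ η) (hη : η ≤ 1 / 10) (hδ1 : δ ≤ 1)
    (hPQ : ∀ i j, Ind T η (P.q i) (Q.q j)) (heQ : ∀ j, Ind T η e (Q.q j))
    (hz : T.n2 z ≤ 1) (hz0 : T.τ z = 0) (c : Q.ι → ℂ) (d : P.ι → ℂ)
    (hc : T.n2 (z - Q.step c) ≤ δ) (hd : T.n2 (z * (1 - e) - P.step d) ≤ δ) :
    T.n2 z ^ 2 ≤ 40 * δ := by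
  have hee := he.isIdempotentElem.eq
  have hes := he.isSelfAdjoint.star_eq
  have hδ0 : 0 ≤ δ := (T.n2_nonneg _).trans hc
  set N := T.n2 z with hN
  have hN0 : 0 ≤ N := T.n2_nonneg _
  set x2 := Q.step c with hx2
  set x1 := P.step d with hx1
  have n2x2 : T.n2 x2 ≤ N + δ := by
    have := T.n2_sub_le z (z - x2); rw [sub_sub_cancel] at this; linarith
  have n2x1 : T.n2 x1 ≤ N + δ := by
    have h1 := T.n2_sub_le (z * (1 - e)) (z * (1 - e) - x1); rw [sub_sub_cancel] at h1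
    have h2 := (T.n2_mul_le' z (1 - e)).trans (mul_le_of_le_one_right hN0 he.one_sub.norm_le)
    linarith
  have hx10 := T.n2_nonneg x1
  have hx20 := T.n2_nonneg x2
  -- Pythagoras
  have hpy : N ^ 2 = T.n2 (z * e) ^ 2 + (T.τ (star (z * (1 - e)) * z)).re := by
    rw [hN, T.n2_sq, T.n2_sq, ← Complex.add_re, ← map_add]
    congr 1
    have : T.τ (star (z * e) * (z * e)) = T.τ (e * star z * z) := by
      rw [star_mul, hes, ← mul_assoc, T.comm, ← mul_assoc, ← mul_assoc, hee]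
    rw [map_add, this, ← map_add, star_mul, star_sub, star_one, hes]
    congr 1; noncomm_ring
  -- the `e` part
  have he1 : T.n2 (x2 * e) ^ 2 ≤ (11 / 20) * (N + δ) ^ 2 := by
    have h1 : T.n2 (x2 * e) ^ 2 = ∑ j, ‖c j‖ ^ 2 * (T.τ (Q.q j * e)).re := by
      have : T.τ (star (x2 * e) * (x2 * e)) = T.τ (star x2 * x2 * e) := by
        rw [star_mul, hes, mul_assoc, T.comm]; simp only [mul_assoc, hee]
      rw [T.n2_sq, this, hx2, Q.star_step_mul, Finset.sum_mul, map_sum, Complex.re_sum]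
      refine Finset.sum_congr rfl fun j _ => ?_
      rw [smul_mul_assoc, map_smul, smul_eq_mul, Complex.re_ofReal_mul]
    have h2 : ∀ j, (T.τ (Q.q j * e)).re ≤ (11 / 20) * (T.τ (Q.q j)).re := fun j => by
      have h3 := (Complex.re_le_norm _).trans (heQ j)
      rw [hτe] at h3
      simp only [Complex.sub_re, Complex.mul_re] at h3
      norm_num at h3
      have := Q.pos j
      nlinarith
    rw [h1]
    calc _ ≤ ∑ j, (11 / 20) * (‖c j‖ ^ 2 * (T.τ (Q.q j)).re) :=
          Finset.sum_le_sum fun j _ => by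
            have := mul_le_mul_of_nonneg_left (h2 j) (sq_nonneg ‖c j‖); linarith
      _ = (11 / 20) * T.n2 x2 ^ 2 := by rw [← Finset.mul_sum, hx2, Q.n2_step_sq]
      _ ≤ _ := by gcongr
  have he2 : T.n2 (z * e) ≤ (3 / 4) * (N + δ) + δ := by
    have h1 : T.n2 (x2 * e) ≤ (3 / 4) * (N + δ) :=
      abs_le_of_sq_le_sq' (by nlinarith [sq_nonneg (N + δ)]) (by positivity) |>.2
    have h2 := T.n2_add_le (x2 * e) ((z - x2) * e)
    rw [← add_mul, add_sub_cancel] at h2
    have h3 := (T.n2_mul_le' (z - x2) e).trans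
      (mul_le_of_le_one_right (T.n2_nonneg _) he.norm_le)
    linarith
  -- the `1 - e` part
  have hf1 : ‖T.τ (star x1 * x2)‖ ≤ (N + δ) * δ + η * (N + δ) ^ 2 := by
    have h1 : T.τ (star x1 * x2) - T.τ (star x1) * T.τ x2 =
        ∑ i, ∑ j, conj (d i) * c j * (T.τ (Q.q j * P.q i) - T.τ (Q.q j) * T.τ (P.q i)) := by
      simp only [hx1, hx2, Pt.step, star_sum, star_smul, P.star_q, Finset.sum_mul,
        Finset.mul_sum, map_sum, smul_mul_smul_comm, map_smul, smul_eq_mul, RCLike.star_def,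
        ← Finset.sum_sub_distrib]
      rw [Finset.sum_comm]
      refine Finset.sum_congr rfl fun i _ => Finset.sum_congr rfl fun j _ => ?_
      rw [T.comm]; ring
    have hsP : ∑ i, (T.τ (P.q i)).re ≤ 1 := by
      rw [P.sum_τ]; exact T.τ_proj_re_le_one he.one_sub
    have hsQ : ∑ j, (T.τ (Q.q j)).re = 1 := by rw [Q.sum_τ, T.map_one]; rfl
    have h2 : ‖T.τ (star x1 * x2) - T.τ (star x1) * T.τ x2‖ ≤ η * (N + δ) ^ 2 := by
      rw [h1]
      calc _ ≤ ∑ i, ∑ j, η / 2 * ((‖d i‖ ^ 2 * (T.τ (P.q i)).re) * (T.τ (Q.q j)).re +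
              (T.τ (P.q i)).re * (‖c j‖ ^ 2 * (T.τ (Q.q j)).re)) := by
            refine (norm_sum_le _ _).trans (Finset.sum_le_sum fun i _ =>
              (norm_sum_le _ _).trans (Finset.sum_le_sum fun j _ => ?_))
            rw [norm_mul, norm_mul, RCLike.norm_conj]
            refine (mul_le_mul_of_nonneg_left (hPQ i j) (by positivity)).trans ?_
            have h3 : ‖d i‖ * ‖c j‖ ≤ (‖d i‖ ^ 2 + ‖c j‖ ^ 2) / 2 := by
              nlinarith [sq_nonneg (‖d i‖ - ‖c j‖)]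
            have h4 := mul_le_mul_of_nonneg_right h3
              (mul_nonneg hη0 (mul_pos (Q.pos j) (P.pos i)).le)
            linarith
        _ = η / 2 * (T.n2 x1 ^ 2 * ∑ j, (T.τ (Q.q j)).re +
              (∑ i, (T.τ (P.q i)).re) * T.n2 x2 ^ 2) := by
            rw [hx1, hx2, P.n2_step_sq, Q.n2_step_sq, Finset.sum_mul_sum, Finset.sum_mul_sum,
              ← Finset.sum_add_distrib, Finset.mul_sum]
            refine Finset.sum_congr rfl fun i _ => ?_
            rw [← Finset.sum_add_distrib, Finset.mul_sum]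
        _ ≤ η / 2 * ((N + δ) ^ 2 * 1 + 1 * (N + δ) ^ 2) := by
            rw [hsQ]; gcongr
        _ = _ := by ring
    have h3 : ‖T.τ x2‖ ≤ δ := by
      have := (T.norm_τ_le_n2 (z - x2)).trans hc
      rwa [map_sub, hz0, zero_sub, norm_neg] at this
    have h4 : ‖T.τ (star x1)‖ ≤ N + δ := (T.norm_τ_le_n2 _).trans (by rw [T.n2_star]; exact n2x1)
    have h5 := norm_add_le (T.τ (star x1) * T.τ x2)
      (T.τ (star x1 * x2) - T.τ (star x1) * T.τ x2)
    rw [add_sub_cancel, norm_mul] at h5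
    have h6 := mul_le_mul h4 h3 (norm_nonneg _) (by positivity)
    linarith
  have hf2 : (T.τ (star (z * (1 - e)) * z)).re ≤
      δ * N + (N + δ) * δ + ((N + δ) * δ + η * (N + δ) ^ 2) := by
    have h1 : star (z * (1 - e)) * z =
        star (z * (1 - e) - x1) * z + star x1 * (z - x2) + star x1 * x2 := by
      rw [star_sub]; noncomm_ring
    refine (Complex.re_le_norm _).trans ?_
    rw [h1, map_add, map_add]
    refine (norm_add_le _ _).trans (add_le_add ((norm_add_le _ _).trans (add_le_add ?_ ?_)) hf1)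
    · exact (T.cs _ _).trans (mul_le_mul_of_nonneg_right hd hN0)
    · exact (T.cs _ _).trans (mul_le_mul n2x1 hc (T.n2_nonneg _) (by positivity))
  have he3 : T.n2 (z * e) ^ 2 ≤ ((3 / 4) * (N + δ) + δ) ^ 2 :=
    pow_le_pow_left₀ (T.n2_nonneg _) he2 2
  have h7 : η * (N + δ) ^ 2 ≤ 1 / 10 * (N + δ) ^ 2 := by gcongr
  have h8 : N * δ ≤ δ := mul_le_of_le_one_left hδ0 hz
  have h9 : δ * δ ≤ δ := mul_le_of_le_one_left hδ0 hδ1
  nlinarith

theorem towerThm (hD : DixThm.{u}) (hPt : PartThm.{u}) (hR : RefThm.{u}) : TowerThm.{u} := by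
  classical
  intro A _ T hF hC hS hI hfd
  have hDix : T.Dix ⊤ := hD A T ⊤ (by simp) hF hC hI
  have hfd' : ¬ FiniteDimensional ℂ (⊤ : StarSubalgebra ℂ A) := fun h =>
    hfd (Module.Finite.of_surjective (⊤ : StarSubalgebra ℂ A).subtype.toLinearMap
      fun a => ⟨⟨a, StarSubalgebra.mem_top⟩, rfl⟩)
  have hP := fun e he => hPt A T ⊤ hF hDix hC hfd' e StarSubalgebra.mem_top he
  obtain ⟨e, -, he, -, hτe⟩ := (hP 1 (IsStarProjection.one A)).1
  rw [T.map_one] at hτe
  have he0 : 0 < (T.τ e).re := by rw [hτe]; norm_num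
  have he1 : 0 < (T.τ (1 - e)).re := by rw [map_sub, T.map_one, hτe]; norm_num
  have h10 : 0 < (T.τ 1).re := by rw [T.map_one]; norm_num
  obtain ⟨x, -, hx⟩ := hS {a | ‖a‖ ≤ 1} 1 ⟨0, by simp⟩ (fun z hz => hz)
  let St := {s : Pt T (1 - e) × Pt T 1 // ∃ η, 0 ≤ η ∧ η < 1 / 10 ∧
    (∀ i j, Ind T η (s.1.q i) (s.2.q j)) ∧ ∀ j, Ind T η e (s.2.q j)}
  have hstep : ∀ (n : ℕ) (s : St), ∃ s' : St, s'.1.1.Ref s.1.1 ∧ s'.1.2.Ref s.1.2 ∧
      (∀ j, (T.τ (s'.1.2.q j)).re ≤ 1 / (n + 1 : ℝ)) ∧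
      ∀ i ≤ n, (∃ c, T.n2 (s'.1.2.pinch (x i) - s'.1.2.step c) ≤ 1 / (n + 1 : ℝ)) ∧
        ∃ c, T.n2 (s'.1.1.pinch (x i) - s'.1.1.step c) ≤ 1 / (n + 1 : ℝ) := by
    rintro n ⟨⟨P, Q⟩, η, hη0, hη, hPQ, heQ⟩
    have hn : (0 : ℝ) < 1 / (n + 1 : ℝ) := by positivity
    obtain ⟨Q', r1, t1, a1, i1⟩ := refine_step hD hR T hF hC hDix (fun e he => (hP e he).2) Q
      ((Finset.range (n + 1)).image x) (fun o : Option P.ι => o.elim e P.q)
      (fun o => by cases o; exacts [he0, P.pos _])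
      (show η < (2 * η + 1 / 10) / 3 by linarith) hn
      (fun o j => by cases o; exacts [heQ j, hPQ _ j])
    obtain ⟨P', r2, -, a2, i2⟩ := refine_step hD hR T hF hC hDix (fun e he => (hP e he).2) P
      ((Finset.range (n + 1)).image x) Q'.q Q'.pos
      (show (2 * η + 1 / 10) / 3 < (η + 2 / 10) / 3 by linarith) hn
      (fun j i => (i1 (some i) j).symm)
    refine ⟨⟨(P', Q'), (η + 2 / 10) / 3, by linarith, by linarith, fun i j => (i2 j i).symm,
      fun j => (i1 none j).mono he0 (Q'.pos j) (by linarith)⟩, r2, r1, t1, fun i hi => ?_⟩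
    have hm : x i ∈ (Finset.range (n + 1)).image x :=
      Finset.mem_image_of_mem _ (Finset.mem_range.2 (Nat.lt_succ_of_le hi))
    exact ⟨a1 _ hm, a2 _ hm⟩
  choose nx hnx using hstep
  let s0 : St := ⟨(Pt.one he.one_sub he1, Pt.one (IsStarProjection.one A) h10), 0, le_rfl,
    by norm_num, fun _ _ => by simp [Ind, Pt.one, T.map_one],
    fun _ => by simp [Ind, Pt.one, T.map_one]⟩
  let s : ℕ → St := fun n => Nat.rec s0 (fun n s => nx n s) n
  have hs : ∀ n, s (n + 1) = nx n (s n) := fun _ => rfl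
  have hrefP : ∀ m n, m ≤ n → (s n).1.1.Ref (s m).1.1 := fun m n h => by
    induction h with
    | refl => exact Pt.Ref.refl _
    | step _ ih => exact (hnx _ _).1.trans ih
  have hrefQ : ∀ m n, m ≤ n → (s n).1.2.Ref (s m).1.2 := fun m n h => by
    induction h with
    | refl => exact Pt.Ref.refl _
    | step _ ih => exact (hnx _ _).2.1.trans ih
  obtain ⟨p, hp⟩ := (Set.countable_iUnion fun n =>
    (Set.finite_range (s n).1.1.q).countable).exists_eq_range
    ⟨1 - e, Set.mem_iUnion.2 ⟨0, (), rfl⟩⟩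
  obtain ⟨q, hq⟩ := (Set.countable_iUnion fun n =>
    (Set.finite_range (s n).1.2.q).countable).exists_eq_range
    ⟨1, Set.mem_iUnion.2 ⟨0, (), rfl⟩⟩
  have hp1 : ∀ k, ∃ n i, p k = (s n).1.1.q i := fun k => by
    obtain ⟨n, i, hi⟩ := Set.mem_iUnion.1 (hp ▸ Set.mem_range_self k :
      p k ∈ ⋃ n, Set.range (s n).1.1.q)
    exact ⟨n, i, hi.symm⟩
  have hq1 : ∀ k, ∃ n i, q k = (s n).1.2.q i := fun k => by
    obtain ⟨n, i, hi⟩ := Set.mem_iUnion.1 (hq ▸ Set.mem_range_self k :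
      q k ∈ ⋃ n, Set.range (s n).1.2.q)
    exact ⟨n, i, hi.symm⟩
  have hp2 : ∀ n i, ∃ k, p k = (s n).1.1.q i := fun n i =>
    (hp ▸ Set.mem_iUnion.2 ⟨n, i, rfl⟩ : (s n).1.1.q i ∈ Set.range p)
  have hq2 : ∀ n i, ∃ k, q k = (s n).1.2.q i := fun n i =>
    (hq ▸ Set.mem_iUnion.2 ⟨n, i, rfl⟩ : (s n).1.2.q i ∈ Set.range q)
  refine ⟨e, p, q, he, hτe, fun k => ?_, fun k l => ⟨?_, ?_⟩, fun c hc => ?_, fun z hze hz => ?_⟩
  · obtain ⟨n, i, hi⟩ := hp1 k
    obtain ⟨m, j, hj⟩ := hq1 k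
    refine ⟨hi ▸ (s n).1.1.proj i, ?_, hj ▸ (s m).1.2.proj j⟩
    have := (s n).1.1.mul_f i
    rw [mul_sub, mul_one, sub_eq_self] at this
    rw [hi, this]
  · obtain ⟨n, i, hi⟩ := hp1 k
    obtain ⟨m, j, hj⟩ := hp1 l
    rw [hi, hj]
    rcases le_total m n with h | h
    · exact (hrefP m n h).comm i j
    · exact ((hrefP n m h).comm j i).symm
  · obtain ⟨n, i, hi⟩ := hq1 k
    obtain ⟨m, j, hj⟩ := hq1 l
    rw [hi, hj]
    rcases le_total m n with h | h
    · exact (hrefQ m n h).comm i j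
    · exact ((hrefQ n m h).comm j i).symm
  · obtain ⟨n, hn⟩ := exists_nat_one_div_lt hc
    have hne : Nonempty (s (n + 1)).1.2.ι := by
      by_contra h
      rw [not_nonempty_iff] at h
      have := (s (n + 1)).1.2.sum_τ
      rw [Finset.univ_eq_empty, Finset.sum_empty] at this
      exact h10.ne this
    obtain ⟨j⟩ := hne
    obtain ⟨k, hk⟩ := hq2 (n + 1) j
    exact ⟨k, hk ▸ (s (n + 1)).1.2.pos j, hk ▸ ((hnx n (s n)).2.2.1 j).trans hn.le⟩
  · have main : ∀ w : A, ‖w‖ ≤ 1 → T.τ w = 0 → (∀ n, w * p n = p n * w ∧ w * q n = q n * w) →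
        w = 0 := by
      intro w hw1 hw0 hw
      have key : ∀ δ : ℝ, 0 < δ → δ ≤ 1 → T.n2 w ^ 2 ≤ 40 * δ := by
        intro δ hδ hδ1
        obtain ⟨i, hi⟩ := hx w hw1 (δ / 2) (half_pos hδ)
        obtain ⟨n0, hn0⟩ := exists_nat_one_div_lt (half_pos hδ)
        set n := max i n0
        have hn : 1 / (n + 1 : ℝ) ≤ δ / 2 :=
          (Nat.one_div_le_one_div (le_max_right i n0)).trans hn0.le
        obtain ⟨⟨c, hc⟩, d, hd⟩ := (hnx n (s n)).2.2.2 i (le_max_left _ _)
        obtain ⟨η, hη0, hη, hPQ, heQ⟩ := (s (n + 1)).2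
        have hcP : ∀ j, w * (s (n + 1)).1.1.q j = (s (n + 1)).1.1.q j * w := fun j => by
          obtain ⟨k, hk⟩ := hp2 (n + 1) j; rw [← hk]; exact (hw k).1
        have hcQ : ∀ j, w * (s (n + 1)).1.2.q j = (s (n + 1)).1.2.q j * w := fun j => by
          obtain ⟨k, hk⟩ := hq2 (n + 1) j; rw [← hk]; exact (hw k).2
        refine stage_estimate T he hτe (s (n + 1)).1.1 (s (n + 1)).1.2 hη0 hη.le hδ1 hPQ heQ
          ((T.n2_le_norm w).trans hw1) hw0 c d ?_ ?_
        · have h1 := (s (n + 1)).1.2.n2_pinch_le (w - x i)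
          rw [Pt.pinch_sub, Pt.pinch_comm _ hcQ, mul_one] at h1
          refine (T.n2_triangle _ ((s (n + 1)).1.2.pinch (x i)) _).trans ?_
          have := hc.trans hn
          change T.n2 ((s (n + 1)).1.2.pinch (x i) - (s (n + 1)).1.2.step c) ≤ _ at this
          linarith
        · have h1 := (s (n + 1)).1.1.n2_pinch_le (w - x i)
          rw [Pt.pinch_sub, Pt.pinch_comm _ hcP] at h1
          refine (T.n2_triangle _ ((s (n + 1)).1.1.pinch (x i)) _).trans ?_
          have := hd.trans hn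
          change T.n2 ((s (n + 1)).1.1.pinch (x i) - (s (n + 1)).1.1.step d) ≤ _ at this
          linarith
      refine hF w (pow_eq_zero_iff two_ne_zero |>.1 (le_antisymm
        (le_of_forall_pos_le_add fun ε hε => ?_) (sq_nonneg _)))
      have := key (min 1 (ε / 40)) (lt_min one_pos (by positivity)) (min_le_left _ _)
      have := min_le_right 1 (ε / 40)
      linarith
    set y := z - T.τ z • (1 : A) with hy
    have hy1 : (0 : ℝ) < ‖y‖ + 1 := by positivity
    have := main ((((‖y‖ + 1)⁻¹ : ℝ) : ℂ) • y) (by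
        rw [norm_smul, Complex.norm_real, Real.norm_of_nonneg (inv_pos.2 hy1).le,
          inv_mul_le_iff₀ hy1]; linarith)
      (by rw [map_smul, hy, map_sub, map_smul, T.map_one]; simp)
      (fun n => by
        simp only [hy, smul_mul_assoc, mul_smul_comm, sub_mul, mul_sub, one_mul, mul_one,
          (hz n).1, (hz n).2, and_self])
    rw [smul_eq_zero] at this
    rcases this with h | h
    · exact absurd (by exact_mod_cast h) (inv_pos.2 hy1).ne'
    · exact ⟨T.τ z, sub_eq_zero.1 h⟩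

end Crest.Agent.GEN
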