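import Crest.Agent.GEN.Src

/-! Asymptotically free prefix products, and the refinement theorem. -/

set_option autoImplicit false
set_option linter.unusedSectionVars false
open NormedSpace Complex Filter Topology
open scoped Classical BigOperators ComplexConjugate

namespace Crest.Agent.GEN

universe u
variable {A : Type u} [CStarAlgebra A] {T : Tr A}
open Tok

/-- prefix products `v₀ u₀ ⋯ v_{k-1} u_{k-1}` -/
def pre (v u : ℕ → A) : ℕ → A
  | 0 => 1
  | k + 1 => pre v u k * v k * u k

lemma pre_unitary {v u : ℕ → A} (hv : ∀ k, v k ∈ unitary A) (hu : ∀ k, u k ∈ unitary A)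
    (k : ℕ) : pre v u k ∈ unitary A := by
  induction k with
  | zero => exact one_mem _
  | succ k ih => exact mul_mem (mul_mem ih (hv k)) (hu k)

lemma pre_update {v u : ℕ → A} (hv : ∀ k, v k ∈ unitary A) (hu : ∀ k, u k ∈ unitary A)
    (i : ℕ) (E : A) (k : ℕ) : pre (Function.update v i (E * v i)) u k =
      if i < k then pre v u i * E * star (pre v u i) * pre v u k else pre v u k := by
  induction k with
  | zero => simp [pre]
  | succ k ih =>
    rw [pre, ih, pre]
    rcases lt_trichotomy i k with h | rfl | h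
    · rw [if_pos h, if_pos (by omega), Function.update_of_ne h.ne']; simp only [mul_assoc]
    · rw [if_neg (lt_irrefl _), if_pos (by omega), Function.update_self]
      simp only [mul_assoc]
      rw [← mul_assoc (star (pre v u i)), Unitary.star_mul_self_of_mem (pre_unitary hv hu i),
        one_mul]
    · rw [if_neg (by omega), if_neg (by omega), Function.update_of_ne h.ne]

theorem free_tuple {S : StarSubalgebra ℂ A} (hS : IsClosed (S : Set A)) (hD : T.Dix S)
    (hP : T.Part S 1) (n : ℕ) [NeZero n] {u : ℕ → A} (hu : ∀ k, u k ∈ unitary A)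
    (W : Finset (List (Tok A (Fin n)))) (hW : ∀ w ∈ W, w ≠ [] ∧ Red T w) {ε : ℝ} (hε : 0 < ε) :
    ∃ v : ℕ → A, (∀ k, v k ∈ S ∧ v k ∈ unitary A) ∧
      ∀ w ∈ W, ‖T.τ (wval (fun i : Fin n => pre v u (i + 1)) w)‖ ≤ ε := by
  obtain ⟨R, hR⟩ := src_exists hD hP
  obtain ⟨_, ⟨v, hv, rfl⟩, h⟩ := free_exists (T := T)
    {g | ∃ v : ℕ → A, (∀ k, v k ∈ S ∧ v k ∈ unitary A) ∧ g = fun i : Fin n => pre v u (i + 1)}
    ⟨_, fun _ => 1, fun _ => ⟨one_mem _, one_mem _⟩, rfl⟩
    (by rintro _ ⟨v, hv, rfl⟩ j; exact pre_unitary (fun k => (hv k).2) hu _)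
    (by
      rintro _ ⟨v, hv, rfl⟩ i
      have hγ := pre_unitary (fun k => (hv k).2) hu i
      refine ⟨R.conj hγ, fun j ω δ => ⟨Function.update v i (eU δ (R.X j ω) * v i), fun k => ?_, ?_⟩⟩
      · by_cases hk : k = i
        · subst hk
          rw [Function.update_self]
          exact ⟨mul_mem (exp_mem_closed S.toSubalgebra hS (S.smul_mem (hR j ω) _)) (hv _).1,
            mul_mem (eU_unitary δ (R.sa j ω)) (hv _).2⟩
        · rw [Function.update_of_ne hk]; exact hv k
      · funext k
        rw [pre_update (fun k => (hv k).2) hu, pert]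
        have e : eU δ ((R.conj hγ).X j ω) = pre v u i * eU δ (R.X j ω) * star (pre v u i) := by
          rw [eU, eU, ← exp_conj_unitary hγ]
          simp only [Src.conj, mul_smul_comm, smul_mul_assoc]
        rw [e]
        exact if_congr (by rw [Fin.le_def]; omega) rfl rfl)
    W hW hε
  exact ⟨v, hv, h⟩

/-- centring -/
noncomputable def Tr.cen (T : Tr A) (a : A) : A := a - T.τ a • (1 : A)

@[simp] lemma Tr.τ_cen (a : A) : T.τ (T.cen a) = 0 := by simp [Tr.cen, T.map_one]
lemma Tr.eq_cen (T : Tr A) (a : A) : a = T.cen a + T.τ a • (1 : A) := by simp [Tr.cen]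
lemma Tr.star_cen (a : A) : star (T.cen a) = T.cen (star a) := by
  simp [Tr.cen, T.map_star]
lemma Tr.n2_cen_sq (a : A) : T.n2 (T.cen a) ^ 2 = T.n2 a ^ 2 - ‖T.τ a‖ ^ 2 := by
  rw [Tr.cen, T.n2_sub_sq, T.n2_smul, T.n2_one, mul_smul_comm, mul_one, map_smul, T.map_star,
    smul_eq_mul, mul_conj', ← ofReal_pow, ofReal_re]; ring
lemma Tr.n2_cen_le (a : A) : T.n2 (T.cen a) ≤ T.n2 a :=
  (abs_le_of_sq_le_sq' (by rw [Tr.n2_cen_sq]; nlinarith) (T.n2_nonneg a)).2

lemma n2_sum_orth {k : ℕ} {p : Fin k → A} (hp : ∀ a, IsStarProjection (p a))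
    (horth : ∀ a b, a ≠ b → p a * p b = 0) (y : Fin k → A) :
    T.n2 (∑ a, y a * p a) ^ 2 = ∑ a, T.n2 (y a * p a) ^ 2 := by
  simp only [T.n2_sq, star_sum, Finset.sum_mul_sum, map_sum, re_sum]
  refine Finset.sum_congr rfl fun a _ => Finset.sum_eq_single a (fun b _ hb => ?_) (by simp)
  rw [star_mul, (hp a).isSelfAdjoint.star_eq, mul_assoc, T.comm, mul_assoc, mul_assoc,
    horth b a hb]
  simp

theorem refThm : RefThm.{u} := by
  intro A _ T hD hP F ε hε
  set K : ℝ := 1 + ∑ x ∈ F, T.n2 (T.cen x) ^ 2 with hK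
  have hK1 : ∀ x ∈ F, T.n2 (T.cen x) ^ 2 ≤ K := fun x hx => by
    have := Finset.single_le_sum (f := fun x => T.n2 (T.cen x) ^ 2) (fun _ _ => sq_nonneg _) hx
    linarith
  have hK0 : 0 < K := by
    have := Finset.sum_nonneg (s := F) fun x _ => sq_nonneg (T.n2 (T.cen x)); linarith
  set c0 := min ε (min 1 (ε ^ 2 / (2 * K))) with hc0
  have hc00 : 0 < c0 := lt_min hε (lt_min one_pos (by positivity))
  obtain ⟨k, p, hp, horth, hsum⟩ := hP c0 hc00
  obtain ⟨η, hη, hη1, hη2⟩ : ∃ η > 0, (∀ a, η ≤ ε * (T.τ (p a)).re) ∧ 3 * k * η ≤ ε ^ 2 / 2 := by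
    have h1 : ∀ᶠ η in 𝓝[>] (0 : ℝ), ∀ a, η ≤ ε * (T.τ (p a)).re :=
      eventually_all.2 fun a => nhdsWithin_le_nhds
        (eventually_le_nhds (mul_pos hε (hp a).2.2.1))
    have h2 : ∀ᶠ η in 𝓝[>] (0 : ℝ), 3 * k * η ≤ ε ^ 2 / 2 := by
      refine nhdsWithin_le_nhds ?_
      have : Tendsto (fun η : ℝ => 3 * k * η) (𝓝 0) (𝓝 (3 * k * 0)) :=
        tendsto_id.const_mul _
      exact this.eventually (eventually_le_nhds (by simp; positivity))
    obtain ⟨η, h3, h4⟩ := ((h1.and h2).and self_mem_nhdsWithin).exists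
    exact ⟨η, h4, h3.1, h3.2⟩
  let w2 : A → A → List (Tok A (Fin 1)) := fun a y =>
    [l 0 true, c (T.cen a), l 0 false, c (T.cen y)]
  let F' : Finset A := F ∪ F.image (fun x => star (T.cen x) * T.cen x) ∪
    F.image (fun x => T.cen x * star (T.cen x))
  obtain ⟨v, hv, h⟩ := free_tuple (T := T) (S := ⊤) isClosed_univ hD hP 1 (u := fun _ => 1)
    (fun _ => one_mem _)
    (((Finset.univ ×ˢ F').image fun z : Fin k × A => w2 (p z.1) z.2) ∪
      ((Finset.univ ×ˢ F).image fun z : Fin k × A => w2 (p z.1) (star z.2) ++ w2 (p z.1) z.2))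
    (by
      intro w hw
      simp only [Finset.mem_union, Finset.mem_image] at hw
      rcases hw with ⟨z, -, rfl⟩ | ⟨z, -, rfl⟩
      · exact ⟨by simp [w2], by simp [w2, Adj], by simp [w2]⟩
      · exact ⟨by simp [w2], by simp [w2, Adj], by simp [w2]⟩) hη
  set g := v 0 with hg
  have hgu : g ∈ unitary A := (hv 0).2
  have h2 : ∀ a, ∀ y ∈ F', ‖T.τ (g * T.cen (p a) * star g * T.cen y)‖ ≤ η := fun a y hy => by
    have := h (w2 (p a) y) (Finset.mem_union_left _ (Finset.mem_image.2
      ⟨(a, y), Finset.mem_product.2 ⟨Finset.mem_univ _, hy⟩, rfl⟩))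
    simpa [w2, val, pre, mul_assoc] using this
  have h4 : ∀ a, ∀ x ∈ F, ‖T.τ (g * T.cen (p a) * star g * star (T.cen x) *
      (g * T.cen (p a) * star g) * T.cen x)‖ ≤ η := fun a x hx => by
    have := h (w2 (p a) (star x) ++ w2 (p a) x) (Finset.mem_union_right _ (Finset.mem_image.2
      ⟨(a, x), Finset.mem_product.2 ⟨Finset.mem_univ _, hx⟩, rfl⟩))
    simpa [w2, val, pre, mul_assoc, Tr.star_cen] using this
  have hτ : ∀ a : A, T.τ (g * a * star g) = T.τ a := fun a => by
    rw [T.comm, ← mul_assoc, Unitary.star_mul_self_of_mem hgu, one_mul]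
  have hmul : ∀ a b : A, g * a * star g * (g * b * star g) = g * (a * b) * star g := fun a b => by
    simp only [mul_assoc]
    rw [← mul_assoc (star g), Unitary.star_mul_self_of_mem hgu, one_mul]
  have hq : ∀ a, IsStarProjection (g * p a * star g) := fun a =>
    ⟨by rw [IsIdempotentElem, hmul, (hp a).2.1.isIdempotentElem.eq],
      by simp [IsSelfAdjoint, (hp a).2.1.isSelfAdjoint.star_eq, mul_assoc]⟩
  have hdec : ∀ a, g * p a * star g = g * T.cen (p a) * star g + T.τ (p a) • (1 : A) := fun a => by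
    conv_lhs => rw [T.eq_cen (p a)]
    simp [mul_add, add_mul, Unitary.mul_star_self_of_mem hgu]
  have h2' : ∀ a, ∀ y ∈ F', ‖T.τ (g * T.cen (p a) * star g * y)‖ ≤ η := fun a y hy => by
    conv_lhs => rw [T.eq_cen y]
    simpa [mul_add, hτ] using h2 a y hy
  have hsum' : ∑ a, g * p a * star g = 1 := by
    rw [← Finset.sum_mul, ← Finset.mul_sum, hsum, mul_one, Unitary.mul_star_self_of_mem hgu]
  have horth' : ∀ a b, a ≠ b → g * p a * star g * (g * p b * star g) = 0 := fun a b hab => by
    rw [hmul, horth a b hab]; simp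
  refine ⟨k, fun a => g * p a * star g, fun a => ⟨hq a, ?_, ?_⟩, horth', hsum',
    fun x hx => ?_, fun y hy a => ?_⟩
  · rw [hτ]; exact (hp a).2.2.1
  · rw [hτ]; exact (hp a).2.2.2.trans (min_le_left _ _)
  · set y := T.cen x with hy
    have e : ∑ a, g * p a * star g * x * (g * p a * star g) - T.τ x • (1 : A) =
        ∑ a, g * p a * star g * y * (g * p a * star g) := by
      simp only [hy, Tr.cen, mul_sub, sub_mul, Finset.sum_sub_distrib, mul_smul_comm, mul_one,
        smul_mul_assoc, (hq _).isIdempotentElem.eq, ← Finset.smul_sum, hsum']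
    rw [e]
    refine (abs_le_of_sq_le_sq' ?_ hε.le).2
    rw [n2_sum_orth hq horth']
    have each : ∀ a, T.n2 (g * p a * star g * y * (g * p a * star g)) ^ 2 ≤
        (T.τ (p a)).re * (c0 * K) + 3 * η := by
      intro a
      set q := g * p a * star g with hqdef
      set q0 := g * T.cen (p a) * star g with hq0
      set t := (T.τ (p a)).re with ht
      have ht0 : 0 < t := (hp a).2.2.1
      have htc : t ≤ c0 := (hp a).2.2.2
      have ht1 : t ≤ 1 := htc.trans ((min_le_right _ _).trans (min_le_left _ _))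
      have hτp : T.τ (p a) = t := by rw [ht, T.τ_proj (hp a).2.1, ofReal_re]
      have e1 : T.τ (star (q * y * q) * (q * y * q)) = T.τ (q * star y * q * y) := by
        have hs : star q = q := (hq a).isSelfAdjoint.star_eq
        have hi : q * q = q := (hq a).isIdempotentElem.eq
        rw [star_mul (q * y) q, star_mul q y, hs]
        calc T.τ (q * (star y * q) * (q * y * q)) = T.τ (q * star y * (q * q) * y * q) := by
              simp only [mul_assoc]
          _ = T.τ (q * q * star y * q * y) := by rw [hi, T.comm _ q]; simp only [← mul_assoc, hi]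
          _ = _ := by rw [hi]
      have e2 : T.τ (q * star y * q * y) = T.τ (q0 * star y * q0 * y) +
          t * T.τ (q0 * (star y * y)) + t * T.τ (q0 * (y * star y)) +
          t * t * T.τ (star y * y) := by
        rw [hqdef, hdec a, hτp, ← hq0]
        simp only [add_mul, mul_add, smul_mul_assoc, mul_smul_comm, one_mul, mul_one, map_add,
          map_smul, smul_eq_mul, mul_assoc]
        rw [T.comm (star y) (q0 * y)]
        simp only [mul_assoc]; ring
      have b1 := h4 a x hx
      have b2 := h2' a (star y * y) (by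
        simp only [F', Finset.mem_union, Finset.mem_image]; exact Or.inl (Or.inr ⟨x, hx, rfl⟩))
      have b3 := h2' a (y * star y) (by
        simp only [F', Finset.mem_union, Finset.mem_image]; exact Or.inr ⟨x, hx, rfl⟩)
      rw [T.n2_sq, e1, e2, T.τ_star_mul_self]
      simp only [add_re, re_ofReal_mul, ← ofReal_mul, ofReal_re]
      have c1 := (re_le_norm _).trans b1
      have c2 := (re_le_norm _).trans b2
      have c3 := (re_le_norm _).trans b3
      have c4 := hK1 x hx
      have c5 : t * T.n2 y ^ 2 ≤ c0 * K := mul_le_mul htc c4 (sq_nonneg _) hc00.le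
      nlinarith
    refine (Finset.sum_le_sum fun a _ => each a).trans ?_
    rw [Finset.sum_add_distrib, ← Finset.sum_mul, ← re_sum, ← map_sum, hsum, T.map_one]
    have c6 : c0 * K ≤ ε ^ 2 / 2 := by
      have : c0 ≤ ε ^ 2 / (2 * K) := (min_le_right _ _).trans (min_le_right _ _)
      rw [le_div_iff₀ (by positivity)] at this; linarith
    simp only [one_re, one_mul, Finset.sum_const, Finset.card_univ, Fintype.card_fin,
      nsmul_eq_mul]
    linarith
  · have := h2' a y (by simp only [F', Finset.mem_union]; exact Or.inl (Or.inl hy))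
    rw [hτ]
    refine le_trans (le_of_eq ?_) (this.trans (hη1 a))
    simp only
    rw [hdec a]; simp [add_mul]

end Crest.Agent.GEN
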