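import Crest.Agent.GEN.Basic
import Crest.Prelude.Def_VNFactor

/-! Concrete von Neumann algebras with a faithful tracial vector state. -/

set_option autoImplicit false
open scoped ComplexOrder ComplexConjugate InnerProductSpace
open Filter Topology Crest.OpAlg

namespace Crest.Agent.GEN

universe u

variable {H : Type u} [NormedAddCommGroup H] [InnerProductSpace ℂ H] [CompleteSpace H]

lemma vn_mem_iff (M : VonNeumannAlgebra H) (x : H →L[ℂ] H) :
    x ∈ M ↔ ∀ y ∈ M.commutant, y * x = x * y := by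
  conv_lhs => rw [← M.commutant_commutant]
  exact VonNeumannAlgebra.mem_commutant_iff

instance vn_isClosed (M : VonNeumannAlgebra H) :
    IsClosed (M.toStarSubalgebra : Set (H →L[ℂ] H)) := by
  have : (M.toStarSubalgebra : Set (H →L[ℂ] H)) = ⋂ y ∈ M.commutant, {x | y * x = x * y} := by
    ext x
    simp only [Set.mem_iInter, Set.mem_ofPred_eq]
    exact vn_mem_iff M x
  rw [this]
  exact isClosed_biInter fun y _ => isClosed_eq (by fun_prop) (by fun_prop)

/-- The commutant of a star subalgebra as a von Neumann algebra. -/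
noncomputable def vnComm (B : StarSubalgebra ℂ (H →L[ℂ] H)) : VonNeumannAlgebra H where
  toStarSubalgebra := StarSubalgebra.centralizer ℂ (B : Set (H →L[ℂ] H))
  centralizer_centralizer' := by simp

lemma mem_vnComm (B : StarSubalgebra ℂ (H →L[ℂ] H)) (x : H →L[ℂ] H) :
    x ∈ vnComm B ↔ ∀ b ∈ B, b * x = x * b := by
  change x ∈ StarSubalgebra.centralizer ℂ (B : Set (H →L[ℂ] H)) ↔ _
  rw [StarSubalgebra.mem_centralizer_iff]
  exact ⟨fun h b hb => (h b hb).1, fun h b hb => ⟨h b hb, h _ (star_mem hb)⟩⟩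

lemma proj_comm {E : Type*} [NormedAddCommGroup E] [InnerProductSpace ℂ E] [CompleteSpace E]
    (U : Submodule ℂ E) [U.HasOrthogonalProjection] (b c : E →L[ℂ] E)
    (hbc : ∀ v w, ⟪v, b w⟫_ℂ = ⟪c v, w⟫_ℂ) (h1 : ∀ v ∈ U, b v ∈ U) (h2 : ∀ v ∈ U, c v ∈ U) (v : E) :
    b (U.starProjection v) = U.starProjection (b v) := by
  symm
  refine Submodule.eq_starProjection_of_mem_orthogonal (h1 _ (U.starProjection_apply_mem v)) ?_
  rw [← map_sub, Submodule.mem_orthogonal]
  intro w hw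
  rw [hbc]
  exact (Submodule.mem_orthogonal _ _).1 (U.sub_starProjection_mem_orthogonal v) _ (h2 w hw)

/-- The Hilbert space of square-summable sequences. -/
abbrev KK (H : Type u) [NormedAddCommGroup H] : Type u := lp (fun _ : ℕ => H) 2

/-- Diagonal operators. -/
noncomputable def dg (b : H →L[ℂ] H) : KK H →L[ℂ] KK H :=
  lp.mapCLM 2 (fun _ => b) (norm_nonneg b) fun _ => le_rfl

omit [CompleteSpace H] in
@[simp] lemma dg_apply (b : H →L[ℂ] H) (v : KK H) (n : ℕ) : dg b v n = b (v n) := rfl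

omit [CompleteSpace H] in
lemma norm_dg_le (b : H →L[ℂ] H) : ‖dg b‖ ≤ ‖b‖ := lp.norm_mapCLM_le _ _ _ _

lemma inner_dg (b : H →L[ℂ] H) (v w : KK H) : ⟪v, dg b w⟫_ℂ = ⟪dg (star b) v, w⟫_ℂ := by
  rw [lp.inner_eq_tsum, lp.inner_eq_tsum]
  refine tsum_congr fun n => ?_
  rw [dg_apply, dg_apply, ContinuousLinearMap.star_eq_adjoint,
    ContinuousLinearMap.adjoint_inner_left]

omit [CompleteSpace H] in
lemma dg_mul (a b : H →L[ℂ] H) (v : KK H) : dg (a * b) v = dg a (dg b v) := by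
  ext n; rfl

omit [CompleteSpace H] in
lemma dg_one (v : KK H) : dg (1 : H →L[ℂ] H) v = v := by
  ext n; rfl

omit [InnerProductSpace ℂ H] [CompleteSpace H] in
lemma KK_hasSum (v : KK H) : HasSum (fun n => ‖v n‖ ^ 2) (‖v‖ ^ 2) := by
  have := lp.hasSum_norm (p := 2) (by norm_num) v
  simpa using this

/-- The map `x ↦ (x (Ξ n))ₙ`. -/
noncomputable def Ph (Ξ : KK H) : (H →L[ℂ] H) →L[ℂ] KK H :=
  LinearMap.mkContinuous
    { toFun := fun b => dg b Ξ
      map_add' := fun a b => by ext n; rfl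
      map_smul' := fun c a => by ext n; rfl } ‖Ξ‖ fun b => by
    rw [mul_comm]
    exact ((dg b).le_opNorm Ξ).trans (by gcongr; exact norm_dg_le b)

omit [CompleteSpace H] in
lemma Ph_apply (Ξ : KK H) (b : H →L[ℂ] H) : Ph Ξ b = dg b Ξ := rfl

/-- Finite-energy bicommutant theorem. -/
lemma Ph_bicomm (Ξ : KK H) (B : StarSubalgebra ℂ (H →L[ℂ] H)) (a : H →L[ℂ] H)
    (ha : ∀ T : H →L[ℂ] H, (∀ b ∈ B, b * T = T * b) → T * a = a * T) :
    Ph Ξ a ∈ closure (Ph Ξ '' B) := by
  let U₀ : Submodule ℂ (KK H) := B.toSubalgebra.toSubmodule.map (Ph Ξ).toLinearMap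
  let U := U₀.topologicalClosure
  have hU : (U : Set (KK H)) = closure (Ph Ξ '' B) := rfl
  have : CompleteSpace U := (Submodule.isClosed_topologicalClosure U₀).completeSpace_coe
  have hinv : ∀ b ∈ B, ∀ v ∈ U, dg b v ∈ U := fun b hb v hv => by
    have : Set.MapsTo (dg b) (Ph Ξ '' B) (Ph Ξ '' B) := by
      rintro _ ⟨c, hc, rfl⟩
      exact ⟨b * c, mul_mem hb hc, dg_mul _ _ _⟩
    exact this.closure (dg b).continuous hv
  have hcomm : ∀ b ∈ B, ∀ v, dg b (U.starProjection v) = U.starProjection (dg b v) :=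
    fun b hb => proj_comm U (dg b) (dg (star b)) (inner_dg b) (hinv b hb) (hinv _ (star_mem hb))
  have hsingle : ∀ (b : H →L[ℂ] H) (l : ℕ) (w : H),
      dg b (lp.single 2 l w) = lp.single 2 l (b w) := fun b l w => by
    ext n
    by_cases h : n = l
    · subst h; simp
    · simp [Pi.single_eq_of_ne h]
  have hE : ∀ k l : ℕ, ∀ w : H, (U.starProjection (lp.single 2 l (a w))) k =
      a ((U.starProjection (lp.single 2 l w)) k) := fun k l w => by
    let T : H →L[ℂ] H := lp.evalCLM ℂ (fun _ : ℕ => H) 2 k ∘L U.starProjection ∘L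
      lp.singleContinuousLinearMap ℂ (fun _ : ℕ => H) 2 l
    have hT : ∀ w, T w = (U.starProjection (lp.single 2 l w)) k := fun w => rfl
    have := ha T fun b hb => by
      ext w
      rw [mul_apply_eq_comp, mul_apply_eq_comp, hT, hT, ← hsingle, ← hcomm b hb, dg_apply]
    have h2 := congrArg (fun S : H →L[ℂ] H => S w) this
    simpa only [mul_apply_eq_comp, hT] using h2
  have hc : U.starProjection ∘L dg a = dg a ∘L U.starProjection := by
    refine lp.ext_continuousLinearMap (by norm_num) fun l => ?_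
    ext w k
    simp only [ContinuousLinearMap.comp_apply, lp.singleContinuousLinearMap_apply]
    rw [hsingle, hE, dg_apply]
  have h1 : Ξ ∈ U := subset_closure ⟨1, one_mem B, dg_one Ξ⟩
  have h2 : U.starProjection (dg a Ξ) = dg a Ξ := by
    have := congrArg (fun S : KK H →L[ℂ] KK H => S Ξ) hc
    simp only [ContinuousLinearMap.comp_apply] at this
    rw [this, Submodule.starProjection_eq_self_iff.2 h1]
  rw [← hU, Ph_apply, ← h2]
  exact U.starProjection_apply_mem _

omit [CompleteSpace H] in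
lemma KK_sep [TopologicalSpace.SeparableSpace H] :
    TopologicalSpace.IsSeparable (Set.univ : Set (KK H)) := by
  let s : Set (KK H) := ⋃ l : ℕ, Set.range (lp.singleContinuousLinearMap ℂ (fun _ : ℕ => H) 2 l)
  have hs : TopologicalSpace.IsSeparable s :=
    .iUnion fun l => TopologicalSpace.isSeparable_range (ContinuousLinearMap.continuous _)
  refine (hs.span (R := ℂ)).closure.mono fun v _ => ?_
  refine mem_closure_of_tendsto (lp.hasSum_single (p := 2) (by norm_num) v)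
    (Eventually.of_forall fun t => ?_)
  exact Submodule.sum_mem _ fun l _ => Submodule.subset_span (Set.mem_iUnion.2 ⟨l, v l, rfl⟩)

section
variable {M : VonNeumannAlgebra H} {ξ : ℕ → H} (hξ : IsFaithfulTracialVectorState M ξ)

/-- The vector `ξ` as an element of `ℓ²(ℕ, H)`. -/
noncomputable def Xi : KK H := ⟨ξ, memℓp_gen (by simpa using hξ.1.summable)⟩

@[simp] lemma Xi_apply (n : ℕ) : Xi hξ n = ξ n := rfl

lemma norm_Xi : ‖Xi hξ‖ = 1 := by
  have := (KK_hasSum (Xi hξ)).unique hξ.1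
  exact (sq_eq_sq₀ (norm_nonneg _) zero_le_one).1 (by simpa using this)

lemma vectorState_eq (x : H →L[ℂ] H) : vectorState ξ x = ⟪Xi hξ, Ph (Xi hξ) x⟫_ℂ := by
  rw [lp.inner_eq_tsum]; rfl

lemma traceNormSq_eq (x : H →L[ℂ] H) : traceNormSq ξ x = ‖Ph (Xi hξ) x‖ ^ 2 :=
  (KK_hasSum (Ph (Xi hξ) x)).tsum_eq

lemma inner_Ph (x y : H →L[ℂ] H) :
    ⟪Xi hξ, Ph (Xi hξ) (star x * y)⟫_ℂ = ⟪Ph (Xi hξ) x, Ph (Xi hξ) y⟫_ℂ := by
  rw [Ph_apply, dg_mul, inner_dg, star_star]; rfl

/-- The trace of `M`. -/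
noncomputable def vnTr : Tr M.toStarSubalgebra where
  τ := innerSL ℂ (Xi hξ) ∘L Ph (Xi hξ) ∘L M.toStarSubalgebra.toSubalgebra.toSubmodule.subtypeL
  map_one := by
    change ⟪Xi hξ, dg 1 (Xi hξ)⟫_ℂ = 1
    rw [dg_one, inner_self_eq_norm_sq_to_K, norm_Xi]; simp
  comm a b := by
    have := hξ.2.1 a a.2 b b.2
    rwa [vectorState_eq hξ, vectorState_eq hξ] at this
  nonneg a := by
    change 0 ≤ ⟪Xi hξ, Ph (Xi hξ) (star (a : H →L[ℂ] H) * a)⟫_ℂ
    rw [inner_Ph, inner_self_eq_norm_sq_to_K]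
    rw [← RCLike.ofReal_pow]
    exact Complex.zero_le_real.2 (sq_nonneg _)
  map_star a := by
    change ⟪Xi hξ, dg (star (a : H →L[ℂ] H)) (Xi hξ)⟫_ℂ = conj ⟪Xi hξ, dg a (Xi hξ)⟫_ℂ
    rw [inner_dg, star_star, inner_conj_symm]

lemma vnTr_τ (a : M.toStarSubalgebra) : (vnTr hξ).τ a = vectorState ξ a :=
  (vectorState_eq hξ a).symm

lemma vnTr_n2 (a : M.toStarSubalgebra) : (vnTr hξ).n2 a = ‖Ph (Xi hξ) a‖ := by
  rw [← sq_eq_sq₀ ((vnTr hξ).n2_nonneg a) (norm_nonneg _), Tr.n2_sq]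
  change (⟪Xi hξ, Ph (Xi hξ) (star (a : H →L[ℂ] H) * a)⟫_ℂ).re = _
  rw [inner_Ph, inner_self_eq_norm_sq_to_K]
  norm_cast

lemma vnTr_n2_sq (a : M.toStarSubalgebra) : (vnTr hξ).n2 a ^ 2 = traceNormSq ξ a := by
  rw [vnTr_n2, traceNormSq_eq hξ]

lemma apply_le_n2 (a : M.toStarSubalgebra) (k : ℕ) :
    ‖(a : H →L[ℂ] H) (ξ k)‖ ≤ (vnTr hξ).n2 a := by
  rw [vnTr_n2]
  exact lp.norm_apply_le_norm (p := 2) (by norm_num) (Ph (Xi hξ) a) k

lemma vn_faithful : (vnTr hξ).Faithful := fun a ha => by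
  refine Subtype.ext (hξ.2.2 a a.2 fun n => ?_)
  have := apply_le_n2 hξ a n
  rw [ha] at this
  exact norm_le_zero_iff.1 this

include hξ in
/-- The vectors `m' ξ k` (`m'` in the commutant) are total. -/
lemma vn_total (v : H) (hv : ∀ m ∈ M.commutant, ∀ k, ⟪m (ξ k), v⟫_ℂ = 0) : v = 0 := by
  let D : Submodule ℂ H := Submodule.span ℂ {w | ∃ m ∈ M.commutant, ∃ k, w = m (ξ k)}
  have hD : ∀ v, v ∈ Dᗮ ↔ ∀ m ∈ M.commutant, ∀ k, ⟪m (ξ k), v⟫_ℂ = 0 := fun v => by
    constructor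
    · intro h m hm k
      exact (Submodule.mem_orthogonal _ _).1 h _ (Submodule.subset_span ⟨m, hm, k, rfl⟩)
    · intro h
      rw [Submodule.mem_orthogonal]
      intro w hw
      induction hw using Submodule.span_induction with
      | mem w hw => obtain ⟨m, hm, k, rfl⟩ := hw; exact h m hm k
      | zero => simp
      | add x y _ _ hx hy => rw [inner_add_left, hx, hy, add_zero]
      | smul c x _ hx => rw [inner_smul_left, hx, mul_zero]
  have hinv : ∀ b ∈ M.commutant, ∀ v ∈ Dᗮ, b v ∈ Dᗮ := fun b hb v hv => by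
    rw [hD] at hv ⊢
    intro m hm k
    rw [← ContinuousLinearMap.adjoint_inner_left, ← ContinuousLinearMap.star_eq_adjoint]
    exact hv (star b * m) (mul_mem (star_mem hb) hm) k
  have hq : Dᗮ.starProjection ∈ M := by
    rw [vn_mem_iff]
    intro b hb
    ext w
    exact proj_comm Dᗮ b (star b) (fun v w => by
      rw [ContinuousLinearMap.star_eq_adjoint, ContinuousLinearMap.adjoint_inner_left])
      (hinv b hb) (hinv _ (star_mem hb)) w
  have h0 := hξ.2.2 _ hq fun n => by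
    rw [Submodule.starProjection_apply_eq_zero_iff]
    exact D.le_orthogonal_orthogonal (Submodule.subset_span ⟨1, one_mem _, n, rfl⟩)
  have := Submodule.starProjection_eq_self_iff.2 ((hD v).2 hv)
  rw [← this, h0]; rfl

lemma apply_comm_le (a : M.toStarSubalgebra) {m : H →L[ℂ] H} (hm : m ∈ M.commutant) (k : ℕ) :
    ‖(a : H →L[ℂ] H) (m (ξ k))‖ ≤ ‖m‖ * (vnTr hξ).n2 a := by
  have h := VonNeumannAlgebra.mem_commutant_iff.1 hm a a.2
  have : (a : H →L[ℂ] H) (m (ξ k)) = m ((a : H →L[ℂ] H) (ξ k)) := by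
    rw [← mul_apply_eq_comp, h, mul_apply_eq_comp]
  rw [this]
  exact (m.le_opNorm _).trans (by gcongr; exact apply_le_n2 hξ a k)

/-- C1: commutation passes to 2-norm limits. -/
theorem vn_commute (a : M.toStarSubalgebra) (T : H →L[ℂ] H)
    (h : ∀ ε > 0, ∃ b : M.toStarSubalgebra, T * b = b * T ∧ (vnTr hξ).n2 (a - b) < ε) :
    T * a = a * T := by
  rw [← sub_eq_zero]
  set Z := T * a - a * T with hZ
  have key : ∀ m ∈ M.commutant, ∀ k, ∀ m' ∈ M.commutant, ∀ l, ⟪m' (ξ l), Z (m (ξ k))⟫_ℂ = 0 := by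
    intro m hm k m' hm' l
    set η := m (ξ k)
    set ζ := m' (ξ l)
    set C := ‖ζ‖ * (‖T‖ * ‖m‖) + ‖m'‖ * ‖T η‖
    have hC : 0 ≤ C := by positivity
    refine norm_le_zero_iff.1 (le_of_forall_pos_le_add fun ε hε => ?_)
    obtain ⟨b, hb, hab⟩ := h (ε / (C + 1)) (by positivity)
    have e1 : Z η = T (((a - b : M.toStarSubalgebra) : H →L[ℂ] H) η) -
        ((a - b : M.toStarSubalgebra) : H →L[ℂ] H) (T η) := by
      have := congrArg (fun S : H →L[ℂ] H => S η) hb
      simp only [mul_apply_eq_comp] at this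
      simp [hZ, this]
    have e2 : ⟪ζ, ((a - b : M.toStarSubalgebra) : H →L[ℂ] H) (T η)⟫_ℂ =
        ⟪((star (a - b) : M.toStarSubalgebra) : H →L[ℂ] H) ζ, T η⟫_ℂ := by
      rw [StarMemClass.coe_star, ContinuousLinearMap.star_eq_adjoint,
        ContinuousLinearMap.adjoint_inner_left]
    have h1 := apply_comm_le hξ (a - b) hm k
    have h2 := apply_comm_le hξ (star (a - b)) hm' l
    rw [Tr.n2_star] at h2
    have h0 := (vnTr hξ).n2_nonneg (a - b)
    set t := (vnTr hξ).n2 (a - b)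
    rw [e1, inner_sub_right, e2, zero_add]
    calc _ ≤ ‖ζ‖ * (‖T‖ * (‖m‖ * t)) + ‖m'‖ * t * ‖T η‖ := by
          refine (norm_sub_le _ _).trans (add_le_add ?_ ?_)
          · refine (norm_inner_le_norm _ _).trans ?_
            gcongr
            exact (T.le_opNorm _).trans (by gcongr)
          · refine (norm_inner_le_norm _ _).trans ?_
            gcongr
      _ = C * t := by simp only [C]; ring
      _ ≤ (C + 1) * (ε / (C + 1)) := by gcongr; linarith
      _ = ε := by field_simp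
  have k2 : ∀ m ∈ M.commutant, ∀ k, Z (m (ξ k)) = 0 := fun m hm k =>
    vn_total hξ _ (key m hm k)
  have k3 : ContinuousLinearMap.adjoint Z = 0 := by
    ext v
    refine vn_total hξ _ fun m hm k => ?_
    rw [ContinuousLinearMap.adjoint_inner_right, k2 m hm k, inner_zero_left]
  rw [← ContinuousLinearMap.star_eq_adjoint, star_eq_zero] at k3
  exact k3

/-- A von Neumann subalgebra viewed inside `M`. -/
noncomputable def sub (P M : VonNeumannAlgebra H) : StarSubalgebra ℂ M.toStarSubalgebra :=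
  P.toStarSubalgebra.comap M.toStarSubalgebra.subtype

lemma mem_sub {P M : VonNeumannAlgebra H} {a : M.toStarSubalgebra} :
    a ∈ sub P M ↔ (a : H →L[ℂ] H) ∈ P := Iff.rfl

lemma sub_self (M : VonNeumannAlgebra H) : sub M M = ⊤ :=
  eq_top_iff.2 fun a _ => a.2

lemma isClosed_sub (P M : VonNeumannAlgebra H) : IsClosed (sub P M : Set M.toStarSubalgebra) :=
  (vn_isClosed P).preimage continuous_subtype_val

/-- C2: completeness of bounded parts. -/
theorem vn_complete (P : VonNeumannAlgebra H) (hP : P ≤ M) : (vnTr hξ).Complete (sub P M) := by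
  intro a C haP haC hcau
  have hC : 0 ≤ C := (norm_nonneg _).trans (haC 0)
  have hap : ∀ n v, ‖(a n : H →L[ℂ] H) v‖ ≤ C * ‖v‖ := fun n v =>
    ((a n : H →L[ℂ] H).le_opNorm v).trans (by gcongr; exact haC n)
  let Z : Submodule ℂ H :=
    { carrier := {η | CauchySeq fun n => (a n : H →L[ℂ] H) η}
      add_mem' := fun {x y} hx hy => by
        simpa [Pi.add_def] using CauchySeq.add hx hy
      zero_mem' := by simpa using cauchySeq_const (0 : H)
      smul_mem' := fun c x hx => by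
        simpa [Function.comp_def] using (uniformContinuous_const_smul c).comp_cauchySeq hx }
  have hZc : IsClosed (Z : Set H) := by
    refine isClosed_of_closure_subset fun η hη => ?_
    change CauchySeq _
    rw [Metric.cauchySeq_iff]
    intro ε hε
    obtain ⟨w, hw, hd⟩ := Metric.mem_closure_iff.1 hη (ε / (4 * (C + 1))) (by positivity)
    obtain ⟨N, hN⟩ := Metric.cauchySeq_iff.1 hw (ε / 2) (by positivity)
    refine ⟨N, fun m hm n hn => ?_⟩
    have h1 : ∀ n, dist ((a n : H →L[ℂ] H) η) ((a n : H →L[ℂ] H) w) ≤ ε / 4 := fun n => by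
      rw [dist_eq_norm, ← map_sub]
      rw [dist_eq_norm] at hd
      calc _ ≤ C * ‖η - w‖ := hap n _
        _ ≤ (C + 1) * (ε / (4 * (C + 1))) := by gcongr; linarith
        _ = ε / 4 := by field_simp
    have := dist_triangle4 ((a m : H →L[ℂ] H) η) ((a m : H →L[ℂ] H) w) ((a n : H →L[ℂ] H) w)
      ((a n : H →L[ℂ] H) η)
    have h2 := h1 n
    rw [dist_comm] at h2
    linarith [h1 m, hN m hm n hn]
  have : CompleteSpace Z := hZc.completeSpace_coe
  have hgen : ∀ m ∈ M.commutant, ∀ k, m (ξ k) ∈ Z := fun m hm k => by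
    change CauchySeq _
    rw [Metric.cauchySeq_iff]
    intro ε hε
    obtain ⟨N, hN⟩ := hcau (ε / (‖m‖ + 1)) (by positivity)
    refine ⟨N, fun i hi j hj => ?_⟩
    have h1 := apply_comm_le hξ (a i - a j) hm k
    have h2 := hN i hi j hj
    have h0 := (vnTr hξ).n2_nonneg (a i - a j)
    rw [dist_eq_norm]
    calc _ ≤ ‖m‖ * (vnTr hξ).n2 (a i - a j) := by simpa using h1
      _ ≤ (‖m‖ + 1) * (vnTr hξ).n2 (a i - a j) := by gcongr; linarith
      _ < (‖m‖ + 1) * (ε / (‖m‖ + 1)) := by gcongr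
      _ = ε := by field_simp
  have hZ : Z = ⊤ := by
    rw [← Submodule.orthogonal_eq_bot_iff, eq_bot_iff]
    intro v hv
    exact vn_total hξ v fun m hm k => (Submodule.mem_orthogonal _ _).1 hv _ (hgen m hm k)
  have hlim : ∀ η, ∃ z, Tendsto (fun n => (a n : H →L[ℂ] H) η) atTop (𝓝 z) := fun η =>
    cauchySeq_tendsto_of_complete (show η ∈ Z by rw [hZ]; trivial)
  choose f hf using hlim
  have hfb : ∀ η, ‖f η‖ ≤ C * ‖η‖ := fun η => le_of_tendsto' (hf η).norm fun n => hap n η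
  let b : H →L[ℂ] H := LinearMap.mkContinuous
    { toFun := f
      map_add' := fun x y => tendsto_nhds_unique (hf (x + y)) (by simpa using (hf x).add (hf y))
      map_smul' := fun c x => tendsto_nhds_unique (hf (c • x))
        (by simpa using (hf x).const_smul c) } C hfb
  have hb : ∀ η, Tendsto (fun n => (a n : H →L[ℂ] H) η) atTop (𝓝 (b η)) := hf
  have hbP : b ∈ P := by
    rw [vn_mem_iff]
    intro y hy
    ext η
    refine tendsto_nhds_unique ((y.continuous.tendsto _).comp (hb η)) ?_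
    refine (hb (y η)).congr fun n => ?_
    have := (vn_mem_iff P _).1 (mem_sub.1 (haP n)) y hy
    exact (congrArg (fun S : H →L[ℂ] H => S η) this).symm
  refine ⟨⟨b, hP hbP⟩, hbP, b.opNorm_le_bound hC hfb, ?_⟩
  have hc : CauchySeq fun n => Ph (Xi hξ) (a n) := by
    rw [Metric.cauchySeq_iff]
    intro ε hε
    obtain ⟨N, hN⟩ := hcau ε hε
    refine ⟨N, fun i hi j hj => ?_⟩
    have := hN i hi j hj
    rw [vnTr_n2] at this
    rw [dist_eq_norm, ← map_sub]
    exact this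
  obtain ⟨L, hL⟩ := cauchySeq_tendsto_of_complete hc
  have hLb : L = Ph (Xi hξ) b := by
    ext k
    exact tendsto_nhds_unique
      (((lp.evalCLM ℂ (fun _ : ℕ => H) 2 k).continuous.tendsto _).comp hL) (hb (ξ k))
  rw [hLb, tendsto_iff_norm_sub_tendsto_zero] at hL
  refine hL.congr fun n => ?_
  rw [vnTr_n2, ← map_sub]; rfl

theorem vn_complete_top : (vnTr hξ).Complete ⊤ := by
  rw [← sub_self]; exact vn_complete hξ M le_rfl

theorem vn_sep [TopologicalSpace.SeparableSpace H] : (vnTr hξ).Sep := by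
  intro Z C hZ _
  let g : M.toStarSubalgebra → KK H := fun a => Ph (Xi hξ) a
  obtain ⟨t, ht, htc, hd⟩ := ((KK_sep (H := H)).mono (Set.subset_univ (g '' Z))).exists_countable_dense_subset
  have htn : t.Nonempty := by
    obtain ⟨z, hz⟩ := hZ
    exact closure_nonempty_iff.1 ⟨_, hd ⟨z, hz, rfl⟩⟩
  obtain ⟨s, rfl⟩ := htc.exists_eq_range htn
  choose x hx hxs using fun n => ht ⟨n, rfl⟩
  refine ⟨x, hx, fun z hz ε hε => ?_⟩
  obtain ⟨_, ⟨n, rfl⟩, hn⟩ := Metric.mem_closure_iff.1 (hd ⟨z, hz, rfl⟩) ε hε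
  refine ⟨n, ?_⟩
  rw [← hxs, dist_eq_norm] at hn
  rw [vnTr_n2]
  simp only [g, ← map_sub] at hn
  exact hn

/-- C3: the bicommutant of `B` lies in the 2-norm closure of `B`. -/
theorem vn_bicomm (B : StarSubalgebra ℂ M.toStarSubalgebra) (a : M.toStarSubalgebra)
    (ha : ∀ T : H →L[ℂ] H, (∀ b ∈ B, (b : H →L[ℂ] H) * T = T * b) → T * a = a * T) :
    ∀ ε > 0, ∃ b ∈ B, (vnTr hξ).n2 (b - a) < ε := by
  intro ε hε
  have := Ph_bicomm (Xi hξ) (B.map M.toStarSubalgebra.subtype) a fun T hT =>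
    ha T fun b hb => hT b ⟨b, hb, rfl⟩
  obtain ⟨_, ⟨_, ⟨b, hb, rfl⟩, rfl⟩, hn⟩ := Metric.mem_closure_iff.1 this ε hε
  refine ⟨b, hb, ?_⟩
  rw [dist_comm, dist_eq_norm, ← map_sub] at hn
  rw [vnTr_n2]
  exact hn

/-- Generation in the von Neumann sense is 2-norm density of the generated ⋆-algebra. -/
theorem vn_gen_iff (P : VonNeumannAlgebra H) (hP : P ≤ M) (u : M.toStarSubalgebra) :
    (∀ N : VonNeumannAlgebra H, P ≤ N → (u : H →L[ℂ] H) ∈ N → M ≤ N) ↔
      ∀ x, ∀ δ > 0, (vnTr hξ).Gen (sub P M) u x δ := by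
  constructor
  · intro h x δ hδ
    let B := StarAlgebra.adjoin ℂ (insert u (sub P M : Set M.toStarSubalgebra))
    let N := (vnComm (B.map M.toStarSubalgebra.subtype)).commutant
    have hBN : ∀ b ∈ B, (b : H →L[ℂ] H) ∈ N := fun b hb => by
      rw [VonNeumannAlgebra.mem_commutant_iff]
      intro g hg
      exact ((mem_vnComm _ _).1 hg b ⟨b, hb, rfl⟩).symm
    have hMN := h N (fun p hp => hBN ⟨p, hP hp⟩
      (StarAlgebra.subset_adjoin ℂ _ (Set.mem_insert_of_mem _ hp)))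
      (hBN u (StarAlgebra.subset_adjoin ℂ _ (Set.mem_insert _ _)))
    refine vn_bicomm hξ B x (fun T hT => ?_) δ hδ
    refine VonNeumannAlgebra.mem_commutant_iff.1 (hMN x.2) T ((mem_vnComm _ _).2 ?_)
    rintro _ ⟨b, hb, rfl⟩
    exact hT b hb
  · intro h N hPN hu a ha
    rw [vn_mem_iff]
    intro T hT
    refine vn_commute hξ ⟨a, ha⟩ T fun ε hε => ?_
    obtain ⟨b, hb, hab⟩ := h ⟨a, ha⟩ ε hε
    have hbN : b ∈ sub N M := by
      refine (StarAlgebra.adjoin_le ?_ : _ ≤ sub N M) hb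
      rintro x (rfl | hx)
      · exact hu
      · exact hPN hx
    exact ⟨b, (VonNeumannAlgebra.mem_commutant_iff.1 hT b hbN).symm, by rwa [Tr.n2_sub_rev]⟩

end

lemma mem_unitary_vn {M : VonNeumannAlgebra H} (u : M.toStarSubalgebra) :
    u ∈ unitary M.toStarSubalgebra ↔ (u : H →L[ℂ] H) ∈ unitary (H →L[ℂ] H) := by
  simp only [Unitary.mem_iff, Subtype.ext_iff]
  rfl

lemma sub_infinite {P M : VonNeumannAlgebra H} (hP : P ≤ M)
    (h : ¬ FiniteDimensional ℂ P.toStarSubalgebra) : ¬ FiniteDimensional ℂ (sub P M) := by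
  intro hf
  refine h ?_
  let f : sub P M →ₗ[ℂ] P.toStarSubalgebra :=
    { toFun := fun a => ⟨a.1, a.2⟩
      map_add' := fun _ _ => rfl
      map_smul' := fun _ _ => rfl }
  exact Module.Finite.of_surjective f fun p => ⟨⟨⟨p, hP p.2⟩, p.2⟩, rfl⟩

lemma sub_irred {P M : VonNeumannAlgebra H} (hP : P ≤ M)
    (h : ∀ x ∈ M, (∀ y ∈ P, x * y = y * x) → ∃ c : ℂ, x = c • (1 : H →L[ℂ] H)) :
    Irred (sub P M) := by
  intro z hz
  obtain ⟨c, hc⟩ := h z z.2 fun y hy => congrArg Subtype.val (hz ⟨y, hP hy⟩ hy)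
  exact ⟨c, Subtype.ext hc⟩

end Crest.Agent.GEN
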